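import Vale.Agent.P371.Gen.Defs

/-!
Calculus of matrix valued functions: continuous linear trace, adjoint and product.
-/

set_option linter.unusedSectionVars false

namespace Vale.Agent.P371.Gen

open MeasureTheory Matrix Real
open scoped Matrix.Norms.Frobenius ComplexOrder

variable {k l n : Type*} [Fintype k] [Fintype l] [Fintype n] [DecidableEq n]

lemma rtr_add (A B : Matrix n n ℂ) : rtr (A + B) = rtr A + rtr B := by simp [rtr, trace_add]

lemma rtr_sub (A B : Matrix n n ℂ) : rtr (A - B) = rtr A - rtr B := by simp [rtr, trace_sub]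

lemma rtr_neg (A : Matrix n n ℂ) : rtr (-A) = -rtr A := by simp [rtr, trace_neg]

lemma rtr_smul (c : ℝ) (A : Matrix n n ℂ) : rtr (c • A) = c * rtr A := by
  simp [rtr, trace_smul, Complex.real_smul]

lemma rtr_zero : rtr (0 : Matrix n n ℂ) = 0 := by simp [rtr]

lemma rtr_conjTranspose (A : Matrix n n ℂ) : rtr Aᴴ = rtr A := by simp [rtr, trace_conjTranspose]

lemma rtr_mul_comm {k : Type*} [Fintype k] [DecidableEq k] (A : Matrix n k ℂ) (B : Matrix k n ℂ) :
    rtr (A * B) = rtr (B * A) := by simp [rtr, trace_mul_comm A B]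

lemma rtr_conjTranspose_mul_self_nonneg {k : Type*} [Fintype k] (A : Matrix k n ℂ) :
    0 ≤ rtr (Aᴴ * A) :=
  (Complex.le_def.1 (posSemidef_conjTranspose_mul_self A).trace_nonneg).1

/-- The real part of the trace as a continuous linear map. -/
noncomputable def rtrL : Matrix n n ℂ →L[ℝ] ℝ :=
  LinearMap.toContinuousLinearMap
    { toFun := rtr, map_add' := rtr_add, map_smul' := fun c A => rtr_smul c A }

@[simp] lemma rtrL_apply (A : Matrix n n ℂ) : rtrL A = rtr A := rfl

/-- The conjugate transpose as a continuous linear map. -/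
noncomputable def adjL : Matrix k l ℂ →L[ℝ] Matrix l k ℂ :=
  LinearMap.toContinuousLinearMap
    { toFun := fun A => Aᴴ
      map_add' := conjTranspose_add
      map_smul' := fun c A => by
        simp only [RingHom.id_apply]
        rw [conjTranspose_smul, star_trivial] }

omit [Fintype n] [DecidableEq n] in
@[simp] lemma adjL_apply (A : Matrix k l ℂ) : adjL A = Aᴴ := rfl

/-- The matrix product as a continuous bilinear map. -/
noncomputable def mulL (k l n : Type*) [Fintype k] [Fintype l] [Fintype n] :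
    Matrix k l ℂ →L[ℝ] Matrix l n ℂ →L[ℝ] Matrix k n ℂ :=
  LinearMap.toContinuousLinearMap
    ((LinearMap.toContinuousLinearMap (𝕜 := ℝ)).toLinearMap.comp
      (LinearMap.mk₂ ℝ (fun (A : Matrix k l ℂ) (B : Matrix l n ℂ) => A * B) Matrix.add_mul
        (fun c A B => Matrix.smul_mul c A B) Matrix.mul_add (fun c A B => Matrix.mul_smul A c B)))

omit [DecidableEq n] in
@[simp] lemma mulL_apply (A : Matrix k l ℂ) (B : Matrix l n ℂ) : mulL k l n A B = A * B := rfl

omit [DecidableEq n] in
lemma hasDerivWithinAt_mul {f : ℝ → Matrix k l ℂ} {g : ℝ → Matrix l n ℂ} {f' : Matrix k l ℂ}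
    {g' : Matrix l n ℂ} {s : Set ℝ} {x : ℝ} (hf : HasDerivWithinAt f f' s x)
    (hg : HasDerivWithinAt g g' s x) :
    HasDerivWithinAt (fun y => f y * g y) (f' * g x + f x * g') s x := by
  have h := (mulL k l n).hasDerivWithinAt_of_bilinear hf hg
  rw [add_comm]
  exact h

omit [Fintype n] [DecidableEq n] in
lemma hasDerivWithinAt_adj {f : ℝ → Matrix k l ℂ} {f' : Matrix k l ℂ} {s : Set ℝ} {x : ℝ}
    (hf : HasDerivWithinAt f f' s x) : HasDerivWithinAt (fun y => (f y)ᴴ) f'ᴴ s x :=
  (adjL (k := k) (l := l)).hasFDerivAt.comp_hasDerivWithinAt x hf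

lemma hasDerivWithinAt_rtr {f : ℝ → Matrix n n ℂ} {f' : Matrix n n ℂ} {s : Set ℝ} {x : ℝ}
    (hf : HasDerivWithinAt f f' s x) : HasDerivWithinAt (fun y => rtr (f y)) (rtr f') s x :=
  (rtrL (n := n)).hasFDerivAt.comp_hasDerivWithinAt x hf

lemma continuous_rtr : Continuous (rtr : Matrix n n ℂ → ℝ) := (rtrL (n := n)).continuous

omit [DecidableEq n] in
lemma continuousOn_mul {X : Type*} [TopologicalSpace X] {s : Set X} {f : X → Matrix k l ℂ}
    {g : X → Matrix l n ℂ} (hf : ContinuousOn f s) (hg : ContinuousOn g s) :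
    ContinuousOn (fun y => f y * g y) s :=
  (continuous_fst.matrix_mul continuous_snd).comp_continuousOn (hf.prodMk hg)

omit [Fintype n] [DecidableEq n] in
lemma continuousOn_adj {X : Type*} [TopologicalSpace X] {s : Set X} {f : X → Matrix k l ℂ}
    (hf : ContinuousOn f s) : ContinuousOn (fun y => (f y)ᴴ) s :=
  (adjL (k := k) (l := l)).continuous.comp_continuousOn hf

lemma rtr_integral {a b : ℝ} {f : ℝ → Matrix n n ℂ} (hf : IntervalIntegrable f volume a b) :
    rtr (∫ x in a..b, f x) = ∫ x in a..b, rtr (f x) :=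
  ((rtrL (n := n)).intervalIntegral_comp_comm hf).symm

omit [DecidableEq n] in
lemma conj_integral {a b : ℝ} {f : ℝ → Matrix l l ℂ} (hf : IntervalIntegrable f volume a b)
    (A : Matrix k l ℂ) (B : Matrix l n ℂ) :
    ∫ x in a..b, A * f x * B = A * (∫ x in a..b, f x) * B := by
  let T : Matrix l l ℂ →L[ℝ] Matrix k n ℂ :=
    ((mulL k l n).flip B).comp (mulL k l l A)
  exact T.intervalIntegral_comp_comm hf

end Vale.Agent.P371.Gen
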