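import Vale.Agent.P371.Gen.CalibBasic

/-!
The calibration inequality along a Riccati path flipping from `C` to `-C`.
-/

namespace Vale.Agent.P371.Gen

open MeasureTheory Matrix Real Filter Topology
open scoped Matrix.Norms.Frobenius ComplexOrder

variable {n : Type*} [Fintype n] [DecidableEq n]

lemma calCont_rMat {α : Type*} [TopologicalSpace α] {s : Set α} {k g : α → Matrix n n ℂ}
    (hk : ContinuousOn k s) (hg : ContinuousOn g s)
    (h : ∀ x ∈ s, (k x - g x).PosDef ∧ (k x + g x).PosDef) :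
    ContinuousOn (fun x => rMat (k x) (g x)) s := by
  have h1 : ContinuousOn (fun x => (k x, g x)) s := hk.prodMk hg
  exact ContinuousOn.comp (g := fun q : Matrix n n ℂ × Matrix n n ℂ => rMat q.1 q.2) (f := fun x => (k x, g x)) continuousOn_rMat h1 h
lemma calCont_lam {α : Type*} [TopologicalSpace α] {s : Set α} {k g : α → Matrix n n ℂ}
    (hk : ContinuousOn k s) (hg : ContinuousOn g s)
    (h : ∀ x ∈ s, (k x - g x).PosDef ∧ (k x + g x).PosDef) :
    ContinuousOn (fun x => lam (k x) (g x)) s := by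
  have h1 : ContinuousOn (fun x => (k x, g x)) s := hk.prodMk hg
  exact ContinuousOn.comp (g := fun q : Matrix n n ℂ × Matrix n n ℂ => lam q.1 q.2) (f := fun x => (k x, g x)) continuousOn_lam h1 h

section kt

variable {C : Matrix n n ℂ}

lemma cal_kt_eq_calDg (hC : C.IsHermitian) (t : ℝ) : kt C t = calDg hC fun x => √(x ^ 2 + t) :=
  calDg_cfc hC _

lemma calRoot_pos (x : ℝ) {t : ℝ} (ht : 0 < t) : 0 < √(x ^ 2 + t) := Real.sqrt_pos.2 (by positivity)

lemma calRoot_lt {x t : ℝ} (hx : 0 ≤ x) (ht : 0 < t) : x < √(x ^ 2 + t) := by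
  rw [Real.lt_sqrt hx]
  linarith

lemma cal_kt_posDef (hC : C.IsHermitian) {t : ℝ} (ht : 0 < t) : (kt C t).PosDef := by
  rw [cal_kt_eq_calDg hC]
  exact calDg_posDef hC fun i => calRoot_pos _ ht

lemma cal_kt_sub_posDef (hC : C.PosSemidef) {t : ℝ} (ht : 0 < t) : (kt C t - C).PosDef := by
  have h : kt C t - C = calDg hC.1 fun x => √(x ^ 2 + t) - x := by
    rw [cal_kt_eq_calDg hC.1, ← calDg_sub hC.1, calDg_self]
  rw [h]
  exact calDg_posDef hC.1 fun i => sub_pos.2 (calRoot_lt (hC.eigenvalues_nonneg i) ht)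

lemma cal_kt_box_left (hC : C.PosSemidef) {G : Matrix n n ℂ} (hG : InBox C G) {t : ℝ} (ht : 0 < t) :
    (kt C t - G).PosDef := by
  rw [← sub_add_sub_cancel (kt C t) C G]
  exact (cal_kt_sub_posDef hC ht).add_posSemidef hG.1

lemma cal_kt_box_right (hC : C.PosSemidef) {G : Matrix n n ℂ} (hG : InBox C G) {t : ℝ} (ht : 0 < t) :
    (kt C t + G).PosDef := by
  rw [show kt C t + G = (kt C t - C) + (C + G) by abel]
  exact (cal_kt_sub_posDef hC ht).add_posSemidef hG.2

lemma InBox.calIsHermitian (hC : C.IsHermitian) {G : Matrix n n ℂ} (hG : InBox C G) :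
    G.IsHermitian := by
  have := hG.2.1.sub hC
  rwa [add_sub_cancel_left] at this

lemma cal_kt_mul_kt (hC : C.IsHermitian) {t : ℝ} (ht : 0 < t) :
    kt C t * kt C t = C * C + t • 1 := by
  rw [cal_kt_eq_calDg hC, calDg_mul, ← calDg_one hC, calDg_smul, mul_one]
  have e : C * C = calDg hC (fun x => x * x) := by rw [← calDg_mul, calDg_self]
  rw [e, calDg_add]
  exact calDg_congr hC fun i => by
    rw [Real.mul_self_sqrt (by positivity)]
    ring

lemma cal_hasDerivAt_kt (hC : C.IsHermitian) {t : ℝ} (ht : 0 < t) :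
    HasDerivAt (kt C) ((1 / 2 : ℝ) • (kt C t)⁻¹) t := by
  have hfun : kt C = fun s => calDg hC fun x => √(x ^ 2 + s) := funext (cal_kt_eq_calDg hC)
  rw [hfun]
  simp only
  rw [calDg_inv hC fun i => (calRoot_pos _ ht).ne', calDg_smul]
  refine cal_hasDerivAt_calDg hC fun i => ?_
  have h := ((hasDerivAt_id t).const_add (hC.eigenvalues i ^ 2)).sqrt
    (by simp only [id]; positivity)
  refine h.congr_deriv ?_
  simp only [id]
  field_simp

lemma calContinuous_kt (hC : C.IsHermitian) : Continuous (kt C) := by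
  rw [show kt C = fun s => calDg hC fun x => √(x ^ 2 + s) from funext (cal_kt_eq_calDg hC)]
  exact cal_continuous_calDg hC fun i => by fun_prop

lemma calLam_diag (hC : C.PosSemidef) {t : ℝ} (ht : 0 < t) :
    2 * t * lam (kt C t) C = ∑ i, t / √(hC.1.eigenvalues i ^ 2 + t) *
      Real.log ((√(hC.1.eigenvalues i ^ 2 + t) + hC.1.eigenvalues i) /
        (√(hC.1.eigenvalues i ^ 2 + t) - hC.1.eigenvalues i)) := by
  set k : ℝ → ℝ := fun x => √(x ^ 2 + t)
  have hpos : ∀ v ∈ Set.Icc (-1 : ℝ) 1, ∀ i, 0 < k (hC.1.eigenvalues i) + v * hC.1.eigenvalues i := by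
    intro v hv i
    have h1 : hC.1.eigenvalues i < k (hC.1.eigenvalues i) := calRoot_lt (hC.eigenvalues_nonneg i) ht
    nlinarith [hC.eigenvalues_nonneg i, hv.1, hv.2]
  have hint : ∀ v ∈ Set.Icc (-1 : ℝ) 1, rtr ((kt C t)⁻¹ * C * (pencil (kt C t) C v)⁻¹) =
      ∑ i, (k (hC.1.eigenvalues i))⁻¹ * (hC.1.eigenvalues i /
        (k (hC.1.eigenvalues i) + v * hC.1.eigenvalues i)) := by
    intro v hv
    have hp : pencil (kt C t) C v = calDg hC.1 fun x => k x + v * x := by
      rw [pencil, cal_kt_eq_calDg hC.1, show (v : ℂ) • C = v • C from Complex.coe_smul v C]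
      conv_lhs => arg 2; rw [← calDg_self hC.1, calDg_smul]
      rw [calDg_add]
    rw [hp, calDg_inv hC.1 fun i => (hpos v hv i).ne', cal_kt_eq_calDg hC.1,
      calDg_inv hC.1 fun i => (calRoot_pos _ ht).ne']
    conv_lhs => arg 1; arg 1; arg 2; rw [← calDg_self hC.1]
    rw [calDg_mul, calDg_mul, cal_rtr_calDg]
    exact Finset.sum_congr rfl fun i _ => by ring
  have h1 : (-1 : ℝ) ≤ 1 := by norm_num
  have key : ∀ i, ∫ v in (-1 : ℝ)..1, (k (hC.1.eigenvalues i))⁻¹ * (hC.1.eigenvalues i /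
      (k (hC.1.eigenvalues i) + v * hC.1.eigenvalues i)) =
      (k (hC.1.eigenvalues i))⁻¹ * Real.log ((k (hC.1.eigenvalues i) + hC.1.eigenvalues i) /
        (k (hC.1.eigenvalues i) - hC.1.eigenvalues i)) := by
    intro i
    set c := hC.1.eigenvalues i
    rw [intervalIntegral.integral_const_mul,
      intervalIntegral.integral_eq_sub_of_hasDerivAt (f := fun v => Real.log (k c + v * c))]
    · have p1 := hpos 1 ⟨by norm_num, le_rfl⟩ i
      have p2 := hpos (-1) ⟨le_rfl, by norm_num⟩ i
      rw [one_mul] at p1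
      rw [neg_one_mul, ← sub_eq_add_neg] at p2
      rw [one_mul, neg_one_mul, ← sub_eq_add_neg, ← Real.log_div p1.ne' p2.ne']
    · intro v hv
      rw [Set.uIcc_of_le h1] at hv
      simpa using (((hasDerivAt_id v).mul_const c).const_add (k c)).log (hpos v hv i).ne'
    · refine ContinuousOn.intervalIntegrable ?_
      rw [Set.uIcc_of_le h1]
      exact continuousOn_const.div (by fun_prop) fun v hv => (hpos v hv i).ne'
  have hI : ∀ i, IntervalIntegrable (fun v => (k (hC.1.eigenvalues i))⁻¹ * (hC.1.eigenvalues i /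
      (k (hC.1.eigenvalues i) + v * hC.1.eigenvalues i))) volume (-1) 1 := fun i => by
    refine (ContinuousOn.intervalIntegrable ?_).const_mul _
    rw [Set.uIcc_of_le h1]
    exact continuousOn_const.div (by fun_prop) fun v hv => (hpos v hv i).ne'
  rw [lam, intervalIntegral.integral_congr (g := fun v => ∑ i, (k (hC.1.eigenvalues i))⁻¹ *
    (hC.1.eigenvalues i / (k (hC.1.eigenvalues i) + v * hC.1.eigenvalues i)))
    (by intro v hv; rw [Set.uIcc_of_le h1] at hv; exact hint v hv),
    intervalIntegral.integral_finsetSum fun i _ => hI i, Finset.mul_sum, Finset.mul_sum]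
  refine Finset.sum_congr rfl fun i _ => ?_
  rw [key]
  simp only [k]
  ring

end kt

lemma cal_lam_neg (K G : Matrix n n ℂ) : lam K (-G) = -lam K G := by
  have h : ∀ v, rtr (K⁻¹ * -G * (pencil K (-G) v)⁻¹) = -rtr (K⁻¹ * G * (pencil K G (-v))⁻¹) := by
    intro v
    rw [show pencil K (-G) v = pencil K G (-v) by simp [pencil]]
    simp [rtr]
  rw [lam, lam]
  simp only [h, intervalIntegral.integral_neg,
    intervalIntegral.integral_comp_neg (fun v => rtr (K⁻¹ * G * (pencil K G v)⁻¹)), neg_neg]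
  ring

/-- The trace inequality between `B = 1 - t R` and the scalar function `phiT`. -/
lemma calKlein {P : Matrix n n ℂ} (hP : P.PosSemidef) {R : Matrix n n ℂ} (hR : R.PosDef)
    {r t : ℝ} (hr : 0 ≤ r) (ht : 0 < t) {L : ℝ} (hL : -L ≤ calLd R) :
    r * (rtr P - t * rtr (R * P)) ≤ ∑ i, phiT t (r * hP.1.eigenvalues i) +
      t * (t * rtr R - Fintype.card n + (L - Fintype.card n * Real.log t)) := by
  set N : ℝ := (Fintype.card n : ℝ) with hN
  set M := calDg hP.1 fun x => 1 + r * x / t
  have hpos : ∀ i, 0 < 1 + r * hP.1.eigenvalues i / t := fun i => by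
    have := hP.eigenvalues_nonneg i
    positivity
  have h := calLd_mul_le (hR.smul ht)
    (calDg_posDef hP.1 (f := fun x => 1 + r * x / t) hpos)
  have hsm : calLd (t • R) = N * Real.log t + calLd R := by
    have : (t • R).det.re = t ^ Fintype.card n * R.det.re := by
      rw [show t • R = (t : ℂ) • R from (Complex.coe_smul t R).symm, det_smul, ← Complex.ofReal_pow,
        Complex.re_ofReal_mul]
    rw [calLd, calLd, this, Real.log_mul (by positivity) (calDet_re_pos hR).ne', Real.log_pow]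
  have hM : M = 1 + (r / t) • P := by
    conv_rhs => rw [← calDg_self hP.1, calDg_smul, ← calDg_one hP.1, calDg_add]
    exact calDg_congr hP.1 fun i => by ring
  have htr : rtr (t • R * M) = t * rtr R + r * rtr (R * P) := by
    rw [hM, smul_mul_assoc, mul_add, mul_one, mul_smul_comm, cal_rtr_smul, cal_rtr_add, cal_rtr_smul]
    field_simp
  change calLd (t • R) + calLd M ≤ rtr (t • R * M) - N at h
  rw [hsm, htr, show calLd M = ∑ i, Real.log (1 + r * hP.1.eigenvalues i / t) from
    calLd_calDg hP.1 (f := fun x => 1 + r * x / t) hpos] at h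
  have hphi : ∑ i, phiT t (r * hP.1.eigenvalues i) =
      r * rtr P - t * ∑ i, Real.log (1 + r * hP.1.eigenvalues i / t) := by
    have e : rtr P = ∑ i, hP.1.eigenvalues i := by
      conv_lhs => rw [← calDg_self hP.1]
      rw [cal_rtr_calDg]
    simp only [phiT]
    rw [Finset.sum_sub_distrib, e, Finset.mul_sum, Finset.mul_sum]
  rw [hphi]
  nlinarith [mul_le_mul_of_nonneg_left h ht.le, mul_le_mul_of_nonneg_left hL ht.le]

/-- The boundary function `t^p ell - t^a tr S`. -/
noncomputable def calPot (a : ℝ) (C G : Matrix n n ℂ) (t : ℝ) : ℝ :=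
  t ^ (1 + a) * (logDet2 (kt C t) G - Fintype.card n * Real.log t) - t ^ a * rtr (C * C - G * G)

section potential

variable {C G : Matrix n n ℂ}

lemma calEll_le (hC : C.PosSemidef) (hG : InBox C G) {t : ℝ} (ht : 0 < t) :
    t * (logDet2 (kt C t) G - Fintype.card n * Real.log t) ≤ rtr (C * C - G * G) := by
  have hQ := cal_kt_box_right hC hG ht
  have h := calLd_mul_le (cal_kt_box_left hC hG ht) (hQ.smul (inv_pos.2 ht))
  have hs : calLd (t⁻¹ • (kt C t + G)) = calLd (kt C t + G) - Fintype.card n * Real.log t := by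
    have : (t⁻¹ • (kt C t + G)).det.re = t⁻¹ ^ Fintype.card n * (kt C t + G).det.re := by
      rw [show t⁻¹ • (kt C t + G) = ((t⁻¹ : ℝ) : ℂ) • (kt C t + G) from (Complex.coe_smul _ _).symm,
        det_smul, ← Complex.ofReal_pow, Complex.re_ofReal_mul]
    rw [calLd, calLd, this, Real.log_mul (by positivity) (calDet_re_pos hQ).ne', Real.log_pow,
      Real.log_inv]
    ring
  have hm : rtr ((kt C t - G) * (kt C t + G)) = rtr (C * C - G * G) + t * Fintype.card n := by
    rw [mul_add, sub_mul, sub_mul, cal_kt_mul_kt hC.1 ht]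
    simp only [cal_rtr_add, cal_rtr_sub, cal_rtr_smul, cal_rtr_one]
    rw [cal_rtr_comm (kt C t) G]
    ring
  rw [hs, mul_smul_comm, cal_rtr_smul, hm] at h
  simp only [logDet2]
  change t * (calLd (kt C t - G) + calLd (kt C t + G) - _) ≤ _
  field_simp at h
  nlinarith [h]

lemma calPot_nonpos (hC : C.PosSemidef) (hG : InBox C G) {a t : ℝ} (ht : 0 < t) :
    calPot a C G t ≤ 0 := by
  have h := mul_le_mul_of_nonneg_left (calEll_le hC hG ht) (Real.rpow_nonneg ht.le a)
  rw [calPot, Real.rpow_add ht, Real.rpow_one]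
  nlinarith [h]

/-- The error at the lower endpoint. -/
noncomputable def calErr (a : ℝ) (hC : C.IsHermitian) (ε : ℝ) : ℝ :=
  ε ^ a * rtr (C * C) + ε ^ (1 + a) * (-(Fintype.card n : ℝ) * Real.log ε +
    2 * ∑ i, Real.log (2 * √(hC.eigenvalues i ^ 2 + 1)))

lemma calLd_mono {A D : Matrix n n ℂ} (hA : A.PosDef) (hB : (A + D).PosDef) (hD : D.PosSemidef) :
    calLd A ≤ calLd (A + D) := by
  have h := calLd_sub_le hB hA
  rw [sub_add_cancel_left, mul_neg] at h
  have h2 := rtr_mul_nonneg hB.inv.posSemidef hD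
  simp only [rtr, trace_neg, Complex.neg_re] at h h2
  linarith

lemma cal_neg_calPot_le (hC : C.PosSemidef) (hG : InBox C G) {a ε : ℝ} (hε : 0 < ε) (hε1 : ε ≤ 1) :
    -calPot a C G ε ≤ calErr a hC.1 ε := by
  have hd := cal_kt_sub_posDef hC hε
  have eP : kt C ε - G = (kt C ε - C) + (C - G) := by abel
  have eQ : kt C ε + G = (kt C ε - C) + (C + G) := by abel
  have hp : calLd (kt C ε - C) ≤ calLd (kt C ε - G) := by
    rw [eP]
    exact calLd_mono hd (hd.add_posSemidef hG.1) hG.1
  have hq : calLd (kt C ε - C) ≤ calLd (kt C ε + G) := by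
    rw [eQ]
    exact calLd_mono hd (hd.add_posSemidef hG.2) hG.2
  have hb : ∑ i, (Real.log ε - Real.log (2 * √(hC.1.eigenvalues i ^ 2 + 1))) ≤
      calLd (kt C ε - C) := by
    have h : kt C ε - C = calDg hC.1 fun x => √(x ^ 2 + ε) - x := by
      rw [cal_kt_eq_calDg hC.1, ← calDg_sub hC.1, calDg_self]
    rw [h, calLd_calDg hC.1 (f := fun x => √(x ^ 2 + ε) - x) fun i =>
      sub_pos.2 (calRoot_lt (hC.eigenvalues_nonneg i) hε)]
    refine Finset.sum_le_sum fun i _ => ?_
    set c := hC.1.eigenvalues i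
    have hc : 0 ≤ c := hC.eigenvalues_nonneg i
    have hk := calRoot_lt hc hε
    have hid : √(c ^ 2 + ε) - c = ε / (√(c ^ 2 + ε) + c) := by
      rw [eq_div_iff (by linarith)]
      linear_combination Real.sq_sqrt (show (0 : ℝ) ≤ c ^ 2 + ε by positivity)
    rw [hid, Real.log_div hε.ne' (by linarith)]
    have h1 : √(c ^ 2 + ε) ≤ √(c ^ 2 + 1) := Real.sqrt_le_sqrt (by linarith)
    gcongr
    · linarith
  have hS : rtr (C * C - G * G) ≤ rtr (C * C) := by
    have h := PosSemidef.trace_nonneg (posSemidef_conjTranspose_mul_self G)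
    rw [(hG.calIsHermitian hC.1).eq] at h
    have h' : 0 ≤ rtr (G * G) := (Complex.nonneg_iff.1 h).1
    rw [cal_rtr_sub]
    linarith
  rw [Finset.sum_sub_distrib, Finset.sum_const, Finset.card_univ, nsmul_eq_mul] at hb
  rw [calPot, calErr]
  have e : logDet2 (kt C ε) G = calLd (kt C ε - G) + calLd (kt C ε + G) := rfl
  rw [e]
  have m1 := mul_le_mul_of_nonneg_left hS (Real.rpow_nonneg hε.le a)
  have m2 := mul_le_mul_of_nonneg_left (show -(Fintype.card n : ℝ) * Real.log ε -
    (-2 * ∑ i, Real.log (2 * √(hC.1.eigenvalues i ^ 2 + 1))) ≥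
    -(calLd (kt C ε - G) + calLd (kt C ε + G) - Fintype.card n * Real.log ε) by linarith)
    (Real.rpow_nonneg hε.le (1 + a))
  nlinarith [m1, m2]

lemma cal_tendsto_calErr (hC : C.IsHermitian) {a : ℝ} (ha : 0 < a) :
    Tendsto (calErr a hC) (𝓝[>] 0) (𝓝 0) := by
  have h0 : ∀ r : ℝ, 0 < r → Tendsto (fun x : ℝ => x ^ r) (𝓝[>] 0) (𝓝 0) := fun r hr =>
    ((Real.continuous_rpow_const hr.le).tendsto' 0 0 (Real.zero_rpow hr.ne')).mono_left
      nhdsWithin_le_nhds
  have h := ((h0 a ha).mul_const (rtr (C * C))).add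
    (((tendsto_log_mul_rpow_nhdsGT_zero (r := 1 + a) (by linarith)).const_mul
      (-(Fintype.card n : ℝ))).add ((h0 (1 + a) (by linarith)).mul_const
      (2 * ∑ i, Real.log (2 * √(hC.eigenvalues i ^ 2 + 1)))))
  simp only [zero_mul, mul_zero, add_zero] at h
  refine h.congr fun x => ?_
  unfold calErr
  ring

lemma cal_hasDerivAt_calPot (hC : C.PosSemidef) (hG : InBox C G) (a : ℝ) {t : ℝ} (ht : 0 < t) :
    HasDerivAt (calPot a C G)
      (t ^ (a - 1) * ((1 + a) * t * (logDet2 (kt C t) G - Fintype.card n * Real.log t) +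
        t * (t * (1 / 2 * rtr ((kt C t)⁻¹ * ((kt C t - G)⁻¹ + (kt C t + G)⁻¹))) -
          Fintype.card n) - a * rtr (C * C - G * G))) t := by
  have hk := cal_hasDerivAt_kt hC.1 ht
  have hP : ∀ᶠ s in 𝓝 t, (kt C s - G).PosDef :=
    (eventually_gt_nhds ht).mono fun s hs => cal_kt_box_left hC hG hs
  have hQ : ∀ᶠ s in 𝓝 t, (kt C s + G).PosDef :=
    (eventually_gt_nhds ht).mono fun s hs => cal_kt_box_right hC hG hs
  have hl := (cal_hasDerivAt_calLd (hk.sub_const G) hP).add (cal_hasDerivAt_calLd (hk.add_const G) hQ)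
  have hd := ((Real.hasDerivAt_rpow_const (p := 1 + a) (Or.inl ht.ne')).mul
      (hl.sub ((Real.hasDerivAt_log ht.ne').const_mul (Fintype.card n : ℝ)))).sub
    ((Real.hasDerivAt_rpow_const (p := a) (Or.inl ht.ne')).mul_const (rtr (C * C - G * G)))
  refine HasDerivAt.congr_deriv (f := calPot a C G) hd ?_
  have e1 : t ^ (1 + a) = t ^ (a - 1) * t * t := by
    rw [show 1 + a = a - 1 + 1 + 1 by ring, Real.rpow_add ht, Real.rpow_add ht, Real.rpow_one]
  have e2 : t ^ (1 + a - 1) = t ^ (a - 1) * t := by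
    rw [show 1 + a - 1 = a - 1 + 1 by ring, Real.rpow_add ht, Real.rpow_one]
  simp only [Pi.add_apply, Pi.sub_apply, logDet2]
  change _ = t ^ (a - 1) * ((1 + a) * t *
    (calLd (kt C t - G) + calLd (kt C t + G) - Fintype.card n * Real.log t) + _ - _)
  rw [e1, e2]
  simp only [mul_smul_comm, cal_rtr_smul, mul_add, cal_rtr_add]
  rw [cal_rtr_comm ((kt C t - G)⁻¹), cal_rtr_comm ((kt C t + G)⁻¹)]
  field_simp

/-- The integrand of the calibration, bounded by a derivative plus the scalar term. -/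
lemma calPoint_le (hC : C.PosSemidef) (hG : InBox C G) {F : Matrix n n ℂ} (hF : F.PosSemidef)
    {a t : ℝ} (ha : 0 < a) (ht : 0 < t) :
    t ^ (a - 1) * (rtr (F - (C * C - G * G)) - t * rtr (rMat (kt C t) G * (F - (C * C - G * G)))) ≤
      (1 + a) / a * ∑ i, t ^ (a - 1) * phiT t (a / (1 + a) * hF.1.eigenvalues i) +
      1 / a * (t ^ (a - 1) * ((1 + a) * t * (logDet2 (kt C t) G - Fintype.card n * Real.log t) +
        t * (t * (1 / 2 * rtr ((kt C t)⁻¹ * ((kt C t - G)⁻¹ + (kt C t + G)⁻¹))) -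
          Fintype.card n) - a * rtr (C * C - G * G))) := by
  have hP := cal_kt_box_left hC hG ht
  have hQ := cal_kt_box_right hC hG ht
  have hk := calKlein hF (rMat_posDef hP hQ) (r := a / (1 + a)) (by positivity) ht
    (log_det_rMat_ge hP hQ)
  have hj := rtr_rMat_le hP hQ
  have hz := rtr_rMat_mul_le hP hQ
  have eZ : kt C t * kt C t - G * G = (C * C - G * G) + t • 1 := by
    rw [cal_kt_mul_kt hC.1 ht]
    abel
  rw [eZ, mul_add, cal_rtr_add, mul_smul_comm, mul_one, cal_rtr_smul] at hz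
  generalize C * C - G * G = S at *
  rw [← Finset.mul_sum, mul_left_comm ((1 + a) / a) (t ^ (a - 1)), mul_left_comm (1 / a)
    (t ^ (a - 1)), ← mul_add]
  refine mul_le_mul_of_nonneg_left ?_ (Real.rpow_nonneg ht.le _)
  rw [mul_sub (rMat (kt C t) G), cal_rtr_sub, cal_rtr_sub]
  have q1 := mul_le_mul_of_nonneg_left hk (show (0 : ℝ) ≤ (1 + a) / a by positivity)
  rw [← mul_assoc, div_mul_div_comm, mul_comm (1 + a) a,
    div_self (by positivity : a * (1 + a) ≠ 0), one_mul] at q1
  have q2 := mul_le_mul_of_nonneg_left hz ht.le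
  have q3 := mul_le_mul_of_nonneg_left hj (mul_nonneg ht.le ht.le)
  set φ := ∑ i, phiT t (a / (1 + a) * hF.1.eigenvalues i)
  set ρ := rtr (rMat (kt C t) G)
  set T := rtr (rMat (kt C t) G * S)
  set J := 1 / 2 * rtr ((kt C t)⁻¹ * ((kt C t - G)⁻¹ + (kt C t + G)⁻¹))
  set ℓ := logDet2 (kt C t) G - Fintype.card n * Real.log t
  set N : ℝ := (Fintype.card n : ℝ)
  have q4 : (1 + a) / a * (t * (t * ρ - N + ℓ)) + t * (N - t * ρ) ≤
      1 / a * ((1 + a) * t * ℓ + t * (t * J - N)) := by
    have : (1 + a) / a * (t * (t * ρ - N + ℓ)) + t * (N - t * ρ) =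
        1 / a * ((1 + a) * t * ℓ + t * (t * ρ - N)) := by
      field_simp
      ring
    rw [this]
    refine mul_le_mul_of_nonneg_left ?_ (by positivity)
    nlinarith [q3]
  have q5 : 1 / a * ((1 + a) * t * ℓ + t * (t * J - N) - a * rtr S) =
      1 / a * ((1 + a) * t * ℓ + t * (t * J - N)) - rtr S := by
    field_simp
  rw [q5]
  nlinarith [q1, q2, q4]

end potential

lemma calContinuousOn_phiT (x : ℝ) (hx : 0 ≤ x) (a : ℝ) :
    ContinuousOn (fun t : ℝ => t ^ (a - 1) * phiT t x) (Set.Ioi 0) := by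
  unfold phiT
  intro t ht
  refine ContinuousAt.continuousWithinAt ?_
  have ht' : (0 : ℝ) < t := ht
  have h1 : 1 + x / t ≠ 0 := by positivity
  refine (Real.continuousAt_rpow_const _ _ (Or.inl ht'.ne')).mul (continuousAt_const.sub ?_)
  exact continuousAt_id.mul
    ((continuousAt_const.add (continuousAt_const.div continuousAt_id ht'.ne')).log h1)

/-- Integrated form of `calPoint_le`. -/
lemma calInner_le {C G F : Matrix n n ℂ} (hC : C.PosSemidef) (hG : InBox C G) (hF : F.PosSemidef)
    {a ε T : ℝ} (ha : 0 < a) (ha1 : a < 1) (hε : 0 < ε) (hε1 : ε ≤ 1) (hT : ε ≤ T)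
    {f : ℝ → ℝ} (hf : ContinuousOn f (Set.Icc ε T))
    (hfeq : ∀ t ∈ Set.Icc ε T, f t = t ^ (a - 1) *
      (rtr (F - (C * C - G * G)) - t * rtr (rMat (kt C t) G * (F - (C * C - G * G))))) :
    ∫ t in ε..T, f t ≤ jInt a * (a ^ a / (1 + a) ^ (1 + a)) * rtr (mpow F (1 + a)) +
      1 / a * calErr a hC.1 ε := by
  set D : ℝ → ℝ := fun t => t ^ (a - 1) * ((1 + a) * t *
      (logDet2 (kt C t) G - Fintype.card n * Real.log t) +
    t * (t * (1 / 2 * rtr ((kt C t)⁻¹ * ((kt C t - G)⁻¹ + (kt C t + G)⁻¹))) -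
      Fintype.card n) - a * rtr (C * C - G * G))
  have hpos : ∀ t ∈ Set.Icc ε T, 0 < t := fun t ht => hε.trans_le ht.1
  have hDc : ContinuousOn D (Set.Icc ε T) := by
    intro t ht
    refine ContinuousAt.continuousWithinAt ?_
    have ht' := hpos t ht
    have hk : ContinuousAt (kt C) t := (calContinuous_kt hC.1).continuousAt
    have hinv : ∀ {P : ℝ → Matrix n n ℂ}, ContinuousAt P t → (P t).PosDef →
        ContinuousAt (fun s => (P s)⁻¹) t := fun {P} hc hp => by
      refine ContinuousAt.comp (continuousAt_matrix_inv _ ?_) hc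
      rw [Ring.inverse_eq_inv']
      exact continuousAt_inv₀ ((Matrix.isUnit_iff_isUnit_det _).1 hp.isUnit).ne_zero
    have hld : ∀ {P : ℝ → Matrix n n ℂ}, ContinuousAt P t → (P t).PosDef →
        ContinuousAt (fun s => Real.log (P s).det.re) t := fun {P} hc hp =>
      ((Complex.continuous_re.comp continuous_id.matrix_det).continuousAt.comp hc).log
        (calDet_re_pos hp).ne'
    have p1 := cal_kt_box_left hC hG ht'
    have p2 := cal_kt_box_right hC hG ht'
    have hJ : ContinuousAt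
        (fun s => rtr ((kt C s)⁻¹ * ((kt C s - G)⁻¹ + (kt C s + G)⁻¹))) t :=
      cal_continuous_rtr.continuousAt.comp ((hinv hk (cal_kt_posDef hC.1 ht')).mul
        ((hinv (hk.sub continuousAt_const) p1).add (hinv (hk.add continuousAt_const) p2)))
    have hL : ContinuousAt (fun s => logDet2 (kt C s) G) t :=
      (hld (hk.sub continuousAt_const) p1).add (hld (hk.add continuousAt_const) p2)
    refine (Real.continuousAt_rpow_const _ _ (Or.inl ht'.ne')).mul ?_
    exact (((continuousAt_const.mul continuousAt_id).mul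
      (hL.sub (continuousAt_const.mul (Real.continuousAt_log ht'.ne')))).add
      (continuousAt_id.mul ((continuousAt_id.mul (continuousAt_const.mul hJ)).sub
        continuousAt_const))).sub continuousAt_const
  have hphi : ∀ i, IntervalIntegrable
      (fun t => t ^ (a - 1) * phiT t (a / (1 + a) * hF.1.eigenvalues i)) volume ε T := fun i => by
    refine ContinuousOn.intervalIntegrable ?_
    rw [Set.uIcc_of_le hT]
    exact (calContinuousOn_phiT _ (mul_nonneg (by positivity) (hF.eigenvalues_nonneg i)) a).mono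
      fun t ht => hpos t ht
  have hDi : IntervalIntegrable D volume ε T := hDc.intervalIntegrable_of_Icc hT
  have hsum : IntervalIntegrable
      (fun t => ∑ i, t ^ (a - 1) * phiT t (a / (1 + a) * hF.1.eigenvalues i)) volume ε T := by
    simpa only [Finset.sum_fn] using IntervalIntegrable.sum Finset.univ fun i _ => hphi i
  have h1 : ∫ t in ε..T, f t ≤ ∫ t in ε..T, ((1 + a) / a *
      ∑ i, t ^ (a - 1) * phiT t (a / (1 + a) * hF.1.eigenvalues i) + 1 / a * D t) := by
    refine intervalIntegral.integral_mono_on hT (hf.intervalIntegrable_of_Icc hT)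
      ((hsum.const_mul _).add (hDi.const_mul _)) fun t ht => ?_
    rw [hfeq t ht]
    exact calPoint_le hC hG hF ha (hpos t ht)
  rw [intervalIntegral.integral_add (hsum.const_mul _) (hDi.const_mul _),
    intervalIntegral.integral_const_mul, intervalIntegral.integral_const_mul,
    intervalIntegral.integral_finsetSum fun i _ => hphi i] at h1
  refine h1.trans (add_le_add ?_ ?_)
  · have e : rtr (mpow F (1 + a)) = ∑ i, hF.1.eigenvalues i ^ (1 + a) := by
      rw [mpow, calDg_cfc hF.1, cal_rtr_calDg]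
    rw [e, Finset.mul_sum, Finset.mul_sum]
    refine Finset.sum_le_sum fun i _ => ?_
    have hi := hF.eigenvalues_nonneg i
    calc (1 + a) / a * ∫ t in ε..T, t ^ (a - 1) * phiT t (a / (1 + a) * hF.1.eigenvalues i)
        ≤ (1 + a) / a * (jInt a * (a / (1 + a) * hF.1.eigenvalues i) ^ (1 + a) / (1 + a)) :=
          mul_le_mul_of_nonneg_left
            (integral_phiT_le ha ha1 (mul_nonneg (by positivity) hi) hε hT) (by positivity)
      _ = jInt a * (a ^ a / (1 + a) ^ (1 + a)) * hF.1.eigenvalues i ^ (1 + a) := by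
          rw [Real.mul_rpow (by positivity) hi, Real.div_rpow ha.le (by linarith),
            Real.rpow_add ha, Real.rpow_one]
          have : 0 < (1 + a) ^ (1 + a) := Real.rpow_pos_of_pos (by linarith) _
          field_simp
  · refine mul_le_mul_of_nonneg_left ?_ (by positivity)
    have hFTC : ∫ t in ε..T, D t = calPot a C G T - calPot a C G ε := by
      refine intervalIntegral.integral_eq_sub_of_hasDerivAt (fun t ht => ?_) hDi
      rw [Set.uIcc_of_le hT] at ht
      exact cal_hasDerivAt_calPot hC hG a (hpos t ht)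
    rw [hFTC]
    linarith [calPot_nonpos (a := a) hC hG (hε.trans_le hT), cal_neg_calPot_le (a := a) hC hG hε hε1]

/-- The exact `x` integral of the calibration integrand. -/
lemma calXint {C : Matrix n n ℂ} (hC : C.PosSemidef) {x₀ x₁ : ℝ} (hx : x₀ ≤ x₁)
    {F G : ℝ → Matrix n n ℂ} (hF : ContinuousOn F (Set.Icc x₀ x₁))
    (hG : ∀ x ∈ Set.Icc x₀ x₁,
      HasDerivWithinAt G (C * C - G x * G x - F x) (Set.Icc x₀ x₁) x)
    (hbox : ∀ x ∈ Set.Icc x₀ x₁, InBox C (G x)) (h₀ : G x₀ = C) (h₁ : G x₁ = -C) {t : ℝ}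
    (ht0 : 0 < t) :
    ∫ x in x₀..x₁, (rtr (F x - (C * C - G x * G x)) -
        t * rtr (rMat (kt C t) (G x) * (F x - (C * C - G x * G x)))) =
      2 * rtr C - 2 * t * lam (kt C t) C := by
  have hGco : ContinuousOn G (Set.Icc x₀ x₁) := fun x hx' => (hG x hx').continuousWithinAt
  set u : ℝ → ℝ := fun x => rtr (G x) - t * lam (kt C t) (G x)
  have hu : ContinuousOn u (Set.Icc x₀ x₁) :=
    (cal_continuous_rtr.comp_continuousOn hGco).sub (continuousOn_const.mul
      (calCont_lam continuousOn_const hGco fun x hx' =>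
        ⟨cal_kt_box_left hC (hbox x hx') ht0, cal_kt_box_right hC (hbox x hx') ht0⟩))
  set g : ℝ → ℝ := fun x => rtr (C * C - G x * G x - F x) -
    t * rtr (rMat (kt C t) (G x) * (C * C - G x * G x - F x)) with hg'
  let L : Matrix n n ℂ →ₗ[ℝ] ℝ :=
    { toFun := rtr, map_add' := cal_rtr_add, map_smul' := fun r M => by rw [cal_rtr_smul]; rfl }
  have hd : ∀ x ∈ Set.Ioo x₀ x₁, HasDerivAt u (g x) x := by
    intro x hx'
    have hxI := Set.Ioo_subset_Icc_self hx'
    have hg := (hG x hxI).hasDerivAt (Icc_mem_nhds hx'.1 hx'.2)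
    have hh : ∀ᶠ y in 𝓝 x, (G y).IsHermitian :=
      Filter.mem_of_superset (Icc_mem_nhds hx'.1 hx'.2) fun y hy => (hbox y hy).calIsHermitian hC.1
    have d1 : HasDerivAt (fun y => rtr (G y)) (rtr (C * C - G x * G x - F x)) x :=
      L.toContinuousLinearMap.hasFDerivAt.comp_hasDerivAt x hg
    exact d1.sub ((hasDerivAt_lam hg hh (cal_kt_box_left hC (hbox x hxI) ht0)
      (cal_kt_box_right hC (hbox x hxI) ht0)).const_mul t)
  have hD : ContinuousOn (fun x => C * C - G x * G x - F x) (Set.Icc x₀ x₁) :=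
    (continuousOn_const.sub (hGco.mul hGco)).sub hF
  have hR : ContinuousOn (fun x => rMat (kt C t) (G x)) (Set.Icc x₀ x₁) :=
    calCont_rMat continuousOn_const hGco fun x hx' =>
      ⟨cal_kt_box_left hC (hbox x hx') ht0, cal_kt_box_right hC (hbox x hx') ht0⟩
  have hcd : ContinuousOn g (Set.Icc x₀ x₁) :=
    (cal_continuous_rtr.comp_continuousOn hD).sub
      (continuousOn_const.mul (cal_continuous_rtr.comp_continuousOn (hR.mul hD)))
  have hneg : ∀ x, rtr (F x - (C * C - G x * G x)) -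
      t * rtr (rMat (kt C t) (G x) * (F x - (C * C - G x * G x))) = -g x := fun x => by
    simp only [g, mul_sub, cal_rtr_sub]
    ring
  simp only [hneg]
  rw [intervalIntegral.integral_neg, intervalIntegral.integral_eq_sub_of_hasDerivAt_of_le hx hu hd
    (hcd.intervalIntegrable_of_Icc hx)]
  simp only [u, h₀, h₁, cal_lam_neg]
  simp only [rtr, trace_neg, Complex.neg_re]
  ring

/-- The calibration inequality along a Riccati path flipping from `C` to `-C`. -/
theorem riccati_bound {a : ℝ} (ha : 0 < a) (ha1 : a < 1) {C : Matrix n n ℂ} (hC : C.PosSemidef)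
    {x₀ x₁ : ℝ} (hx : x₀ ≤ x₁) {F G : ℝ → Matrix n n ℂ}
    (hF : ContinuousOn F (Set.Icc x₀ x₁)) (hFp : ∀ x ∈ Set.Icc x₀ x₁, (F x).PosSemidef)
    (hG : ∀ x ∈ Set.Icc x₀ x₁,
      HasDerivWithinAt G (C * C - G x * G x - F x) (Set.Icc x₀ x₁) x)
    (hbox : ∀ x ∈ Set.Icc x₀ x₁, InBox C (G x)) (h₀ : G x₀ = C) (h₁ : G x₁ = -C) :
    betaInt a * rtr (mpow C (2 * a + 1)) ≤
      a ^ a / (1 + a) ^ (1 + a) * ∫ x in x₀..x₁, rtr (mpow (F x) (1 + a)) := by
  set I := ∫ x in x₀..x₁, rtr (mpow (F x) (1 + a)) with hI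
  set P : ℝ → ℝ := fun x => (Set.projIcc x₀ x₁ hx x : ℝ) with hPdef
  have hPmem : ∀ x, P x ∈ Set.Icc x₀ x₁ := fun x => (Set.projIcc x₀ x₁ hx x).2
  have hPid : ∀ x ∈ Set.Icc x₀ x₁, P x = x := fun x hx' => by
    simp [P, Set.projIcc_of_mem hx hx']
  have hPc : Continuous P := continuous_subtype_val.comp continuous_projIcc
  have hGco : ContinuousOn G (Set.Icc x₀ x₁) := fun x hx' => (hG x hx').continuousWithinAt
  set Fc : ℝ → Matrix n n ℂ := fun x => F (P x) with hFcdef
  set Gc : ℝ → Matrix n n ℂ := fun x => G (P x) with hGcdef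
  have hFc : Continuous Fc := hF.comp_continuous hPc hPmem
  have hGc : Continuous Gc := hGco.comp_continuous hPc hPmem
  have hmc : ContinuousOn (fun x => rtr (mpow (F x) (1 + a))) (Set.Icc x₀ x₁) :=
    cal_continuous_rtr.comp_continuousOn
      ((continuousOn_mpow (by linarith)).comp hF fun x hx' => hFp x hx')
  have bound : ∀ ε T : ℝ, 0 < ε → ε ≤ 1 → ε ≤ T →
      ∫ t in ε..T, t ^ (a - 1) * (2 * rtr C - 2 * t * lam (kt C t) C) ≤
        jInt a * (a ^ a / (1 + a) ^ (1 + a)) * I + (x₁ - x₀) * (1 / a * calErr a hC.1 ε) := by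
    intro ε T hε hε1 hT
    set f : ℝ → ℝ → ℝ := fun x t => (max t ε) ^ (a - 1) *
      (rtr (Fc x - (C * C - Gc x * Gc x)) - max t ε *
        rtr (rMat (kt C (max t ε)) (Gc x) * (Fc x - (C * C - Gc x * Gc x)))) with hfdef
    have hτ : Continuous fun q : ℝ × ℝ => max q.2 ε := continuous_snd.max continuous_const
    have hR : Continuous fun q : ℝ × ℝ => rMat (kt C (max q.2 ε)) (Gc q.1) :=
      continuousOn_univ.1 (calCont_rMat ((calContinuous_kt hC.1).comp hτ).continuousOn
        (hGc.comp continuous_fst).continuousOn fun q _ =>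
        ⟨cal_kt_box_left hC (hbox _ (hPmem _)) (hε.trans_le (le_max_right _ _)),
          cal_kt_box_right hC (hbox _ (hPmem _)) (hε.trans_le (le_max_right _ _))⟩)
    have hFS : Continuous fun q : ℝ × ℝ => Fc q.1 - (C * C - Gc q.1 * Gc q.1) :=
      (hFc.comp continuous_fst).sub
        (continuous_const.sub ((hGc.comp continuous_fst).mul (hGc.comp continuous_fst)))
    have hf : Continuous (Function.uncurry f) :=
      (hτ.rpow_const fun q => Or.inl (hε.trans_le (le_max_right q.2 ε)).ne').mul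
        ((cal_continuous_rtr.comp hFS).sub (hτ.mul (cal_continuous_rtr.comp (hR.mul hFS))))
    have hxint : ∀ t ∈ Set.Icc ε T, ∫ x in x₀..x₁, f x t =
        t ^ (a - 1) * (2 * rtr C - 2 * t * lam (kt C t) C) := by
      intro t ht
      rw [← calXint hC hx hF hG hbox h₀ h₁ (hε.trans_le ht.1),
        ← intervalIntegral.integral_const_mul]
      refine intervalIntegral.integral_congr fun x hx' => ?_
      rw [Set.uIcc_of_le hx] at hx'
      simp only [f, Fc, Gc, hPid x hx', max_eq_left ht.1]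
    have hswap : ∫ t in ε..T, ∫ x in x₀..x₁, f x t = ∫ x in x₀..x₁, ∫ t in ε..T, f x t := by
      refine (intervalIntegral_intervalIntegral_swap ?_).symm
      exact (hf.continuousOn.integrableOn_compact (isCompact_uIcc.prod isCompact_uIcc)).mono_set
        (Set.prod_mono Set.uIoc_subset_uIcc Set.uIoc_subset_uIcc)
    have hlhs : ∫ t in ε..T, t ^ (a - 1) * (2 * rtr C - 2 * t * lam (kt C t) C) =
        ∫ t in ε..T, ∫ x in x₀..x₁, f x t :=
      intervalIntegral.integral_congr fun t ht => by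
        rw [Set.uIcc_of_le hT] at ht
        exact (hxint t ht).symm
    rw [hlhs, hswap]
    have hmono : ∫ x in x₀..x₁, ∫ t in ε..T, f x t ≤ ∫ x in x₀..x₁,
        (jInt a * (a ^ a / (1 + a) ^ (1 + a)) * rtr (mpow (F x) (1 + a)) +
          1 / a * calErr a hC.1 ε) := by
      refine intervalIntegral.integral_mono_on hx
        ((intervalIntegral.continuous_parametric_intervalIntegral_of_continuous' hf ε T)
          |>.intervalIntegrable x₀ x₁)
        (((hmc.intervalIntegrable_of_Icc hx).const_mul _).add intervalIntegrable_const)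
        fun x hx' => ?_
      refine calInner_le hC (hbox x hx') (hFp x hx') ha ha1 hε hε1 hT
        ((hf.comp (Continuous.prodMk_right x)).continuousOn) fun t ht => ?_
      simp only [Function.comp, Function.uncurry, f, Fc, Gc, hPid x hx', max_eq_left ht.1]
    rw [intervalIntegral.integral_add ((hmc.intervalIntegrable_of_Icc hx).const_mul _)
      intervalIntegrable_const, intervalIntegral.integral_const_mul,
      intervalIntegral.integral_const, smul_eq_mul] at hmono
    exact hmono
  -- endpoint limits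
  have hJ := jInt_pos ha ha1
  have hkey : ∀ δ > 0, jInt a * betaInt a * rtr (mpow C (2 * a + 1)) - Fintype.card n * δ ≤
      jInt a * (a ^ a / (1 + a) ^ (1 + a)) * I + δ := by
    intro δ hδ
    have hlim : Tendsto (fun ε => (x₁ - x₀) * (1 / a * calErr a hC.1 ε)) (𝓝[>] 0) (𝓝 0) := by
      simpa using ((cal_tendsto_calErr hC.1 ha).const_mul (1 / a)).const_mul (x₁ - x₀)
    choose e₀ T₀ he₀ hend using fun i => le_endpoint ha ha1 (hC.eigenvalues_nonneg i) hδ
    have hsmall : ∀ᶠ ε in 𝓝[>] (0 : ℝ), ε ≤ 1 ∧ ∀ i, ε ≤ e₀ i :=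
      (((eventually_le_nhds (show (0 : ℝ) < 1 by norm_num)).and
        (eventually_all.2 fun i => eventually_le_nhds (he₀ i)))).filter_mono nhdsWithin_le_nhds
    obtain ⟨ε, ⟨hε1, hεi⟩, hεerr, hε⟩ := (hsmall.and
      ((hlim.eventually (ge_mem_nhds hδ)).and (self_mem_nhdsWithin (s := Set.Ioi (0 : ℝ))))).exists
    have hε' : (0 : ℝ) < ε := hε
    obtain ⟨T, hT⟩ := Finite.exists_le T₀
    set T' := max T 1
    have hεT : ε ≤ T' := hε1.trans (le_max_right _ _)
    have hb := bound ε T' hε' hε1 hεT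
    set g : n → ℝ → ℝ := fun i t => t ^ (a - 1) * (2 * hC.1.eigenvalues i -
      t / √(hC.1.eigenvalues i ^ 2 + t) * Real.log ((√(hC.1.eigenvalues i ^ 2 + t) +
        hC.1.eigenvalues i) / (√(hC.1.eigenvalues i ^ 2 + t) - hC.1.eigenvalues i))) with hg
    have hgi : ∀ i, IntervalIntegrable (g i) volume ε T' := fun i => by
      refine ContinuousOn.intervalIntegrable_of_Icc hεT fun t ht => ?_
      have ht0 : 0 < t := hε'.trans_le ht.1
      set c := hC.1.eigenvalues i
      have h1 := calRoot_lt (hC.eigenvalues_nonneg i) ht0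
      have h2 := hC.eigenvalues_nonneg i
      have hroot : ContinuousAt (fun s => √(c ^ 2 + s)) t := by fun_prop
      refine ContinuousAt.continuousWithinAt ((Real.continuousAt_rpow_const _ _
        (Or.inl ht0.ne')).mul (continuousAt_const.sub
        ((continuousAt_id.div hroot (calRoot_pos c ht0).ne').mul
          (((hroot.add continuousAt_const).div (hroot.sub continuousAt_const)
            (sub_pos.2 h1).ne').log ?_))))
      simp only [Pi.add_apply, Pi.sub_apply, Pi.div_apply]
      exact (div_pos (add_pos_of_pos_of_nonneg (calRoot_pos c ht0) h2) (sub_pos.2 h1)).ne'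
    have hrew : ∫ t in ε..T', t ^ (a - 1) * (2 * rtr C - 2 * t * lam (kt C t) C) =
        ∑ i, ∫ t in ε..T', g i t := by
      rw [← intervalIntegral.integral_finsetSum fun i _ => hgi i]
      refine intervalIntegral.integral_congr fun t ht => ?_
      rw [Set.uIcc_of_le hεT] at ht
      have e : rtr C = ∑ i, hC.1.eigenvalues i := by
        conv_lhs => rw [← calDg_self hC.1]
        rw [cal_rtr_calDg]
      simp only [g]
      rw [calLam_diag hC (hε'.trans_le ht.1), e, Finset.mul_sum, ← Finset.sum_sub_distrib,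
        Finset.mul_sum]
    have hlow : ∑ i, (jInt a * betaInt a * hC.1.eigenvalues i ^ (2 * a + 1) - δ) ≤
        ∑ i, ∫ t in ε..T', g i t :=
      Finset.sum_le_sum fun i _ =>
        hend i ε T' hε' (hεi i) ((hT i).trans (le_max_left _ _)) hεT
    rw [hrew] at hb
    rw [Finset.sum_sub_distrib, ← Finset.mul_sum, Finset.sum_const, Finset.card_univ,
      nsmul_eq_mul] at hlow
    have e : rtr (mpow C (2 * a + 1)) = ∑ i, hC.1.eigenvalues i ^ (2 * a + 1) := by
      rw [mpow, calDg_cfc hC.1, cal_rtr_calDg]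
    rw [e]
    linarith
  have hfin : jInt a * (betaInt a * rtr (mpow C (2 * a + 1))) ≤
      jInt a * (a ^ a / (1 + a) ^ (1 + a) * I) := by
    refine le_of_forall_pos_le_add fun η hη => ?_
    have h := hkey (η / (Fintype.card n + 1)) (by positivity)
    have hsum : (Fintype.card n + 1 : ℝ) * (η / (Fintype.card n + 1)) = η :=
      mul_div_cancel₀ η (by positivity)
    rw [← mul_assoc, ← mul_assoc]
    nlinarith [h, hsum]
  exact le_of_mul_le_mul_left hfin hJ

end Vale.Agent.P371.Gen
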