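import Vale.Agent.P371.Gen.Defs

/-!
The average `rMat K G` of inverse squares along the pencil `K + vG`, `v ∈ [-1, 1]`, and its
primitive `lam K G`.
-/

namespace Vale.Agent.P371.Gen

open MeasureTheory Matrix Real Filter
open scoped Matrix.Norms.Frobenius ComplexOrder Topology

variable {n : Type*} [Fintype n] [DecidableEq n]



private lemma rtr_add_aux (A B : Matrix n n ℂ) : rtr (A + B) = rtr A + rtr B := by
  simp [rtr]

private lemma rtr_sub_aux (A B : Matrix n n ℂ) : rtr (A - B) = rtr A - rtr B := by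
  simp [rtr]

private lemma rtr_smul_aux (r : ℝ) (A : Matrix n n ℂ) : rtr (r • A) = r * rtr A := by
  simp [rtr, Matrix.trace_smul, Complex.real_smul]

private lemma rtr_ofReal_smul_aux (r : ℝ) (A : Matrix n n ℂ) :
    rtr ((r : ℂ) • A) = r * rtr A := by
  simp [rtr, Matrix.trace_smul]

private lemma rtr_comm_aux (A B : Matrix n n ℂ) : rtr (A * B) = rtr (B * A) := by
  simp [rtr, Matrix.trace_mul_comm A B]

private lemma continuous_rtr_aux : Continuous (rtr : Matrix n n ℂ → ℝ) :=
  Complex.continuous_re.comp continuous_id.matrix_trace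

private lemma rtr_mul_self_le_aux (Z : Matrix n n ℂ) : rtr (Z * Z) ≤ rtr (Z * Zᴴ) := by
  have h := Matrix.PosSemidef.trace_nonneg (Matrix.posSemidef_conjTranspose_mul_self (Z - Zᴴ))
  have h' : 0 ≤ rtr ((Z - Zᴴ)ᴴ * (Z - Zᴴ)) := (Complex.nonneg_iff.1 h).1
  have e : rtr (Zᴴ * Zᴴ) = rtr (Z * Z) := by
    rw [← conjTranspose_mul, rtr, trace_conjTranspose]
    simp [rtr]
  rw [conjTranspose_sub, conjTranspose_conjTranspose, sub_mul, mul_sub, mul_sub] at h'
  simp only [rtr_sub_aux] at h'
  rw [rtr_comm_aux Zᴴ Z, e] at h'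
  linarith

/-- Pairs whose pencil is invertible on `[-1, 1]`. -/
private def goodPairs (n : Type*) [Fintype n] [DecidableEq n] :
    Set (Matrix n n ℂ × Matrix n n ℂ) :=
  {q | ∀ v ∈ Set.Icc (-1 : ℝ) 1, (pencil q.1 q.2 v).det ≠ 0}

private lemma continuous_pencil_aux :
    Continuous fun r : (Matrix n n ℂ × Matrix n n ℂ) × ℝ => pencil r.1.1 r.1.2 r.2 := by
  unfold pencil
  exact (continuous_fst.comp continuous_fst).add
    ((Complex.continuous_ofReal.comp continuous_snd).smul (continuous_snd.comp continuous_fst))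

private lemma continuous_inv_of_ne_aux {X : Type*} [TopologicalSpace X] {f : X → Matrix n n ℂ}
    (hf : Continuous f) (h : ∀ x, (f x).det ≠ 0) : Continuous fun x => (f x)⁻¹ := by
  simp only [Matrix.inv_def, Ring.inverse_eq_inv']
  exact (hf.matrix_det.inv₀ h).smul hf.matrix_adjugate

private lemma continuousAt_inv_of_ne_aux {X : Type*} [TopologicalSpace X] {f : X → Matrix n n ℂ}
    {x : X} (hf : ContinuousAt f x) (h : (f x).det ≠ 0) : ContinuousAt (fun y => (f y)⁻¹) x := by
  have hd : ContinuousAt (fun y => (f y).det) x :=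
    (continuous_id.matrix_det).continuousAt.comp hf
  have ha : ContinuousAt (fun y => (f y).adjugate) x :=
    (continuous_id.matrix_adjugate).continuousAt.comp hf
  simp only [Matrix.inv_def, Ring.inverse_eq_inv']
  exact (hd.inv₀ h).smul ha

/-- Parametric integrals of continuous functions of the inverse pencil. -/
private lemma continuous_pencil_integral_aux {X E : Type*} [TopologicalSpace X]
    [NormedAddCommGroup E] [NormedSpace ℝ E] {q : X → Matrix n n ℂ × Matrix n n ℂ}
    (hq : Continuous q) (hgood : ∀ x, q x ∈ goodPairs n)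
    {Φ : X → Matrix n n ℂ → E} (hΦ : Continuous (Function.uncurry Φ)) :
    Continuous fun x => ∫ v in (-1 : ℝ)..1, Φ x (pencil (q x).1 (q x).2 v)⁻¹ := by
  set cl : ℝ → ℝ := fun v => max (-1) (min 1 v) with hcl
  have hmem : ∀ v, cl v ∈ Set.Icc (-1 : ℝ) 1 := fun v =>
    ⟨le_max_left _ _, max_le (by norm_num) (min_le_left _ _)⟩
  have hc : Continuous fun r : X × ℝ => Φ r.1 (pencil (q r.1).1 (q r.1).2 (cl r.2))⁻¹ := by
    refine hΦ.comp (continuous_fst.prodMk (continuous_inv_of_ne_aux ?_ fun r => ?_))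
    · exact continuous_pencil_aux.comp ((hq.comp continuous_fst).prodMk
        ((by fun_prop : Continuous cl).comp continuous_snd))
    · exact hgood r.1 _ (hmem r.2)
  have h := intervalIntegral.continuous_parametric_intervalIntegral_of_continuous'
    (μ := volume) (f := fun x v => Φ x (pencil (q x).1 (q x).2 (cl v))⁻¹) hc (-1) 1
  refine h.congr fun x => intervalIntegral.integral_congr fun v hv => ?_
  rw [Set.uIcc_of_le (by norm_num : (-1 : ℝ) ≤ 1)] at hv
  have : cl v = v := by simp [hcl, hv.1, hv.2]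
  simp only [this]

section

variable {K G : Matrix n n ℂ}

private lemma isHermitian_aux (hP : (K - G).PosDef) (hQ : (K + G).PosDef) :
    K.IsHermitian ∧ G.IsHermitian := by
  have h1 := hP.1.eq
  have h2 := hQ.1.eq
  rw [conjTranspose_sub] at h1
  rw [conjTranspose_add] at h2
  constructor <;> refine Matrix.ext fun i j => ?_
  · have a := congrFun (congrFun h1 i) j
    have b := congrFun (congrFun h2 i) j
    simp only [Matrix.sub_apply, Matrix.add_apply, conjTranspose_apply] at a b ⊢
    linear_combination (a + b) / 2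
  · have a := congrFun (congrFun h1 i) j
    have b := congrFun (congrFun h2 i) j
    simp only [Matrix.sub_apply, Matrix.add_apply, conjTranspose_apply] at a b ⊢
    linear_combination (b - a) / 2

theorem pencil_posDef (hP : (K - G).PosDef) (hQ : (K + G).PosDef) {v : ℝ}
    (hv : v ∈ Set.Icc (-1 : ℝ) 1) : (pencil K G v).PosDef := by
  have e : pencil K G v = ((1 + v) / 2) • (K + G) + ((1 - v) / 2) • (K - G) := by
    ext i j
    simp [pencil, Complex.real_smul]
    ring
  rw [e]
  rcases hv.2.lt_or_eq with h | h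
  · refine Matrix.PosDef.posSemidef_add ?_ (hP.smul (by linarith))
    exact hQ.posSemidef.smul (by linarith [hv.1])
  · subst h
    simpa using hQ.smul (show (0 : ℝ) < 1 by norm_num)

private lemma mem_goodPairs_aux (hP : (K - G).PosDef) (hQ : (K + G).PosDef) :
    (K, G) ∈ goodPairs n := fun _ hv => (pencil_posDef hP hQ hv).det_pos.ne'

private lemma pencil_zero_aux : pencil K G 0 = K := by simp [pencil]

private lemma posDef_left_aux (hP : (K - G).PosDef) (hQ : (K + G).PosDef) : K.PosDef := by
  simpa [pencil_zero_aux] using pencil_posDef hP hQ (v := 0) (by norm_num)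

private lemma isUnit_det_aux (hP : (K - G).PosDef) (hQ : (K + G).PosDef) {v : ℝ}
    (hv : v ∈ Set.Icc (-1 : ℝ) 1) : IsUnit (pencil K G v).det :=
  isUnit_iff_ne_zero.2 (mem_goodPairs_aux hP hQ v hv)

private lemma continuousOn_inv_pencil_aux (hP : (K - G).PosDef) (hQ : (K + G).PosDef) :
    ContinuousOn (fun v => (pencil K G v)⁻¹) (Set.Icc (-1 : ℝ) 1) := fun v hv =>
  (continuousAt_inv_of_ne_aux
    ((continuous_pencil_aux.comp ((continuous_const (y := (K, G))).prodMk continuous_id)).continuousAt)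
    (mem_goodPairs_aux hP hQ v hv)).continuousWithinAt

private lemma intervalIntegrable_aux {E : Type*} [NormedAddCommGroup E] {f : ℝ → E}
    (h : ContinuousOn f (Set.Icc (-1 : ℝ) 1)) : IntervalIntegrable f volume (-1) 1 := by
  refine ContinuousOn.intervalIntegrable ?_
  rwa [Set.uIcc_of_le (by norm_num : (-1 : ℝ) ≤ 1)]

private lemma hasDerivAt_inv_pencil_aux (hP : (K - G).PosDef) (hQ : (K + G).PosDef) {v : ℝ}
    (hv : v ∈ Set.Icc (-1 : ℝ) 1) :
    HasDerivAt (fun w => (pencil K G w)⁻¹) (-((pencil K G v)⁻¹ * G * (pencil K G v)⁻¹)) v := by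
  have hc : Continuous fun w => pencil K G w :=
    continuous_pencil_aux.comp ((continuous_const (y := (K, G))).prodMk continuous_id)
  have hne := mem_goodPairs_aux hP hQ v hv
  have hci := continuousAt_inv_of_ne_aux hc.continuousAt hne
  refine hasDerivAt_iff_tendsto_slope.2 ?_
  have hev : ∀ᶠ w in 𝓝[≠] v, -((pencil K G w)⁻¹ * G * (pencil K G v)⁻¹)
      = slope (fun w => (pencil K G w)⁻¹) v w := by
    have : ∀ᶠ w in 𝓝 v, (pencil K G w).det ≠ 0 := hc.matrix_det.continuousAt.eventually_ne hne
    filter_upwards [this.filter_mono nhdsWithin_le_nhds, self_mem_nhdsWithin] with w hw hwv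
    have hw' : IsUnit (pencil K G w).det := isUnit_iff_ne_zero.2 hw
    have hv' : IsUnit (pencil K G v).det := isUnit_iff_ne_zero.2 hne
    have e : (pencil K G w)⁻¹ - (pencil K G v)⁻¹
        = (pencil K G w)⁻¹ * (pencil K G v - pencil K G w) * (pencil K G v)⁻¹ := by
      rw [mul_sub, sub_mul, nonsing_inv_mul _ hw', one_mul, mul_assoc, mul_nonsing_inv _ hv',
        mul_one]
    have e' : pencil K G v - pencil K G w = (v - w) • G := by
      ext i j
      simp [pencil, Complex.real_smul]
      ring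
    rw [slope_def_module, e, e', mul_smul_comm, smul_mul_assoc, smul_smul]
    have : (w - v)⁻¹ * (v - w) = -1 := by
      have : w - v ≠ 0 := sub_ne_zero.2 hwv
      field_simp; ring
    rw [this, neg_one_smul]
  refine Tendsto.congr' hev ?_
  exact (((hci.tendsto.mul_const G).mul_const _).neg).mono_left nhdsWithin_le_nhds

private lemma conjTranspose_inv_pencil_aux (hP : (K - G).PosDef) (hQ : (K + G).PosDef) {v : ℝ}
    (hv : v ∈ Set.Icc (-1 : ℝ) 1) : ((pencil K G v)⁻¹)ᴴ = (pencil K G v)⁻¹ :=
  (pencil_posDef hP hQ hv).inv.1.eq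

private lemma rtr_rMat_mul_eq_aux (hP : (K - G).PosDef) (hQ : (K + G).PosDef) (B : Matrix n n ℂ) :
    rtr (rMat K G * B)
      = 1 / 2 * ∫ v in (-1 : ℝ)..1, rtr ((pencil K G v)⁻¹ * (pencil K G v)⁻¹ * B) := by
  let L : Matrix n n ℂ →ₗ[ℝ] ℝ :=
    { toFun := fun A => rtr (A * B)
      map_add' := fun A A' => by simp [add_mul, rtr_add_aux]
      map_smul' := fun r A => by simp [rtr_smul_aux] }
  have h := L.toContinuousLinearMap.intervalIntegral_comp_comm (μ := volume)
    (intervalIntegrable_aux ((continuousOn_inv_pencil_aux hP hQ).mul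
      (continuousOn_inv_pencil_aux hP hQ)))
  rw [rMat, smul_mul_assoc, rtr_smul_aux]
  exact congrArg _ h.symm

theorem rMat_posDef (hP : (K - G).PosDef) (hQ : (K + G).PosDef) : (rMat K G).PosDef := by
  have hint := intervalIntegrable_aux (f := fun v => (pencil K G v)⁻¹ * (pencil K G v)⁻¹)
    ((continuousOn_inv_pencil_aux hP hQ).mul (continuousOn_inv_pencil_aux hP hQ))
  have hI : Set.uIcc (-1 : ℝ) 1 = Set.Icc (-1) 1 := Set.uIcc_of_le (by norm_num)
  have hherm : (rMat K G).IsHermitian := by
    let T : Matrix n n ℂ →ₗ[ℝ] Matrix n n ℂ :=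
      { toFun := fun A => Aᴴ
        map_add' := fun A A' => conjTranspose_add A A'
        map_smul' := fun r A => by simp [conjTranspose_smul] }
    have h := T.toContinuousLinearMap.intervalIntegral_comp_comm hint
    have h' : (∫ v in (-1 : ℝ)..1, (pencil K G v)⁻¹ * (pencil K G v)⁻¹)ᴴ
        = ∫ v in (-1 : ℝ)..1, (pencil K G v)⁻¹ * (pencil K G v)⁻¹ := by
      refine h.symm.trans (intervalIntegral.integral_congr fun v hv => ?_)
      show ((pencil K G v)⁻¹ * (pencil K G v)⁻¹)ᴴ = _
      rw [conjTranspose_mul, conjTranspose_inv_pencil_aux hP hQ (hI ▸ hv)]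
    rw [IsHermitian, rMat, conjTranspose_smul, h']
    simp
  refine Matrix.PosDef.of_dotProduct_mulVec_pos hherm fun u hu => Complex.pos_iff.2
    ⟨?_, (hherm.im_star_dotProduct_mulVec_self u).symm⟩
  let L : Matrix n n ℂ →ₗ[ℝ] ℝ :=
    { toFun := fun A => (star u ⬝ᵥ (A *ᵥ u)).re
      map_add' := fun A A' => by simp [add_mulVec]
      map_smul' := fun r A => by simp [smul_mulVec] }
  have h := L.toContinuousLinearMap.intervalIntegral_comp_comm hint
  have hpos : ∀ v ∈ Set.Icc (-1 : ℝ) 1,
      0 < L ((pencil K G v)⁻¹ * (pencil K G v)⁻¹) := by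
    intro v hv
    have hi := (pencil_posDef hP hQ hv).inv
    have hpd : ((pencil K G v)⁻¹ * (pencil K G v)⁻¹).PosDef := by
      have := Matrix.PosDef.conjTranspose_mul_self (pencil K G v)⁻¹
        (Matrix.mulVec_injective_iff_isUnit.2 hi.isUnit)
      rwa [conjTranspose_inv_pencil_aux hP hQ hv] at this
    exact (Complex.pos_iff.1 (hpd.dotProduct_mulVec_pos hu)).1
  show 0 < L (rMat K G)
  rw [rMat, map_smul, smul_eq_mul]
  refine mul_pos (by norm_num) ?_
  refine lt_of_lt_of_eq ?_ h
  refine intervalIntegral.intervalIntegral_pos_of_pos_on ?_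
    (fun v hv => hpos v (Set.Ioo_subset_Icc_self hv)) (by norm_num)
  exact intervalIntegrable_aux (L.toContinuousLinearMap.continuous.comp_continuousOn
    ((continuousOn_inv_pencil_aux hP hQ).mul (continuousOn_inv_pencil_aux hP hQ)))

theorem rtr_rMat_mul_le (hP : (K - G).PosDef) (hQ : (K + G).PosDef) :
    rtr (rMat K G * (K * K - G * G)) ≤ Fintype.card n := by
  rw [rtr_rMat_mul_eq_aux hP hQ]
  have hI : Set.uIcc (-1 : ℝ) 1 = Set.Icc (-1) 1 := Set.uIcc_of_le (by norm_num)
  have hXc := continuousOn_inv_pencil_aux hP hQ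
  set X : ℝ → Matrix n n ℂ := fun v => (pencil K G v)⁻¹ with hX
  set D : ℝ → ℝ := fun v =>
    (-2 * v) * rtr (X v * G) + (1 - v ^ 2) * rtr (-(X v * G * X v) * G) with hD
  have hderiv : ∀ v ∈ Set.uIcc (-1 : ℝ) 1,
      HasDerivAt (fun v => (1 - v ^ 2) * rtr (X v * G)) (D v) v := by
    intro v hv
    let L : Matrix n n ℂ →ₗ[ℝ] ℝ :=
      { toFun := fun A => rtr (A * G)
        map_add' := fun A A' => by simp [add_mul, rtr_add_aux]
        map_smul' := fun r A => by simp [rtr_smul_aux] }
    have h1 : HasDerivAt (fun v => rtr (X v * G)) (rtr (-(X v * G * X v) * G)) v :=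
      L.toContinuousLinearMap.hasFDerivAt.comp_hasDerivAt v
        (hasDerivAt_inv_pencil_aux hP hQ (hI ▸ hv))
    have h2 : HasDerivAt (fun v : ℝ => 1 - v ^ 2) (-2 * v) v :=
      ((hasDerivAt_pow 2 v).const_sub 1).congr_deriv (by ring)
    exact h2.mul h1
  have hc1 : ContinuousOn (fun v => rtr (X v * X v * (K * K - G * G))) (Set.Icc (-1) 1) :=
    continuous_rtr_aux.comp_continuousOn ((hXc.mul hXc).mul continuousOn_const)
  have hc2 : ContinuousOn D (Set.Icc (-1) 1) := by
    refine ((continuousOn_const.mul continuousOn_id).mul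
      (continuous_rtr_aux.comp_continuousOn (hXc.mul continuousOn_const))).add
      ((continuousOn_const.sub (continuousOn_id.pow 2)).mul
      (continuous_rtr_aux.comp_continuousOn
        ((((hXc.mul continuousOn_const).mul hXc).neg).mul continuousOn_const)))
  have hle : ∀ v ∈ Set.Icc (-1 : ℝ) 1,
      rtr (X v * X v * (K * K - G * G)) ≤ Fintype.card n + D v := by
    intro v hv
    set x := pencil K G v with hx
    have hu : IsUnit x.det := isUnit_det_aux hP hQ hv
    have hK : K = x - (v : ℂ) • G := by simp [hx, pencil]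
    have hXx : X v = x⁻¹ := rfl
    have e : X v * X v * (K * K - G * G) = 1 - (v : ℂ) • (X v * G) - (v : ℂ) • (X v * X v * G * x)
        - ((1 - v ^ 2 : ℝ) : ℂ) • (X v * X v * (G * G)) := by
      rw [hXx, hK]
      have h1 : x⁻¹ * x⁻¹ * (x * x) = 1 := by
        rw [mul_assoc, ← mul_assoc x⁻¹ x x, nonsing_inv_mul _ hu, one_mul, nonsing_inv_mul _ hu]
      have h2 : x⁻¹ * x⁻¹ * (x * G) = x⁻¹ * G := by
        rw [mul_assoc, ← mul_assoc x⁻¹ x G, nonsing_inv_mul _ hu, one_mul]
      simp only [sub_mul, mul_sub, smul_mul_assoc, mul_smul_comm, smul_sub, smul_smul, h1, h2,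
        ← mul_assoc]
      push_cast
      module
    have hxG : rtr (X v * X v * G * x) = rtr (X v * G) := by
      rw [rtr_comm_aux _ x, hXx, ← mul_assoc, ← mul_assoc, mul_nonsing_inv _ hu, one_mul]
    have hone : rtr (1 : Matrix n n ℂ) = Fintype.card n := by simp [rtr]
    have hsq : rtr (X v * G * (X v * G)) ≤ rtr (X v * X v * (G * G)) := by
      refine (rtr_mul_self_le_aux (X v * G)).trans (le_of_eq ?_)
      rw [conjTranspose_mul, conjTranspose_inv_pencil_aux hP hQ hv, (isHermitian_aux hP hQ).2.eq,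
        show X v * G * (G * X v) = (X v * (G * G)) * X v by simp only [mul_assoc], rtr_comm_aux]
      simp only [mul_assoc]
    have hneg : rtr (-(X v * G * X v) * G) = -rtr (X v * G * (X v * G)) := by
      simp [rtr, mul_assoc]
    simp only [e, rtr_sub_aux, rtr_ofReal_smul_aux, hxG, hone, hD, hneg]
    have : 0 ≤ 1 - v ^ 2 := by nlinarith [hv.1, hv.2]
    nlinarith [mul_le_mul_of_nonneg_left hsq this]
  have key := intervalIntegral.integral_mono_on (by norm_num : (-1 : ℝ) ≤ 1)
    (intervalIntegrable_aux hc1)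
    (intervalIntegrable_aux (f := fun v => (Fintype.card n : ℝ) + D v) (continuousOn_const.add hc2))
    hle
  rw [intervalIntegral.integral_add intervalIntegrable_const (intervalIntegrable_aux hc2),
    intervalIntegral.integral_eq_sub_of_hasDerivAt hderiv (intervalIntegrable_aux hc2)] at key
  simp only [intervalIntegral.integral_const, smul_eq_mul] at key
  linarith

theorem rtr_rMat_le (hP : (K - G).PosDef) (hQ : (K + G).PosDef) :
    rtr (rMat K G) ≤ 1 / 2 * rtr (K⁻¹ * ((K - G)⁻¹ + (K + G)⁻¹)) := by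
  have hI : Set.uIcc (-1 : ℝ) 1 = Set.Icc (-1) 1 := Set.uIcc_of_le (by norm_num)
  have hXc := continuousOn_inv_pencil_aux hP hQ
  set X : ℝ → Matrix n n ℂ := fun v => (pencil K G v)⁻¹ with hX
  obtain ⟨B, hB⟩ : ∃ B : Matrix n n ℂ, K = Bᴴ * B := by
    open scoped MatrixOrder in
    obtain ⟨B, hB⟩ :=
      CStarAlgebra.nonneg_iff_eq_star_mul_self.1 (posDef_left_aux hP hQ).posSemidef.nonneg
    exact ⟨B, hB⟩
  have hBu : IsUnit B.det := by
    have := (posDef_left_aux hP hQ).det_pos.ne'
    rw [hB, det_mul] at this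
    exact isUnit_iff_ne_zero.2 (right_ne_zero_of_mul this)
  let L : Matrix n n ℂ →ₗ[ℝ] ℝ :=
    { toFun := fun A => rtr (K⁻¹ * A)
      map_add' := fun A A' => by simp [mul_add, rtr_add_aux]
      map_smul' := fun r A => by simp [rtr_smul_aux] }
  have hderiv : ∀ v ∈ Set.uIcc (-1 : ℝ) 1,
      HasDerivAt (fun v => rtr (K⁻¹ * (v • X v))) (rtr (K⁻¹ * (X v * K * X v))) v := by
    intro v hv
    rw [hI] at hv
    have hu := isUnit_det_aux hP hQ hv
    have h := L.toContinuousLinearMap.hasFDerivAt.comp_hasDerivAt v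
      ((hasDerivAt_id v).smul (hasDerivAt_inv_pencil_aux hP hQ hv))
    refine h.congr_deriv ?_
    show rtr (K⁻¹ * _) = _
    congr 2
    have hK : K = pencil K G v - (v : ℂ) • G := by simp [pencil]
    conv_rhs => rw [hK]
    simp only [hX, id_eq, one_smul, mul_sub, sub_mul, nonsing_inv_mul _ hu, one_mul,
      mul_smul_comm, smul_mul_assoc, Complex.coe_smul, smul_neg]
    abel
  have hc2 : ContinuousOn (fun v => rtr (K⁻¹ * (X v * K * X v))) (Set.Icc (-1) 1) :=
    continuous_rtr_aux.comp_continuousOn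
      (continuousOn_const.mul ((hXc.mul continuousOn_const).mul hXc))
  have hle : ∀ v ∈ Set.Icc (-1 : ℝ) 1, rtr (X v * X v) ≤ rtr (K⁻¹ * (X v * K * X v)) := by
    intro v hv
    have h := rtr_mul_self_le_aux (B * X v * B⁻¹)
    have hZ : B * X v * B⁻¹ * (B * X v * B⁻¹) = B * (X v * X v) * B⁻¹ := by
      simp only [mul_assoc]
      rw [← mul_assoc B⁻¹ B, nonsing_inv_mul _ hBu, one_mul]
    have hKi : B⁻¹ * (B⁻¹)ᴴ = K⁻¹ := by
      rw [hB, Matrix.mul_inv_rev, conjTranspose_nonsing_inv]
    rw [hZ, rtr_comm_aux _ B⁻¹, ← mul_assoc, nonsing_inv_mul _ hBu, one_mul, conjTranspose_mul,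
      conjTranspose_mul, conjTranspose_inv_pencil_aux hP hQ hv] at h
    refine h.trans (le_of_eq ?_)
    rw [show B * X v * B⁻¹ * ((B⁻¹)ᴴ * (X v * Bᴴ)) = B * X v * (B⁻¹ * (B⁻¹)ᴴ) * X v * Bᴴ by
      simp only [mul_assoc], hKi, rtr_comm_aux _ Bᴴ]
    rw [show Bᴴ * (B * X v * K⁻¹ * X v) = (Bᴴ * B) * X v * (K⁻¹ * X v) by simp only [mul_assoc],
      ← hB, rtr_comm_aux]
    simp only [mul_assoc]
  have h1 : rtr (rMat K G) = 1 / 2 * ∫ v in (-1 : ℝ)..1, rtr (X v * X v) := by
    simpa using rtr_rMat_mul_eq_aux hP hQ 1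
  rw [h1]
  refine mul_le_mul_of_nonneg_left ?_ (by norm_num)
  refine (intervalIntegral.integral_mono_on (by norm_num : (-1 : ℝ) ≤ 1)
    (intervalIntegrable_aux (continuous_rtr_aux.comp_continuousOn (hXc.mul hXc)))
    (intervalIntegrable_aux hc2) hle).trans (le_of_eq ?_)
  rw [intervalIntegral.integral_eq_sub_of_hasDerivAt hderiv (intervalIntegrable_aux hc2)]
  simp [hX, pencil, rtr, mul_add, ← sub_eq_add_neg]
  ring

theorem hasDerivAt_lam {g : ℝ → Matrix n n ℂ} {g' : Matrix n n ℂ} {x : ℝ}
    (hg : HasDerivAt g g' x) (hh : ∀ᶠ y in nhds x, (g y).IsHermitian) (hP : (K - g x).PosDef)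
    (hQ : (K + g x).PosDef) :
    HasDerivAt (fun y => lam K (g y)) (rtr (rMat K (g x) * g')) x := by
  set G₀ := g x with hG₀
  set T : Set (Matrix n n ℂ) := {H | (K, H) ∈ goodPairs n} with hT
  have hgood₀ : G₀ ∈ T := mem_goodPairs_aux hP hQ
  have hTn : T ∈ 𝓝 G₀ := by
    have hcont : Continuous fun z : Matrix n n ℂ × ℝ => (pencil K z.1 z.2).det :=
      (continuous_pencil_aux.comp
        (((continuous_const (y := K)).prodMk continuous_fst).prodMk continuous_snd)).matrix_det
    exact isCompact_Icc.eventually_forall_of_forall_eventually fun v hv =>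
      hcont.continuousAt.eventually_ne (hgood₀ v hv)
  set M : T → Matrix n n ℂ := fun H => (1 / 2 : ℝ) • ∫ v in (-1 : ℝ)..1,
    (pencil K (H : Matrix n n ℂ) v)⁻¹ * (pencil K G₀ v)⁻¹ with hM
  have hMc : ContinuousAt M ⟨G₀, hgood₀⟩ := by
    refine Continuous.continuousAt (Continuous.const_smul ?_ (1 / 2 : ℝ))
    set cl : ℝ → ℝ := fun v => max (-1) (min 1 v) with hcl
    have hmem : ∀ v, cl v ∈ Set.Icc (-1 : ℝ) 1 := fun v =>
      ⟨le_max_left _ _, max_le (by norm_num) (min_le_left _ _)⟩
    have hclc : Continuous cl := by fun_prop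
    have hc : Continuous fun r : T × ℝ =>
        (pencil K (r.1 : Matrix n n ℂ) (cl r.2))⁻¹ * (pencil K G₀ (cl r.2))⁻¹ := by
      refine (continuous_inv_of_ne_aux ?_ fun r => r.1.2 _ (hmem r.2)).mul
        (continuous_inv_of_ne_aux ?_ fun r => hgood₀ _ (hmem r.2))
      · exact continuous_pencil_aux.comp (((continuous_const (y := K)).prodMk
          (continuous_subtype_val.comp continuous_fst)).prodMk (hclc.comp continuous_snd))
      · exact continuous_pencil_aux.comp ((continuous_const (y := (K, G₀))).prodMk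
          (hclc.comp continuous_snd))
    have h := intervalIntegral.continuous_parametric_intervalIntegral_of_continuous'
      (μ := volume) (f := fun (H : T) v =>
        (pencil K (H : Matrix n n ℂ) (cl v))⁻¹ * (pencil K G₀ (cl v))⁻¹) hc (-1) 1
    refine h.congr fun H => intervalIntegral.integral_congr fun v hv => ?_
    rw [Set.uIcc_of_le (by norm_num : (-1 : ℝ) ≤ 1)] at hv
    have : cl v = v := by simp [hcl, hv.1, hv.2]
    simp only [this]
  have hKu : IsUnit K.det := by
    simpa [pencil_zero_aux] using isUnit_det_aux hP hQ (v := 0) (by norm_num)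
  classical
  set M' : Matrix n n ℂ → Matrix n n ℂ := fun H => if h : H ∈ T then M ⟨H, h⟩ else 0 with hM'
  have hMlim : Tendsto M' (𝓝 G₀) (𝓝 (rMat K G₀)) := by
    have hon : ContinuousWithinAt M' T G₀ := by
      rw [continuousWithinAt_iff_continuousAt_domRestrict M' hgood₀]
      have e : T.domRestrict M' = M := by
        funext H; exact dif_pos H.2
      rw [e]; exact hMc
    have h := (hon.continuousAt hTn).tendsto
    have e : M' G₀ = rMat K G₀ := by simp [hM', hgood₀, hM, rMat]
    rwa [e] at h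
  refine hasDerivAt_iff_tendsto_slope.2 ?_
  have hev : ∀ᶠ y in 𝓝[≠] x,
      rtr (M' (g y) * slope g x y) = slope (fun y => lam K (g y)) x y := by
    filter_upwards [(hg.continuousAt.preimage_mem_nhds hTn : g ⁻¹' T ∈ 𝓝 x) |>
      mem_nhdsWithin_of_mem_nhds] with y hy
    set H := g y with hH
    have hy : H ∈ T := hy
    have hX0 : ContinuousOn (fun v => (pencil K G₀ v)⁻¹) (Set.Icc (-1 : ℝ) 1) :=
      continuousOn_inv_pencil_aux hP hQ
    have hXH : ContinuousOn (fun v => (pencil K H v)⁻¹) (Set.Icc (-1 : ℝ) 1) := fun v hv =>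
      (continuousAt_inv_of_ne_aux ((continuous_pencil_aux.comp
        ((continuous_const (y := (K, H))).prodMk continuous_id)).continuousAt)
        (hy v hv)).continuousWithinAt
    have hdiff : lam K H - lam K G₀ = rtr (M' H * (H - G₀)) := by
      have hterm : ∀ v ∈ Set.Icc (-1 : ℝ) 1,
          rtr (K⁻¹ * H * (pencil K H v)⁻¹) - rtr (K⁻¹ * G₀ * (pencil K G₀ v)⁻¹)
            = rtr ((pencil K H v)⁻¹ * (pencil K G₀ v)⁻¹ * (H - G₀)) := by
        intro v hv
        have h0 : IsUnit (pencil K G₀ v).det := isUnit_iff_ne_zero.2 (hgood₀ v hv)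
        have h1 : IsUnit (pencil K H v).det := isUnit_iff_ne_zero.2 (hy v hv)
        set a := (pencil K G₀ v)⁻¹ with ha
        set b := (pencil K H v)⁻¹ with hb
        have hd : K⁻¹ * H * b - K⁻¹ * G₀ * a = a * (H - G₀) * b := by
          have e1 : b - a = -((v : ℂ) • (a * (H - G₀) * b)) := by
            have : a * (pencil K H v - pencil K G₀ v) * b = a - b := by
              rw [mul_sub, sub_mul, ha, nonsing_inv_mul _ h0, one_mul, hb, mul_assoc,
                mul_nonsing_inv _ h1, mul_one]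
            rw [← neg_sub, ← this]
            simp [pencil, mul_sub, sub_mul, smul_sub]
          have e2 : K = pencil K G₀ v - (v : ℂ) • G₀ := by simp [pencil]
          calc K⁻¹ * H * b - K⁻¹ * G₀ * a
              = K⁻¹ * ((H - G₀) * b + G₀ * (b - a)) := by
                simp only [mul_add, sub_mul, mul_sub, mul_assoc]; abel
            _ = K⁻¹ * (K * (a * (H - G₀) * b)) := by
                congr 1
                conv_rhs => rw [e2]
                have e3 : pencil K G₀ v * (a * (H - G₀) * b) = (H - G₀) * b := by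
                  rw [mul_assoc a, ← mul_assoc, ha, mul_nonsing_inv _ h0, one_mul]
                conv_rhs => rw [sub_mul, e3]
                rw [e1]
                simp [sub_eq_add_neg]
            _ = a * (H - G₀) * b := by rw [← mul_assoc, nonsing_inv_mul _ hKu, one_mul]
        rw [← rtr_sub_aux, hd, rtr_comm_aux, mul_assoc]
      let L : Matrix n n ℂ →ₗ[ℝ] ℝ :=
        { toFun := fun A => rtr (A * (H - G₀))
          map_add' := fun A A' => by simp [add_mul, rtr_add_aux]
          map_smul' := fun r A => by simp [rtr_smul_aux] }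
      have h := L.toContinuousLinearMap.intervalIntegral_comp_comm (μ := volume)
        (intervalIntegrable_aux (hXH.mul hX0))
      rw [show M' H = M ⟨H, hy⟩ from dif_pos hy, hM, smul_mul_assoc, rtr_smul_aux, lam, lam, ← mul_sub,
        ← intervalIntegral.integral_sub]
      · refine congrArg _ (Eq.trans ?_ h)
        refine intervalIntegral.integral_congr fun v hv => hterm v ?_
        rwa [Set.uIcc_of_le (by norm_num : (-1 : ℝ) ≤ 1)] at hv
      · exact intervalIntegrable_aux
          (continuous_rtr_aux.comp_continuousOn (continuousOn_const.mul hXH))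
      · exact intervalIntegrable_aux
          (continuous_rtr_aux.comp_continuousOn (continuousOn_const.mul hX0))
    rw [slope_def_module, slope_def_module, mul_smul_comm, rtr_smul_aux, smul_eq_mul, hdiff]
  refine Tendsto.congr' hev ?_
  exact (continuous_rtr_aux.tendsto _).comp
    (((hMlim.comp hg.continuousAt.tendsto).mono_left nhdsWithin_le_nhds).mul
      (hasDerivAt_iff_tendsto_slope.1 hg))

theorem continuousOn_rMat :
    ContinuousOn (fun q : Matrix n n ℂ × Matrix n n ℂ => rMat q.1 q.2)
      {q | (q.1 - q.2).PosDef ∧ (q.1 + q.2).PosDef} := by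
  rw [continuousOn_iff_continuous_domRestrict]
  exact Continuous.const_smul (continuous_pencil_integral_aux
    (q := fun q : {q : Matrix n n ℂ × Matrix n n ℂ | (q.1 - q.2).PosDef ∧ (q.1 + q.2).PosDef} =>
      (q : Matrix n n ℂ × Matrix n n ℂ)) continuous_subtype_val
    (fun q => mem_goodPairs_aux q.2.1 q.2.2)
    (Φ := fun _ A => A * A) (continuous_snd.mul continuous_snd)) (1 / 2 : ℝ)

theorem continuousOn_lam :
    ContinuousOn (fun q : Matrix n n ℂ × Matrix n n ℂ => lam q.1 q.2)
      {q | (q.1 - q.2).PosDef ∧ (q.1 + q.2).PosDef} := by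
  rw [continuousOn_iff_continuous_domRestrict]
  set S := {q : Matrix n n ℂ × Matrix n n ℂ | (q.1 - q.2).PosDef ∧ (q.1 + q.2).PosDef} with hS
  have hK : Continuous fun q : S => (q : Matrix n n ℂ × Matrix n n ℂ).1⁻¹ :=
    continuous_inv_of_ne_aux (continuous_fst.comp continuous_subtype_val)
      fun q => (posDef_left_aux q.2.1 q.2.2).det_pos.ne'
  exact continuous_const.mul (continuous_pencil_integral_aux
    (q := fun q : S => (q : Matrix n n ℂ × Matrix n n ℂ)) continuous_subtype_val
    (fun q => mem_goodPairs_aux q.2.1 q.2.2)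
    (Φ := fun (q : S) A => rtr ((q : Matrix n n ℂ × Matrix n n ℂ).1⁻¹
      * (q : Matrix n n ℂ × Matrix n n ℂ).2 * A))
    (continuous_rtr_aux.comp (((hK.comp continuous_fst).mul
      ((continuous_snd.comp continuous_subtype_val).comp continuous_fst)).mul continuous_snd)))

end

end Vale.Agent.P371.Gen
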