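import Vale.Agent.P371.Gen.Defs

/-!
Scalar integrals of the calibration: the constants `jInt`, `betaInt`, `L1`, the bound on the
transformed potential term and the endpoint value of the calibration.
-/

namespace Vale.Agent.P371.Gen

open MeasureTheory Matrix Real Set Filter
open scoped Topology

theorem integrableOn_jInt {a : ℝ} (ha : 0 < a) (ha1 : a < 1) :
    IntegrableOn (fun τ : ℝ => τ ^ (a - 1) / (1 + τ)) (Set.Ioi 0) := by
  have hm : Measurable fun τ : ℝ => τ ^ (a - 1) / (1 + τ) := by fun_prop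
  rw [← Ioc_union_Ioi_eq_Ioi (zero_le_one : (0 : ℝ) ≤ 1)]
  refine IntegrableOn.union ?_ ?_
  · have h0 : IntegrableOn (fun τ : ℝ => τ ^ (a - 1)) (Ioc 0 1) :=
      (intervalIntegrable_iff_integrableOn_Ioc_of_le zero_le_one).1
        (intervalIntegral.intervalIntegrable_rpow' (by linarith))
    refine h0.mono' hm.aestronglyMeasurable ?_
    refine (ae_restrict_iff' measurableSet_Ioc).2 (.of_forall fun τ hτ => ?_)
    have := rpow_nonneg hτ.1.le (a - 1)
    have h1 : (0 : ℝ) < 1 + τ := by linarith [hτ.1]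
    rw [Real.norm_of_nonneg (by positivity), div_le_iff₀ h1]
    nlinarith [hτ.1]
  · have h0 : IntegrableOn (fun τ : ℝ => τ ^ (a - 2)) (Ioi 1) :=
      integrableOn_Ioi_rpow_of_lt (by linarith) one_pos
    refine h0.mono' hm.aestronglyMeasurable ?_
    refine (ae_restrict_iff' measurableSet_Ioi).2 (.of_forall fun τ (hτ : 1 < τ) => ?_)
    have hτ0 : 0 < τ := by linarith
    have h2 : τ ^ (a - 1) = τ ^ (a - 2) * τ := by
      rw [← rpow_add_one hτ0.ne']; ring_nf
    have := rpow_nonneg hτ0.le (a - 1)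
    have h1 : (0 : ℝ) < 1 + τ := by linarith
    rw [Real.norm_of_nonneg (by positivity), div_le_iff₀ h1, h2]
    nlinarith [rpow_nonneg hτ0.le (a - 2)]

theorem jInt_pos {a : ℝ} (ha : 0 < a) (ha1 : a < 1) : 0 < jInt a := by
  refine (setIntegral_pos_iff_support_of_nonneg_ae ?_ (integrableOn_jInt ha ha1)).2 ?_
  · refine (ae_restrict_iff' measurableSet_Ioi).2 (.of_forall fun τ (hτ : 0 < τ) => ?_)
    show (0 : ℝ) ≤ τ ^ (a - 1) / (1 + τ)
    positivity
  · have h : Ioi (0 : ℝ) ⊆ Function.support fun τ : ℝ => τ ^ (a - 1) / (1 + τ) := by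
      intro τ (hτ : 0 < τ)
      exact (div_pos (rpow_pos_of_pos hτ _) (by linarith)).ne'
    rw [inter_eq_self_of_subset_right h]
    simp

private lemma rpow_eq_sub_one_mul {t : ℝ} (ht : t ≠ 0) (a : ℝ) : t ^ a = t ^ (a - 1) * t := by
  rw [← rpow_add_one ht, sub_add_cancel]

/-- The integrand whose integral over `(0,∞)` is `jInt a * s ^ a`. -/
private noncomputable def stieltjes (a s t : ℝ) : ℝ := t ^ (a - 1) * (s / (t + s))

private lemma stieltjes_nonneg {a s t : ℝ} (hs : 0 ≤ s) (ht : 0 ≤ t) : 0 ≤ stieltjes a s t := by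
  unfold stieltjes; positivity

private lemma stieltjes_comp_mul {a s τ : ℝ} (hs : 0 < s) (hτ : 0 < τ) :
    stieltjes a s (s * τ) = s ^ (a - 1) * (τ ^ (a - 1) / (1 + τ)) := by
  have h : s * τ + s = s * (1 + τ) := by ring
  unfold stieltjes
  rw [mul_rpow hs.le hτ.le, h, div_mul_cancel_left₀ hs.ne']
  ring

private lemma integrableOn_stieltjes {a s : ℝ} (ha : 0 < a) (ha1 : a < 1) (hs : 0 ≤ s) :
    IntegrableOn (stieltjes a s) (Ioi 0) := by
  rcases hs.eq_or_lt with rfl | hs
  · refine (integrableOn_zero).congr_fun (fun t _ => ?_) measurableSet_Ioi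
    simp [stieltjes]
  have h : IntegrableOn (fun τ => stieltjes a s (s * τ)) (Ioi 0) :=
    IntegrableOn.congr_fun (Integrable.const_mul (integrableOn_jInt ha ha1) (s ^ (a - 1)))
      (fun τ hτ => (stieltjes_comp_mul hs hτ).symm) measurableSet_Ioi
  simpa using (integrableOn_Ioi_comp_mul_left_iff (stieltjes a s) 0 hs).1 h

private lemma integral_stieltjes {a s : ℝ} (ha : 0 < a) (hs : 0 ≤ s) :
    ∫ t in Ioi 0, stieltjes a s t = jInt a * s ^ a := by
  rcases hs.eq_or_lt with rfl | hs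
  · simp [stieltjes, zero_rpow ha.ne']
  have h := integral_comp_mul_left_Ioi (stieltjes a s) 0 hs
  rw [setIntegral_congr_fun measurableSet_Ioi (fun τ hτ => stieltjes_comp_mul hs hτ),
    integral_const_mul, mul_zero, smul_eq_mul] at h
  rw [rpow_eq_sub_one_mul hs.ne' a]
  have h' : ∫ t in Ioi 0, stieltjes a s t = s * (s ^ (a - 1) * jInt a) := by
    unfold jInt
    rw [h, ← mul_assoc, mul_inv_cancel₀ hs.ne', one_mul]
  rw [h']; ring

private lemma intervalIntegrable_stieltjes {a s ε T : ℝ} (ha : 0 < a) (ha1 : a < 1) (hs : 0 ≤ s)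
    (hε : 0 ≤ ε) (hT : ε ≤ T) : IntervalIntegrable (stieltjes a s) volume ε T := by
  rw [intervalIntegrable_iff_integrableOn_Ioc_of_le hT]
  exact (integrableOn_stieltjes ha ha1 hs).mono_set fun t ht => lt_of_le_of_lt hε ht.1

private lemma integral_stieltjes_split {a s ε T : ℝ} (ha : 0 < a) (ha1 : a < 1) (hs : 0 ≤ s)
    (hε : 0 ≤ ε) (hT : ε ≤ T) :
    jInt a * s ^ a = (∫ t in (0)..ε, stieltjes a s t) + (∫ t in ε..T, stieltjes a s t)
      + ∫ t in Ioi T, stieltjes a s t := by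
  rw [intervalIntegral.integral_add_adjacent_intervals
      (intervalIntegrable_stieltjes ha ha1 hs le_rfl hε)
      (intervalIntegrable_stieltjes ha ha1 hs hε hT),
    intervalIntegral.integral_interval_add_Ioi (integrableOn_stieltjes ha ha1 hs)
      ((integrableOn_stieltjes ha ha1 hs).mono_set (Ioi_subset_Ioi (hε.trans hT))),
    integral_stieltjes ha hs]

private lemma integral_rpow_Ioi {a T : ℝ} (ha1 : a < 1) (hT : 0 < T) :
    ∫ t in Ioi T, t ^ (a - 2) = T ^ (a - 1) / (1 - a) := by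
  rw [integral_Ioi_rpow_of_lt (by linarith) hT, show a - 2 + 1 = a - 1 by ring,
    neg_div, ← div_neg, neg_sub]

private lemma stieltjes_tail_le {a s T : ℝ} (ha : 0 < a) (ha1 : a < 1) (hs : 0 ≤ s) (hT : 0 < T) :
    ∫ t in Ioi T, stieltjes a s t ≤ s * (T ^ (a - 1) / (1 - a)) := by
  rw [← integral_rpow_Ioi ha1 hT, ← integral_const_mul]
  refine setIntegral_mono_on ((integrableOn_stieltjes ha ha1 hs).mono_set (Ioi_subset_Ioi hT.le))
    ((integrableOn_Ioi_rpow_of_lt (by linarith) hT).const_mul s) measurableSet_Ioi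
    fun t (ht : T < t) => ?_
  have ht0 : 0 < t := hT.trans ht
  have h2 : t ^ (a - 2) = t ^ (a - 1) / t := by
    rw [← rpow_sub_one ht0.ne']; ring_nf
  have h3 : s / (t + s) ≤ s / t := by gcongr; linarith
  calc stieltjes a s t ≤ t ^ (a - 1) * (s / t) :=
        mul_le_mul_of_nonneg_left h3 (rpow_nonneg ht0.le _)
    _ = s * t ^ (a - 2) := by rw [h2]; ring

private lemma le_stieltjes_tail {a s T : ℝ} (ha : 0 < a) (ha1 : a < 1) (hs : 0 ≤ s) (hT : 0 < T) :
    s * T ^ a / (T + s) ≤ ∫ t in Ioi T, stieltjes a s t := by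
  have hr := rpow_pos_of_pos hT (a - 1)
  have h : s * T ^ a / (T + s) ≤ s * T / (T + s) * ∫ t in Ioi T, t ^ (a - 2) := by
    rw [integral_rpow_Ioi ha1 hT, rpow_eq_sub_one_mul hT.ne' a]
    have hle : T ^ (a - 1) ≤ T ^ (a - 1) / (1 - a) := by
      rw [le_div_iff₀ (by linarith)]; nlinarith
    calc s * (T ^ (a - 1) * T) / (T + s) = s * T / (T + s) * T ^ (a - 1) := by ring
      _ ≤ _ := mul_le_mul_of_nonneg_left hle (by positivity)
  refine h.trans ?_
  rw [← integral_const_mul]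
  refine setIntegral_mono_on ((integrableOn_Ioi_rpow_of_lt (by linarith) hT).const_mul _)
    ((integrableOn_stieltjes ha ha1 hs).mono_set (Ioi_subset_Ioi hT.le)) measurableSet_Ioi
    fun t (ht : T < t) => ?_
  have ht0 : 0 < t := hT.trans ht
  have h2 : t ^ (a - 2) = t ^ (a - 1) / t := by
    rw [← rpow_sub_one ht0.ne']; ring_nf
  have h3 : T / (T + s) / t ≤ 1 / (t + s) := by
    rw [div_div, div_le_div_iff₀ (by positivity) (by positivity)]
    nlinarith
  calc s * T / (T + s) * t ^ (a - 2) = t ^ (a - 1) * (s * (T / (T + s) / t)) := by rw [h2]; ring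
    _ ≤ t ^ (a - 1) * (s * (1 / (t + s))) := by gcongr
    _ = stieltjes a s t := by unfold stieltjes; ring

private lemma phiT_nonneg {t x : ℝ} (ht : 0 < t) (hx : 0 ≤ x) : 0 ≤ phiT t x := by
  have h : log (1 + x / t) ≤ x / t := by
    have := log_le_sub_one_of_pos (x := 1 + x / t) (by positivity)
    linarith
  have := mul_le_mul_of_nonneg_left h ht.le
  rw [mul_div_cancel₀ x ht.ne'] at this
  unfold phiT; linarith

private lemma phiT_le {t x : ℝ} (ht : 0 < t) (hx : 0 ≤ x) : phiT t x ≤ x ^ 2 / (t + x) := by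
  have h := mul_le_mul_of_nonneg_left
    (one_sub_inv_le_log_of_pos (x := 1 + x / t) (by positivity)) ht.le
  have e : t * (1 - (1 + x / t)⁻¹) = x - x ^ 2 / (t + x) := by field_simp; ring
  rw [e] at h
  unfold phiT; linarith

theorem integral_phiT_le {a x ε T : ℝ} (ha : 0 < a) (ha1 : a < 1) (hx : 0 ≤ x) (hε : 0 < ε)
    (hT : ε ≤ T) :
    ∫ t in ε..T, t ^ (a - 1) * phiT t x ≤ jInt a * x ^ (1 + a) / (1 + a) := by
  have hT0 : 0 < T := hε.trans_le hT
  have hpos : ∀ t ∈ uIcc ε T, 0 < t := fun t ht => hε.trans_le (uIcc_of_le hT ▸ ht).1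
  have hphi : ContinuousOn (fun t => t ^ (a - 1) * phiT t x) (uIcc ε T) := by
    intro t ht
    have ht0 := hpos t ht
    have : (1 : ℝ) + x / t ≠ 0 := ne_of_gt (by positivity)
    refine ContinuousAt.continuousWithinAt ?_
    unfold phiT
    have hne : t ≠ 0 := ht0.ne'
    exact (continuousAt_rpow_const _ _ (Or.inl hne)).mul (by fun_prop (disch := assumption))
  have hphi' : IntervalIntegrable (fun t => t ^ (a - 1) * phiT t x) volume ε T :=
    hphi.intervalIntegrable
  have hstl := intervalIntegrable_stieltjes ha ha1 hx hε.le hT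
  have hd : ∀ t ∈ uIcc ε T, HasDerivAt (fun t => t ^ a * phiT t x)
      ((1 + a) * (t ^ (a - 1) * phiT t x) - x * stieltjes a x t) t := by
    intro t ht
    have ht0 := hpos t ht
    have hne : (1 : ℝ) + x / t ≠ 0 := ne_of_gt (by positivity)
    have h1 := (((hasDerivAt_inv ht0.ne').const_mul x).const_add 1).log
      (by rwa [← div_eq_mul_inv])
    have h2 := ((hasDerivAt_id t).mul h1).const_sub x
    have h3 := (hasDerivAt_rpow_const (p := a) (Or.inl ht0.ne')).mul h2
    refine (h3.congr_of_eventuallyEq (.of_forall fun s => ?_)).congr_deriv ?_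
    · simp [phiT, div_eq_mul_inv]
    · have e : t ^ a = t ^ (a - 1) * t := rpow_eq_sub_one_mul ht0.ne' a
      simp only [id, phiT, stieltjes, ← div_eq_mul_inv, e, Pi.mul_apply]
      field_simp
      ring
  have key := intervalIntegral.integral_eq_sub_of_hasDerivAt hd
    ((hphi'.const_mul _).sub (hstl.const_mul _))
  rw [intervalIntegral.integral_sub (hphi'.const_mul _) (hstl.const_mul _),
    intervalIntegral.integral_const_mul, intervalIntegral.integral_const_mul] at key
  have h0 : 0 ≤ ε ^ a * phiT ε x := mul_nonneg (rpow_nonneg hε.le _) (phiT_nonneg hε hx)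
  have hTb : T ^ a * phiT T x ≤ x * ∫ t in Ioi T, stieltjes a x t :=
    calc T ^ a * phiT T x ≤ T ^ a * (x ^ 2 / (T + x)) :=
          mul_le_mul_of_nonneg_left (phiT_le hT0 hx) (rpow_nonneg hT0.le _)
      _ = x * (x * T ^ a / (T + x)) := by ring
      _ ≤ _ := mul_le_mul_of_nonneg_left (le_stieltjes_tail ha ha1 hx hT0) hx
  have hsplit := integral_stieltjes_split ha ha1 hx hε.le hT
  have hhead : 0 ≤ ∫ t in (0)..ε, stieltjes a x t :=
    intervalIntegral.integral_nonneg hε.le fun t ht => stieltjes_nonneg hx ht.1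
  have hxp : x ^ (1 + a) = x * x ^ a := by rw [rpow_add' hx (by linarith), rpow_one]
  rw [le_div_iff₀ (by linarith), hxp]
  nlinarith [mul_nonneg hx hhead]

theorem betaInt_pos {a : ℝ} (ha : 0 < a) : 0 < betaInt a := by
  refine intervalIntegral.intervalIntegral_pos_of_pos_on ?_ (fun u hu => ?_) (by norm_num)
  · exact ((continuous_const.sub (continuous_pow 2)).rpow_const
      fun _ => Or.inr ha.le).intervalIntegrable _ _
  · exact rpow_pos_of_pos (by nlinarith [hu.1, hu.2]) _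

private lemma integral_sq_sub_rpow {a c : ℝ} (ha : 0 < a) (hc : 0 ≤ c) :
    ∫ u in (-c)..c, (c ^ 2 - u ^ 2) ^ a = betaInt a * c ^ (2 * a + 1) := by
  rcases hc.eq_or_lt with rfl | hc
  · simp [zero_rpow (by linarith : 2 * a + 1 ≠ 0)]
  have h := intervalIntegral.integral_comp_mul_left (a := (-1 : ℝ)) (b := 1)
    (fun u => (c ^ 2 - u ^ 2) ^ a) hc.ne'
  have e : EqOn (fun v => (c ^ 2 - (c * v) ^ 2) ^ a) (fun v => (c ^ 2) ^ a * (1 - v ^ 2) ^ a)
      (uIcc (-1) 1) := by
    intro v hv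
    rw [uIcc_of_le (by norm_num)] at hv
    dsimp only
    rw [← mul_rpow (by positivity) (by nlinarith [hv.1, hv.2])]
    ring_nf
  rw [intervalIntegral.integral_congr e, intervalIntegral.integral_const_mul, smul_eq_mul,
    mul_neg, mul_one] at h
  have hp : (c ^ 2) ^ a * c = c ^ (2 * a + 1) := by
    rw [rpow_add_one hc.ne', rpow_mul hc.le, rpow_two]
  unfold betaInt
  rw [← hp]
  field_simp at h
  linarith

private lemma integral_ratio {c t : ℝ} (hc : 0 ≤ c) (ht : 0 < t) :
    ∫ u in (-c)..c, (c ^ 2 - u ^ 2) / (t + (c ^ 2 - u ^ 2)) =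
      2 * c - t / √(c ^ 2 + t) * log ((√(c ^ 2 + t) + c) / (√(c ^ 2 + t) - c)) := by
  have hk2 : √(c ^ 2 + t) ^ 2 = c ^ 2 + t := sq_sqrt (by positivity)
  have hk0 : 0 < √(c ^ 2 + t) := sqrt_pos.2 (by positivity)
  set k := √(c ^ 2 + t)
  have hck : c < k := by nlinarith
  have hb : ∀ u ∈ uIcc (-c) c, 0 < k + u ∧ 0 < k - u ∧ 0 < t + (c ^ 2 - u ^ 2) := by
    intro u hu
    rw [uIcc_of_le (by linarith)] at hu
    exact ⟨by linarith [hu.1], by linarith [hu.2], by nlinarith [hu.1, hu.2]⟩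
  have hd : ∀ u ∈ uIcc (-c) c,
      HasDerivAt (fun u => u - t / (2 * k) * (log (k + u) - log (k - u)))
        ((c ^ 2 - u ^ 2) / (t + (c ^ 2 - u ^ 2))) u := by
    intro u hu
    obtain ⟨h1, h2, h3⟩ := hb u hu
    have d := (hasDerivAt_id u).sub
      ((((hasDerivAt_id u).const_add k).log h1.ne').sub
        (((hasDerivAt_id u).const_sub k).log h2.ne') |>.const_mul (t / (2 * k)))
    refine (d.congr_of_eventuallyEq (.of_forall fun s => ?_)).congr_deriv ?_
    · simp
    · simp only [id]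
      field_simp
      linear_combination (2 * k * t) * hk2
  rw [intervalIntegral.integral_eq_sub_of_hasDerivAt hd
      (ContinuousOn.intervalIntegrable (ContinuousOn.div (by fun_prop) (by fun_prop)
        fun u hu => (hb u hu).2.2.ne')),
    log_div (by linarith) (by linarith)]
  simp only [← sub_eq_add_neg, sub_neg_eq_add]
  field_simp
  ring

theorem le_endpoint {a c : ℝ} (ha : 0 < a) (ha1 : a < 1) (hc : 0 ≤ c) {δ : ℝ} (hδ : 0 < δ) :
    ∃ ε₀ T₀ : ℝ, 0 < ε₀ ∧ ∀ ε T, 0 < ε → ε ≤ ε₀ → T₀ ≤ T → ε ≤ T →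
      jInt a * betaInt a * c ^ (2 * a + 1) - δ ≤
        ∫ t in ε..T, t ^ (a - 1) *
          (2 * c - t / √(c ^ 2 + t) * Real.log ((√(c ^ 2 + t) + c) / (√(c ^ 2 + t) - c))) := by
  have hlim : Tendsto (fun T : ℝ => 2 * c * (c ^ 2 * (T ^ (a - 1) / (1 - a)))) atTop (𝓝 0) := by
    have h := tendsto_rpow_neg_atTop (y := 1 - a) (by linarith)
    rw [show -(1 - a) = a - 1 by ring] at h
    simpa using ((h.div_const (1 - a)).const_mul (c ^ 2)).const_mul (2 * c)
  obtain ⟨T₀, hT₀⟩ := eventually_atTop.1 (hlim.eventually (eventually_le_nhds (half_pos hδ)))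
  set η : ℝ := δ * a / (4 * c + 1) with hη
  have hη0 : 0 < η := by rw [hη]; positivity
  refine ⟨η ^ a⁻¹, T₀, rpow_pos_of_pos hη0 _, fun ε T hε hεle hT0 hεT => ?_⟩
  have hTpos : 0 < T := hε.trans_le hεT
  have hεa : 2 * c * (ε ^ a / a) ≤ δ / 2 := by
    have h1 : ε ^ a ≤ η := by
      calc ε ^ a ≤ (η ^ a⁻¹) ^ a := rpow_le_rpow hε.le hεle ha.le
        _ = η := rpow_inv_rpow hη0.le ha.ne'
    have h2 : ε ^ a * (4 * c + 1) ≤ δ * a := by rwa [hη, le_div_iff₀ (by positivity)] at h1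
    rw [mul_div_assoc', div_le_iff₀ ha]
    nlinarith [rpow_pos_of_pos hε a]
  have hcc : -c ≤ c := by linarith
  have hdom : uIcc ε T ×ˢ uIcc (-c) c ⊆ {q : ℝ × ℝ | 0 < q.1 ∧ 0 ≤ c ^ 2 - q.2 ^ 2} := by
    rintro ⟨t, u⟩ ⟨ht, hu⟩
    rw [uIcc_of_le hεT] at ht
    rw [uIcc_of_le hcc] at hu
    exact ⟨hε.trans_le ht.1, by nlinarith [hu.1, hu.2]⟩
  have hcont : ContinuousOn (Function.uncurry fun t u => stieltjes a (c ^ 2 - u ^ 2) t)
      (uIcc ε T ×ˢ uIcc (-c) c) := by
    unfold stieltjes Function.uncurry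
    refine (continuousOn_fst.rpow_const fun q hq => Or.inl (hdom hq).1.ne').mul
      (ContinuousOn.div (by fun_prop) (by fun_prop) fun q hq => ?_)
    obtain ⟨h1, h2⟩ := hdom hq
    exact ne_of_gt (add_pos_of_pos_of_nonneg h1 h2)
  have hswap := intervalIntegral_intervalIntegral_swap
    ((hcont.integrableOn_compact (isCompact_uIcc.prod isCompact_uIcc)).mono_set
      (Set.prod_mono uIoc_subset_uIcc uIoc_subset_uIcc) :
      IntegrableOn (Function.uncurry fun t u => stieltjes a (c ^ 2 - u ^ 2) t)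
        (uIoc ε T ×ˢ uIoc (-c) c) (volume.prod volume))
  have hlhs : (∫ t in ε..T, t ^ (a - 1) *
      (2 * c - t / √(c ^ 2 + t) * log ((√(c ^ 2 + t) + c) / (√(c ^ 2 + t) - c))))
      = ∫ u in (-c)..c, ∫ t in ε..T, stieltjes a (c ^ 2 - u ^ 2) t := by
    rw [← hswap]
    refine intervalIntegral.integral_congr fun t ht => ?_
    rw [uIcc_of_le hεT] at ht
    dsimp only [stieltjes]
    rw [intervalIntegral.integral_const_mul, integral_ratio hc (hε.trans_le ht.1)]
  rw [hlhs]
  set E : ℝ := ε ^ a / a + c ^ 2 * (T ^ (a - 1) / (1 - a))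
  have hpt : ∀ u ∈ Icc (-c) c, jInt a * (c ^ 2 - u ^ 2) ^ a - E ≤
      ∫ t in ε..T, stieltjes a (c ^ 2 - u ^ 2) t := by
    intro u hu
    have hs : 0 ≤ c ^ 2 - u ^ 2 := by nlinarith [hu.1, hu.2]
    have hsplit := integral_stieltjes_split ha ha1 hs hε.le hεT
    have h1 : ∫ t in (0)..ε, stieltjes a (c ^ 2 - u ^ 2) t ≤ ε ^ a / a := by
      calc ∫ t in (0)..ε, stieltjes a (c ^ 2 - u ^ 2) t ≤ ∫ t in (0)..ε, t ^ (a - 1) := by
            refine intervalIntegral.integral_mono_on hε.le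
              (intervalIntegrable_stieltjes ha ha1 hs le_rfl hε.le)
              (intervalIntegral.intervalIntegrable_rpow' (by linarith)) fun t ht => ?_
            exact mul_le_of_le_one_right (rpow_nonneg ht.1 _)
              (div_le_one_of_le₀ (le_add_of_nonneg_left ht.1) (add_nonneg ht.1 hs))
        _ = ε ^ a / a := by
            rw [integral_rpow (Or.inl (by linarith))]
            simp [zero_rpow ha.ne']
    have h2 : ∫ t in Ioi T, stieltjes a (c ^ 2 - u ^ 2) t ≤ c ^ 2 * (T ^ (a - 1) / (1 - a)) :=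
      (stieltjes_tail_le ha ha1 hs hTpos).trans
        (mul_le_mul_of_nonneg_right (by nlinarith)
          (div_nonneg (rpow_nonneg hTpos.le _) (by linarith)))
    linarith
  have hI : IntervalIntegrable (fun u => jInt a * (c ^ 2 - u ^ 2) ^ a - E) volume (-c) c :=
    (((continuous_const.sub (continuous_pow 2)).rpow_const fun _ => Or.inr ha.le).const_mul _
      |>.sub continuous_const).intervalIntegrable _ _
  have hR : IntervalIntegrable (fun u => ∫ t in ε..T, stieltjes a (c ^ 2 - u ^ 2) t)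
      volume (-c) c := by
    rw [intervalIntegrable_iff_integrableOn_Ioc_of_le hcc]
    simp only [intervalIntegral.integral_of_le hεT]
    have h : IntegrableOn (Function.uncurry fun t u => stieltjes a (c ^ 2 - u ^ 2) t)
        (uIoc ε T ×ˢ uIoc (-c) c) volume :=
      (hcont.integrableOn_compact (isCompact_uIcc.prod isCompact_uIcc)).mono_set
        (Set.prod_mono uIoc_subset_uIcc uIoc_subset_uIcc)
    rw [uIoc_of_le hεT, uIoc_of_le hcc, IntegrableOn, Measure.volume_eq_prod,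
      ← Measure.prod_restrict] at h
    exact h.integral_prod_right
  refine le_trans ?_ (intervalIntegral.integral_mono_on hcc hI hR hpt)
  rw [intervalIntegral.integral_sub _ intervalIntegrable_const,
    intervalIntegral.integral_const_mul, integral_sq_sub_rpow ha hc,
    intervalIntegral.integral_const, smul_eq_mul]
  · have := hT₀ T hT0
    simp only [E]
    nlinarith
  · exact (((continuous_const.sub (continuous_pow 2)).rpow_const
      fun _ => Or.inr ha.le).const_mul _).intervalIntegrable _ _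

private lemma betaInt_eq {a : ℝ} (ha : 0 < a) :
    betaInt a = √π * Gamma (a + 1) / Gamma (a + 3 / 2) := by
  have hre : (∫ x in (0 : ℝ)..1, x ^ a * (1 - x) ^ a) =
      Gamma (a + 1) * Gamma (a + 1) / Gamma (2 * a + 2) := by
    have h := Complex.betaIntegral_eq_Gamma_mul_div ((a + 1 : ℝ) : ℂ) ((a + 1 : ℝ) : ℂ)
      (by simp; linarith) (by simp; linarith)
    rw [← Complex.ofReal_inj, ← intervalIntegral.integral_ofReal]
    push_cast [← Complex.Gamma_ofReal] at h ⊢
    rw [show (2 * a + 2 : ℂ) = a + 1 + (a + 1) by ring, ← h, Complex.betaIntegral]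
    refine intervalIntegral.integral_congr fun x hx => ?_
    rw [uIcc_of_le zero_le_one] at hx
    rw [Complex.ofReal_cpow hx.1, Complex.ofReal_cpow (by linarith [hx.2])]
    simp
  have hsub := intervalIntegral.integral_comp_mul_sub (a := (0 : ℝ)) (b := 1)
    (fun u => (1 - u ^ 2) ^ a) (two_ne_zero : (2 : ℝ) ≠ 0) 1
  have e : EqOn (fun x => (1 - (2 * x - 1) ^ 2) ^ a) (fun x => (4 : ℝ) ^ a * (x ^ a * (1 - x) ^ a))
      (uIcc 0 1) := by
    intro x hx
    rw [uIcc_of_le zero_le_one] at hx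
    dsimp only
    rw [← mul_rpow hx.1 (by linarith [hx.2]),
      ← mul_rpow (by norm_num) (mul_nonneg hx.1 (by linarith [hx.2]))]
    ring_nf
  rw [intervalIntegral.integral_congr e, intervalIntegral.integral_const_mul, hre] at hsub
  norm_num at hsub
  have hd := Gamma_mul_Gamma_add_half (a + 1)
  rw [show a + 1 + 1 / 2 = a + 3 / 2 by ring, show 2 * (a + 1) = 2 * a + 2 by ring] at hd
  have h2 : (2 : ℝ) ^ (1 - (2 * a + 2)) * ((4 : ℝ) ^ a * 2) = 1 := by
    rw [show (4 : ℝ) = 2 ^ (2 : ℝ) by norm_num, ← rpow_mul zero_le_two,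
      ← rpow_add_one two_ne_zero, ← rpow_add two_pos]
    rw [show 1 - (2 * a + 2) + (2 * a + 1) = 0 by ring, rpow_zero]
  have g1 : 0 < Gamma (a + 1) := Gamma_pos_of_pos (by linarith)
  have g2 : 0 < Gamma (a + 3 / 2) := Gamma_pos_of_pos (by linarith)
  have g3 : 0 < Gamma (2 * a + 2) := Gamma_pos_of_pos (by linarith)
  have hI : betaInt a = (4 : ℝ) ^ a * 2 * (Gamma (a + 1) * Gamma (a + 1) / Gamma (2 * a + 2)) := by
    unfold betaInt; linarith
  rw [hI, eq_div_iff g2.ne']
  calc (4 : ℝ) ^ a * 2 * (Gamma (a + 1) * Gamma (a + 1) / Gamma (2 * a + 2)) * Gamma (a + 3 / 2)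
      = (4 : ℝ) ^ a * 2 * Gamma (a + 1) / Gamma (2 * a + 2)
          * (Gamma (a + 1) * Gamma (a + 3 / 2)) := by ring
    _ = ((2 : ℝ) ^ (1 - (2 * a + 2)) * ((4 : ℝ) ^ a * 2)) * (√π * Gamma (a + 1))
          * (Gamma (2 * a + 2) / Gamma (2 * a + 2)) := by rw [hd]; ring
    _ = √π * Gamma (a + 1) := by rw [h2, div_self g3.ne']; ring

theorem L1_eq {γ : ℝ} (hγ : 1 / 2 < γ) :
    L1 γ = (γ - 1 / 2) ^ (γ - 1 / 2) / ((γ + 1 / 2) ^ (γ + 1 / 2) * betaInt (γ - 1 / 2)) := by
  obtain ⟨a, ha, rfl⟩ : ∃ a, 0 < a ∧ γ = a + 1 / 2 := ⟨γ - 1 / 2, by linarith, by ring⟩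
  have e1 : a + 1 / 2 - 1 / 2 = a := by ring
  have e2 : a + 1 / 2 + 1 / 2 = a + 1 := by ring
  unfold L1
  rw [e1, e2, betaInt_eq ha, show a + 1 / 2 + 1 = a + 3 / 2 by ring,
    show a + 1 / 2 + 3 / 2 = a + 1 + 1 by ring, Gamma_add_one (by linarith : a + 1 ≠ 0),
    rpow_add_one (by linarith : a + 1 ≠ 0), div_rpow ha.le (by linarith)]
  have g1 : 0 < Gamma (a + 1) := Gamma_pos_of_pos (by linarith)
  have g2 : 0 < Gamma (a + 3 / 2) := Gamma_pos_of_pos (by linarith)
  have := rpow_pos_of_pos (by linarith : 0 < a + 1) a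
  field_simp

end Vale.Agent.P371.Gen
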