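import Vale.Agent.P371.Gen.Defs

/-!
Trace inequalities and continuity for the functional calculus of Hermitian matrices.
Everything rests on `tr (f(A) g(B)) = ∑ᵢⱼ f(aᵢ) g(bⱼ) wᵢⱼ` with a doubly stochastic weight `w`.
-/

namespace Vale.Agent.P371.Gen

open MeasureTheory Matrix Real
open scoped Matrix.Norms.Frobenius ComplexOrder

variable {n : Type*} [Fintype n] [DecidableEq n]

omit [DecidableEq n] in
private lemma trace_rtr_comm {k : Type*} [Fintype k] (A : Matrix n k ℂ) (B : Matrix k n ℂ) :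
    rtr (A * B) = rtr (B * A) := by rw [rtr, rtr, trace_mul_comm]

omit [DecidableEq n] in
private lemma trace_rtr_conjTranspose_mul_self {k : Type*} [Fintype k] (A : Matrix k n ℂ) :
    rtr (Aᴴ * A) = ∑ i, ∑ j, ‖A i j‖ ^ 2 := by
  rw [rtr, Finset.sum_comm]
  simp [trace, mul_apply, Complex.sq_norm, Complex.normSq_apply]

private lemma trace_norm_sq (A : Matrix n n ℂ) : ‖A‖ ^ 2 = rtr (Aᴴ * A) := by
  rw [trace_rtr_conjTranspose_mul_self, frobenius_norm_def, ← Real.sqrt_eq_rpow,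
    Real.sq_sqrt (by positivity)]
  simp only [Real.rpow_two]

omit [DecidableEq n] in
/-- Cauchy-Schwarz for the trace pairing, in additive form. -/
private lemma trace_rtr_mul_le {k : Type*} [Fintype k] (P : Matrix n k ℂ)
    (Q : Matrix k n ℂ) :
    rtr (P * Q) ≤ 1 / 2 * rtr (P * Pᴴ) + 1 / 2 * rtr (Qᴴ * Q) := by
  have h : 0 ≤ rtr ((P - Qᴴ)ᴴ * (P - Qᴴ)) := by
    rw [trace_rtr_conjTranspose_mul_self]; positivity
  have e : rtr ((P - Qᴴ)ᴴ * (P - Qᴴ)) = rtr (P * Pᴴ) - 2 * rtr (P * Q) + rtr (Qᴴ * Q) := by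
    have e1 : (trace (Qᴴ * Pᴴ)).re = (trace (P * Q)).re := by
      rw [← conjTranspose_mul, trace_conjTranspose, Complex.star_def, Complex.conj_re]
    rw [trace_rtr_comm]
    simp only [rtr, Matrix.sub_mul, Matrix.mul_sub, conjTranspose_sub, conjTranspose_conjTranspose,
      trace_sub, Complex.sub_re]
    linarith
  linarith

omit [DecidableEq n] in
theorem rtr_sq_le (Z : Matrix n n ℂ) : rtr (Z * Z) ≤ rtr (Z * Zᴴ) := by
  have := trace_rtr_mul_le Z Z
  have e := trace_rtr_comm Zᴴ Z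
  linarith

private lemma trace_cfc_mul {A : Matrix n n ℂ} (hA : A.IsHermitian) (f g : ℝ → ℝ) :
    cfc f A * cfc g A = cfc (fun x => f x * g x) A := by
  rw [hA.cfc_eq, hA.cfc_eq, hA.cfc_eq, IsHermitian.cfc, IsHermitian.cfc, IsHermitian.cfc,
    ← map_mul, diagonal_mul_diagonal]
  simp [Function.comp_def]

private lemma trace_cfc_isHermitian (A : Matrix n n ℂ) (f : ℝ → ℝ) : (cfc f A).IsHermitian :=
  (cfc_predicate f A).isHermitian

/-- The overlap weights of two eigenbases. -/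
private noncomputable def overlap {A B : Matrix n n ℂ} (hA : A.IsHermitian) (hB : B.IsHermitian)
    (i j : n) : ℝ :=
  Complex.normSq
    ((star (hA.eigenvectorUnitary : Matrix n n ℂ) * (hB.eigenvectorUnitary : Matrix n n ℂ)) i j)

private lemma overlap_nonneg {A B : Matrix n n ℂ} (hA : A.IsHermitian) (hB : B.IsHermitian)
    (i j : n) : 0 ≤ overlap hA hB i j := Complex.normSq_nonneg _

private lemma sum_overlap {A B : Matrix n n ℂ} (hA : A.IsHermitian) (hB : B.IsHermitian) (i : n) :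
    ∑ j, overlap hA hB i j = 1 := by
  set U := (hA.eigenvectorUnitary : Matrix n n ℂ)
  set V := (hB.eigenvectorUnitary : Matrix n n ℂ)
  have h : (star U * V) * star (star U * V) = 1 := by
    rw [star_mul, star_star, Matrix.mul_assoc, ← Matrix.mul_assoc V (star V) U,
      Unitary.mul_star_self_of_mem hB.eigenvectorUnitary.2, Matrix.one_mul,
      Unitary.star_mul_self_of_mem hA.eigenvectorUnitary.2]
  have h' := congrArg (fun M : Matrix n n ℂ => (M i i).re) h
  simp only [mul_apply (N := star (star U * V)), star_apply, Complex.star_def, Complex.mul_conj,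
    Complex.re_sum, Complex.ofReal_re, one_apply_eq, Complex.one_re] at h'
  exact h'

private lemma rtr_cfc_mul_cfc {A B : Matrix n n ℂ} (hA : A.IsHermitian) (hB : B.IsHermitian)
    (f g : ℝ → ℝ) : rtr (cfc f A * cfc g B) =
      ∑ i, ∑ j, overlap hA hB i j * (f (hA.eigenvalues i) * g (hB.eigenvalues j)) := by
  rw [hA.cfc_eq, hB.cfc_eq, IsHermitian.cfc, IsHermitian.cfc, Unitary.conjStarAlgAut_apply,
    Unitary.conjStarAlgAut_apply]
  simp only [overlap]
  set U := (hA.eigenvectorUnitary : Matrix n n ℂ)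
  set V := (hB.eigenvectorUnitary : Matrix n n ℂ)
  set D : Matrix n n ℂ := diagonal (RCLike.ofReal ∘ f ∘ hA.eigenvalues) with hD
  set E : Matrix n n ℂ := diagonal (RCLike.ofReal ∘ g ∘ hB.eigenvalues) with hE
  have e : rtr (U * D * star U * (V * E * star V)) =
      rtr (D * (star U * V) * E * (star U * V)ᴴ) := by
    rw [Matrix.mul_assoc U, Matrix.mul_assoc U, trace_rtr_comm]
    simp [star_eq_conjTranspose, Matrix.mul_assoc]
  rw [e, rtr, trace, Complex.re_sum]
  refine Finset.sum_congr rfl fun i _ => ?_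
  rw [hD, hE, diag_apply, mul_apply, Complex.re_sum]
  refine Finset.sum_congr rfl fun j _ => ?_
  simp [diagonal_mul, mul_diagonal, Complex.normSq_apply]
  ring

private lemma rtr_cfc_left {A B : Matrix n n ℂ} (hA : A.IsHermitian) (hB : B.IsHermitian)
    (f : ℝ → ℝ) : rtr (cfc f A) = ∑ i, ∑ j, overlap hA hB i j * f (hA.eigenvalues i) := by
  have h := rtr_cfc_mul_cfc hA hB f (fun _ => 1)
  rw [cfc_const_one ℝ B, mul_one] at h
  simpa using h

private lemma rtr_cfc_right {A B : Matrix n n ℂ} (hA : A.IsHermitian) (hB : B.IsHermitian)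
    (g : ℝ → ℝ) : rtr (cfc g B) = ∑ i, ∑ j, overlap hA hB i j * g (hB.eigenvalues j) := by
  have h := rtr_cfc_mul_cfc hA hB (fun _ => 1) g
  rw [cfc_const_one ℝ A, one_mul] at h
  simpa using h

theorem cfc_trace_le {A B : Matrix n n ℂ} (hA : A.IsHermitian) (hB : B.IsHermitian)
    (f g h k : ℝ → ℝ) (hle : ∀ x ∈ spectrum ℝ A, ∀ y ∈ spectrum ℝ B, f x * g y ≤ h x + k y) :
    rtr (cfc f A * cfc g B) ≤ rtr (cfc h A) + rtr (cfc k B) := by
  rw [rtr_cfc_mul_cfc hA hB, rtr_cfc_left hA hB, rtr_cfc_right hA hB, ← Finset.sum_add_distrib]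
  refine Finset.sum_le_sum fun i _ => ?_
  rw [← Finset.sum_add_distrib]
  refine Finset.sum_le_sum fun j _ => ?_
  rw [← mul_add]
  exact mul_le_mul_of_nonneg_left
    (hle _ (hA.eigenvalues_mem_spectrum_real i) _ (hB.eigenvalues_mem_spectrum_real j))
    (overlap_nonneg hA hB i j)

private lemma norm_sq_cfc_sub {A B : Matrix n n ℂ} (hA : A.IsHermitian) (hB : B.IsHermitian)
    (f g : ℝ → ℝ) : ‖cfc f A - cfc g B‖ ^ 2 =
      ∑ i, ∑ j, overlap hA hB i j * (f (hA.eigenvalues i) - g (hB.eigenvalues j)) ^ 2 := by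
  rw [trace_norm_sq, conjTranspose_sub, (trace_cfc_isHermitian A f).eq,
    (trace_cfc_isHermitian B g).eq]
  have e : rtr ((cfc f A - cfc g B) * (cfc f A - cfc g B)) =
      rtr (cfc f A * cfc f A) - 2 * rtr (cfc f A * cfc g B) + rtr (cfc g B * cfc g B) := by
    have := trace_rtr_comm (cfc g B) (cfc f A)
    simp only [rtr, Matrix.sub_mul, Matrix.mul_sub, trace_sub, Complex.sub_re] at this ⊢
    linarith
  rw [e, trace_cfc_mul hA, trace_cfc_mul hB, rtr_cfc_left hA hB, rtr_cfc_right hA hB,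
    rtr_cfc_mul_cfc hA hB, Finset.mul_sum, ← Finset.sum_sub_distrib, ← Finset.sum_add_distrib]
  refine Finset.sum_congr rfl fun i _ => ?_
  rw [Finset.mul_sum, ← Finset.sum_sub_distrib, ← Finset.sum_add_distrib]
  exact Finset.sum_congr rfl fun j _ => by ring

private lemma norm_sq_sub {A B : Matrix n n ℂ} (hA : A.IsHermitian) (hB : B.IsHermitian) :
    ‖A - B‖ ^ 2 = ∑ i, ∑ j, overlap hA hB i j * (hA.eigenvalues i - hB.eigenvalues j) ^ 2 := by
  have h := norm_sq_cfc_sub hA hB id id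
  rwa [cfc_id ℝ A hA.isSelfAdjoint, cfc_id ℝ B hB.isSelfAdjoint] at h

theorem cfc_lipschitz {A B : Matrix n n ℂ} (hA : A.IsHermitian) (hB : B.IsHermitian)
    {f : ℝ → ℝ} {L : ℝ} (hL : 0 ≤ L) (hf : ∀ x y, |f x - f y| ≤ L * |x - y|) :
    ‖cfc f A - cfc f B‖ ≤ L * ‖A - B‖ := by
  refine (sq_le_sq₀ (norm_nonneg _) (by positivity)).mp ?_
  rw [mul_pow, norm_sq_cfc_sub hA hB, norm_sq_sub hA hB, Finset.mul_sum]
  refine Finset.sum_le_sum fun i _ => ?_
  rw [Finset.mul_sum]
  refine Finset.sum_le_sum fun j _ => ?_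
  rw [mul_left_comm (L ^ 2)]
  refine mul_le_mul_of_nonneg_left ?_ (overlap_nonneg hA hB i j)
  rw [← mul_pow, ← sq_abs]
  calc |f (hA.eigenvalues i) - f (hB.eigenvalues j)| ^ 2
      ≤ (L * |hA.eigenvalues i - hB.eigenvalues j|) ^ 2 := by gcongr; exact hf _ _
    _ = (L * (hA.eigenvalues i - hB.eigenvalues j)) ^ 2 := by rw [mul_pow, mul_pow, sq_abs]

private lemma abs_eigenvalues_le {A : Matrix n n ℂ} (hA : A.IsHermitian) (i : n) :
    |hA.eigenvalues i| ≤ ‖A‖ := by
  refine (sq_le_sq₀ (abs_nonneg _) (norm_nonneg _)).mp ?_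
  have h := norm_sq_cfc_sub hA hA id (fun _ => 0)
  rw [cfc_id ℝ A hA.isSelfAdjoint, cfc_const_zero ℝ A, sub_zero] at h
  rw [h, sq_abs]
  refine le_trans ?_ (Finset.single_le_sum (fun k _ => Finset.sum_nonneg fun j _ =>
    mul_nonneg (overlap_nonneg hA hA k j) (sq_nonneg _)) (Finset.mem_univ i))
  simp [← Finset.sum_mul, sum_overlap]

theorem continuousOn_cfc_of_continuous {f : ℝ → ℝ} (hf : Continuous f) :
    ContinuousOn (fun A : Matrix n n ℂ => cfc f A) {A | A.IsHermitian} := by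
  intro A₀ hA₀
  refine Metric.continuousWithinAt_iff.mpr ?_
  intro ε hε
  set r := ‖A₀‖ + 1
  obtain ⟨δ, hδ, hδf⟩ := Metric.uniformContinuousOn_iff.mp
    ((isCompact_Icc (a := -r) (b := r)).uniformContinuousOn_of_continuous hf.continuousOn)
    (ε / (2 * (Fintype.card n + 1))) (by positivity)
  obtain ⟨K, hK⟩ := (isCompact_Icc (a := -r) (b := r)).exists_bound_of_continuousOn hf.continuousOn
  set η := ε / (2 * ((Fintype.card n : ℝ) + 1))
  set c := (2 * K) ^ 2 / δ ^ 2
  refine ⟨min 1 (ε / (2 * (c + 1))), by positivity, fun {A} hA hd => ?_⟩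
  rw [dist_eq_norm] at hd ⊢
  have hd1 : ‖A - A₀‖ ≤ 1 := (hd.le.trans (min_le_left _ _))
  have hd2 : ‖A - A₀‖ ≤ ε / (2 * (c + 1)) := (hd.le.trans (min_le_right _ _))
  have hmemA : ∀ i, hA.eigenvalues i ∈ Set.Icc (-r) r := fun i => by
    have h1 := abs_eigenvalues_le hA i
    have h2 : ‖A‖ ≤ ‖A₀‖ + ‖A - A₀‖ := norm_le_insert' _ _
    exact abs_le.mp (by linarith)
  have hmem₀ : ∀ i, hA₀.eigenvalues i ∈ Set.Icc (-r) r := fun i => by
    have h1 := abs_eigenvalues_le hA₀ i
    exact abs_le.mp (by linarith)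
  have key : ‖cfc f A - cfc f A₀‖ ^ 2 ≤ Fintype.card n * η ^ 2 + c * ‖A - A₀‖ ^ 2 := by
    have hn : (Fintype.card n : ℝ) * η ^ 2 = ∑ i, ∑ j, overlap hA hA₀ i j * η ^ 2 := by
      simp [← Finset.sum_mul, sum_overlap]
    rw [hn, norm_sq_cfc_sub hA hA₀, norm_sq_sub hA hA₀, Finset.mul_sum, ← Finset.sum_add_distrib]
    refine Finset.sum_le_sum fun i _ => ?_
    rw [Finset.mul_sum, ← Finset.sum_add_distrib]
    refine Finset.sum_le_sum fun j _ => ?_
    rw [mul_left_comm c, ← mul_add]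
    refine mul_le_mul_of_nonneg_left ?_ (overlap_nonneg hA hA₀ i j)
    set u := hA.eigenvalues i
    set v := hA₀.eigenvalues j
    rcases lt_or_ge |u - v| δ with h | h
    · have h' := (hδf u (hmemA i) v (hmem₀ j) (by rwa [Real.dist_eq])).le
      rw [Real.dist_eq] at h'
      have : (f u - f v) ^ 2 ≤ η ^ 2 := by rw [← sq_abs]; gcongr
      have : 0 ≤ c * (u - v) ^ 2 := by positivity
      linarith
    · have hu := hK u (hmemA i)
      have hv := hK v (hmem₀ j)
      rw [Real.norm_eq_abs] at hu hv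
      have h1 : (f u - f v) ^ 2 ≤ (2 * K) ^ 2 := by
        rw [← sq_abs]; gcongr; linarith [abs_sub (f u) (f v)]
      have h2 : δ ^ 2 ≤ (u - v) ^ 2 := by rw [← sq_abs (u - v)]; gcongr
      have h3 : (2 * K) ^ 2 = c * δ ^ 2 := by simp only [c]; field_simp
      have h4 : c * δ ^ 2 ≤ c * (u - v) ^ 2 := by gcongr
      nlinarith [sq_nonneg η]
  have hcard : (Fintype.card n : ℝ) * η ^ 2 ≤ (ε / 2) ^ 2 := by
    have h0 : (0 : ℝ) ≤ Fintype.card n := by positivity
    have e : ((Fintype.card n : ℝ) + 1) * η = ε / 2 := by simp only [η]; field_simp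
    rw [← e, mul_pow]
    gcongr
    nlinarith
  have hc : c * ‖A - A₀‖ ^ 2 ≤ (ε / 2) ^ 2 := by
    have hc0 : 0 ≤ c := by positivity
    have e : (c + 1) * (ε / (2 * (c + 1))) = ε / 2 := by field_simp
    calc c * ‖A - A₀‖ ^ 2 ≤ (c + 1) ^ 2 * (ε / (2 * (c + 1))) ^ 2 := by
          gcongr; nlinarith
      _ = _ := by rw [← mul_pow, e]
  refine lt_of_pow_lt_pow_left₀ 2 hε.le ?_
  nlinarith

private lemma spectrum_nonneg_of_psd {A : Matrix n n ℂ} (hA : A.PosSemidef) {x : ℝ}
    (hx : x ∈ spectrum ℝ A) : 0 ≤ x := by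
  rw [hA.1.spectrum_real_eq_range_eigenvalues] at hx
  obtain ⟨i, rfl⟩ := hx
  exact hA.eigenvalues_nonneg i

theorem continuousOn_mpow {r : ℝ} (hr : 0 ≤ r) :
    ContinuousOn (fun A : Matrix n n ℂ => mpow A r) {A | A.PosSemidef} :=
  (continuousOn_cfc_of_continuous (Real.continuous_rpow_const hr)).mono fun _ hA => hA.1

theorem continuousOn_mpow_posDef (r : ℝ) :
    ContinuousOn (fun A : Matrix n n ℂ => mpow A r) {A | A.PosDef} := by
  intro A₀ hA₀
  obtain ⟨c, hc, hcle⟩ : ∃ c > 0, ∀ i, 2 * c ≤ hA₀.1.eigenvalues i := by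
    rcases isEmpty_or_nonempty n with h | h
    · exact ⟨1, one_pos, isEmptyElim⟩
    · obtain ⟨i, hi⟩ := Finite.exists_min hA₀.1.eigenvalues
      exact ⟨hA₀.1.eigenvalues i / 2, half_pos (hA₀.eigenvalues_pos i),
        fun j => by linarith [hi j]⟩
  set f : ℝ → ℝ := fun x => max x c ^ r
  have hf : Continuous f := (continuous_id.max continuous_const).rpow_const fun x =>
    Or.inl (lt_of_lt_of_le hc (le_max_right x c)).ne'
  have heq : ∀ A : Matrix n n ℂ, A.IsHermitian → ‖A - A₀‖ < c → mpow A r = cfc f A := by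
    intro A hA hd
    refine cfc_congr fun x hx => ?_
    rw [hA.spectrum_real_eq_range_eigenvalues] at hx
    obtain ⟨i, rfl⟩ := hx
    suffices c ≤ hA.eigenvalues i by simp [f, max_eq_left this]
    by_contra hlt
    push Not at hlt
    have h1 : c ^ 2 ≤ ‖A - A₀‖ ^ 2 := by
      rw [norm_sq_sub hA hA₀.1]
      refine le_trans ?_ (Finset.single_le_sum (fun k _ => Finset.sum_nonneg fun j _ =>
        mul_nonneg (overlap_nonneg hA hA₀.1 k j) (sq_nonneg _)) (Finset.mem_univ i))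
      calc c ^ 2 = ∑ j, overlap hA hA₀.1 i j * c ^ 2 := by
            rw [← Finset.sum_mul, sum_overlap, one_mul]
        _ ≤ _ := Finset.sum_le_sum fun j _ => by
            refine mul_le_mul_of_nonneg_left ?_ (overlap_nonneg _ _ i j)
            nlinarith [hcle j]
    exact absurd ((pow_le_pow_iff_left₀ hc.le (norm_nonneg _) two_ne_zero).mp h1) (not_le.mpr hd)
  have hev : ∀ᶠ A in nhdsWithin A₀ {A : Matrix n n ℂ | A.PosDef}, mpow A r = cfc f A := by
    filter_upwards [self_mem_nhdsWithin,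
      mem_nhdsWithin_of_mem_nhds (Metric.ball_mem_nhds A₀ hc)] with A hA hd
    exact heq A hA.1 (by rwa [Metric.mem_ball, dist_eq_norm] at hd)
  exact (((continuousOn_cfc_of_continuous hf).mono fun _ hA => hA.1) A₀ hA₀).congr_of_eventuallyEq
    hev (heq A₀ hA₀.1 (by simpa using hc))

private lemma trace_pow_comm {k : Type*} [Fintype k] [DecidableEq k] (X : Matrix k n ℂ) (m : ℕ) :
    rtr ((Xᴴ * X) ^ (m + 1)) = rtr ((X * Xᴴ) ^ (m + 1)) := by
  have h : ∀ j, X * (Xᴴ * X) ^ j = (X * Xᴴ) ^ j * X := by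
    intro j
    induction j with
    | zero => simp
    | succ j ih => rw [pow_succ, pow_succ, ← Matrix.mul_assoc, ih, Matrix.mul_assoc,
        Matrix.mul_assoc, Matrix.mul_assoc]
  rw [pow_succ', Matrix.mul_assoc, h, trace_rtr_comm, Matrix.mul_assoc, ← pow_succ]

theorem rtr_cfc_comm {k : Type*} [Fintype k] [DecidableEq k] (X : Matrix k n ℂ) (f : ℝ → ℝ)
    (hf : f 0 = 0) : rtr (cfc f (Xᴴ * X)) = rtr (cfc f (X * Xᴴ)) := by
  classical
  set S : Finset ℝ := insert 0 ((Matrix.finite_real_spectrum (A := Xᴴ * X)).toFinset ∪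
    (Matrix.finite_real_spectrum (A := X * Xᴴ)).toFinset)
  set P : Polynomial ℝ := Lagrange.interpolate S id f
  have hP : ∀ x ∈ S, P.eval x = f x := fun x hx =>
    Lagrange.eval_interpolate_at_node f Function.injective_id.injOn hx
  have h0 : P.coeff 0 = 0 := by
    rw [Polynomial.coeff_zero_eq_eval_zero, hP 0 (by simp [S]), hf]
  have e1 : cfc f (Xᴴ * X) = Polynomial.aeval (Xᴴ * X) P := by
    rw [← cfc_polynomial P (Xᴴ * X) (isHermitian_conjTranspose_mul_self X).isSelfAdjoint]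
    exact cfc_congr fun x hx => (hP x (by simp [S, hx])).symm
  have e2 : cfc f (X * Xᴴ) = Polynomial.aeval (X * Xᴴ) P := by
    rw [← cfc_polynomial P (X * Xᴴ) (isHermitian_mul_conjTranspose_self X).isSelfAdjoint]
    exact cfc_congr fun x hx => (hP x (by simp [S, hx])).symm
  rw [e1, e2, Polynomial.aeval_eq_sum_range, Polynomial.aeval_eq_sum_range, rtr, rtr]
  simp only [trace_sum, trace_smul, Complex.re_sum, Complex.smul_re]
  refine Finset.sum_congr rfl fun i _ => ?_
  rcases i with _ | i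
  · simp [h0]
  · exact congrArg _ (trace_pow_comm X i)

private lemma trace_mpow_mul {A : Matrix n n ℂ} (hA : A.PosSemidef) {r q : ℝ} (hr : 0 ≤ r)
    (hq : 0 ≤ q) : mpow A r * mpow A q = mpow A (r + q) := by
  rw [mpow, mpow, trace_cfc_mul hA.1]
  exact cfc_congr fun x hx => (Real.rpow_add_of_nonneg (spectrum_nonneg_of_psd hA hx) hr hq).symm

private lemma trace_mpow_one {A : Matrix n n ℂ} (hA : A.IsHermitian) : mpow A 1 = A := by
  simp only [mpow, Real.rpow_one]
  exact cfc_id' ℝ A hA.isSelfAdjoint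

private lemma rtr_cfc_const_mul (c : ℝ) {A : Matrix n n ℂ} (hA : A.IsHermitian) (f : ℝ → ℝ) :
    rtr (cfc (fun x => c * f x) A) = c * rtr (cfc f A) := by
  rw [rtr_cfc_left hA hA, rtr_cfc_left hA hA, Finset.mul_sum]
  refine Finset.sum_congr rfl fun i _ => ?_
  rw [Finset.mul_sum]
  exact Finset.sum_congr rfl fun j _ => by ring

theorem rtr_mul_nonneg {A B : Matrix n n ℂ} (hA : A.PosSemidef) (hB : B.PosSemidef) :
    0 ≤ rtr (A * B) := by
  set X := mpow A (1 / 2)
  have e : A = X * X := by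
    rw [trace_mpow_mul hA (by norm_num) (by norm_num)]
    norm_num [trace_mpow_one hA.1]
  rw [e, Matrix.mul_assoc, trace_rtr_comm]
  have := (hB.mul_mul_conjTranspose_same X).trace_nonneg
  rw [show Xᴴ = X from trace_cfc_isHermitian A _] at this
  exact (Complex.le_def.mp this).1

/-- Fixed point version of the Schatten Hölder inequality. -/
theorem rtr_mpow_sandwich_le {k : Type*} [Fintype k] [DecidableEq k] {p : ℝ} (hp : 1 < p)
    (hp2 : p < 2) {W : Matrix k k ℂ} (hW : W.PosSemidef) (Φ : Matrix k n ℂ) :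
    rtr (mpow (Φᴴ * mpow W (2 - p) * Φ) p) ≤
      p / 2 * rtr (mpow W (2 - p) * (Φ * Φᴴ) * (Φ * Φᴴ)) + (2 - p) / 2 * rtr (mpow W p) := by
  set s := 2 - p with hs
  have hs0 : 0 < s := by linarith
  set V := mpow W (s / 2)
  set ρ := Φ * Φᴴ
  have hV : Vᴴ = V := trace_cfc_isHermitian W _
  have hρ : ρᴴ = ρ := (isHermitian_mul_conjTranspose_self Φ).eq
  have hVV : V * V = mpow W s := by
    rw [trace_mpow_mul hW (by positivity) (by positivity)]; ring_nf
  set X := V * Φ with hX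
  have e1 : Φᴴ * mpow W s * Φ = Xᴴ * X := by
    rw [hX, conjTranspose_mul, hV, ← hVV]; simp only [Matrix.mul_assoc]
  set Z := X * Xᴴ with hZ
  have hZ' : Z = V * ρ * V := by
    simp only [hZ, hX, conjTranspose_mul, hV, ρ, Matrix.mul_assoc]
  have hZp : Z.PosSemidef := posSemidef_self_mul_conjTranspose X
  rw [e1, mpow, rtr_cfc_comm X (fun x : ℝ => x ^ p) (Real.zero_rpow (by linarith)), ← mpow]
  set Za := mpow Z (p - 1)
  have hZa : Zaᴴ = Za := trace_cfc_isHermitian Z _
  have ey : mpow Z p = (V * ρ) * (V * Za) := by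
    have h := trace_mpow_mul hZp zero_le_one (by linarith : (0 : ℝ) ≤ p - 1)
    rw [trace_mpow_one hZp.1, add_sub_cancel] at h
    calc mpow Z p = Z * Za := h.symm
      _ = V * ρ * V * Za := by rw [hZ']
      _ = _ := by simp only [Matrix.mul_assoc]
  have eP : rtr ((V * ρ) * (V * ρ)ᴴ) = rtr (mpow W s * ρ * ρ) := by
    rw [conjTranspose_mul, hV, hρ, ← hVV]
    calc rtr (V * ρ * (ρ * V)) = rtr (V * (ρ * (ρ * V))) := by rw [Matrix.mul_assoc]
      _ = rtr (ρ * (ρ * V) * V) := trace_rtr_comm _ _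
      _ = rtr (ρ * ρ * (V * V)) := by simp only [Matrix.mul_assoc]
      _ = rtr (V * V * (ρ * ρ)) := trace_rtr_comm _ _
      _ = _ := by simp only [Matrix.mul_assoc]
  have eQ : rtr ((V * Za)ᴴ * (V * Za)) = rtr (mpow Z (2 * (p - 1)) * mpow W s) := by
    have e : mpow Z (2 * (p - 1)) = Za * Za := by
      rw [trace_mpow_mul hZp (by linarith) (by linarith), two_mul]
    rw [conjTranspose_mul, hV, hZa, e, ← hVV]
    simp only [Matrix.mul_assoc]
    rw [trace_rtr_comm Za (Za * (V * V))]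
    simp only [Matrix.mul_assoc]
  have hY : rtr (mpow Z (2 * (p - 1)) * mpow W s) ≤
      2 * (p - 1) / p * rtr (mpow Z p) + s / p * rtr (mpow W p) := by
    have hle : ∀ x ∈ spectrum ℝ Z, ∀ y ∈ spectrum ℝ W, x ^ (2 * (p - 1)) * y ^ s ≤
        2 * (p - 1) / p * x ^ p + s / p * y ^ p := by
      intro x hx y hy
      have hx0 := spectrum_nonneg_of_psd hZp hx
      have hk : ∀ y : ℝ, 0 ≤ y → x ^ (2 * (p - 1)) * y ^ s ≤
          2 * (p - 1) / p * x ^ p + s / p * y ^ p := by
        intro y hy0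
        have h := Real.geom_mean_le_arith_mean2_weighted (w₁ := 2 * (p - 1) / p) (w₂ := s / p)
          (div_nonneg (by linarith) (by linarith)) (by positivity) (Real.rpow_nonneg hx0 p)
          (Real.rpow_nonneg hy0 p) (by rw [hs]; field_simp; ring)
        rwa [← Real.rpow_mul hx0, ← Real.rpow_mul hy0, mul_div_cancel₀ _ (by linarith : p ≠ 0),
          mul_div_cancel₀ _ (by linarith : p ≠ 0)] at h
      refine hk y ?_
      rw [hW.1.spectrum_real_eq_range_eigenvalues] at hy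
      obtain ⟨i, rfl⟩ := hy
      exact hW.eigenvalues_nonneg i
    have h := cfc_trace_le (n := k) hZp.1 hW.1 (fun x => x ^ (2 * (p - 1))) (fun y => y ^ s)
      (fun x => 2 * (p - 1) / p * x ^ p) (fun y => s / p * y ^ p) hle
    rwa [rtr_cfc_const_mul _ hZp.1, rtr_cfc_const_mul _ hW.1] at h
  have hCS := trace_rtr_mul_le (V * ρ) (V * Za)
  rw [← ey, eP, eQ] at hCS
  have hp0 : 0 < p := by linarith
  field_simp at hY
  nlinarith

theorem rtr_mul_le_half {k : Type*} [Fintype k] [DecidableEq k] {p : ℝ} (hp : 1 < p)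
    (hp2 : p < 2) {W ρ : Matrix k k ℂ} (hW : W.PosSemidef) (hρ : ρ.PosSemidef) :
    rtr (W * ρ) ≤ 1 / 2 * rtr (mpow W p) + 1 / 2 * rtr (mpow W (2 - p) * ρ * ρ) := by
  set P := mpow W (p / 2)
  set V := mpow W ((2 - p) / 2)
  have hP : Pᴴ = P := trace_cfc_isHermitian W _
  have hV : Vᴴ = V := trace_cfc_isHermitian W _
  have e : W = P * V := by
    rw [trace_mpow_mul hW (by linarith) (by linarith)]
    conv_lhs => rw [← trace_mpow_one hW.1]
    ring_nf
  have h := trace_rtr_mul_le P (V * ρ)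
  rw [← Matrix.mul_assoc, ← e, hP, trace_mpow_mul hW (by linarith) (by linarith),
    conjTranspose_mul, hV, hρ.1.eq] at h
  rw [show p / 2 + p / 2 = p by ring] at h
  have e2 : rtr (ρ * V * (V * ρ)) = rtr (mpow W (2 - p) * ρ * ρ) := by
    have hVV : V * V = mpow W (2 - p) := by
      rw [trace_mpow_mul hW (by linarith) (by linarith)]; ring_nf
    rw [← hVV, Matrix.mul_assoc, trace_rtr_comm]
    simp only [Matrix.mul_assoc]
  linarith

end Vale.Agent.P371.Gen
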