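import Vale.Agent.P371.Gen.LogDet
import Vale.Agent.P371.Gen.Pencil
import Vale.Agent.P371.Gen.Scalar
import Vale.Agent.P371.Gen.Trace

/-!
Spectral helpers for the calibration inequality: matrices diagonal in a fixed eigenbasis and the
logarithm of the determinant.
-/

namespace Vale.Agent.P371.Gen

open MeasureTheory Matrix Real Filter Topology
open scoped Matrix.Norms.Frobenius ComplexOrder

variable {n : Type*} [Fintype n] [DecidableEq n]

/-- A function of a Hermitian matrix, written in its eigenbasis. -/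
noncomputable def calDg {A : Matrix n n ℂ} (hA : A.IsHermitian) (f : ℝ → ℝ) : Matrix n n ℂ :=
  (hA.eigenvectorUnitary : Matrix n n ℂ) * diagonal (fun i => (f (hA.eigenvalues i) : ℂ)) *
    star (hA.eigenvectorUnitary : Matrix n n ℂ)

/-- `log det`. -/
noncomputable def calLd (A : Matrix n n ℂ) : ℝ := Real.log A.det.re

section dg

variable {A : Matrix n n ℂ} (hA : A.IsHermitian)

lemma calDg_cfc (f : ℝ → ℝ) : cfc f A = calDg hA f := by
  rw [hA.cfc_eq f, IsHermitian.cfc, Unitary.conjStarAlgAut_apply, calDg]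
  rfl

lemma calDg_self : calDg hA (fun x => x) = A := by
  conv_rhs => rw [hA.spectral_theorem, Unitary.conjStarAlgAut_apply]
  rfl

lemma calDg_congr {f g : ℝ → ℝ} (h : ∀ i, f (hA.eigenvalues i) = g (hA.eigenvalues i)) :
    calDg hA f = calDg hA g := by
  rw [calDg, calDg, funext fun i => congrArg Complex.ofReal (h i)]

lemma calDg_add (f g : ℝ → ℝ) : calDg hA f + calDg hA g = calDg hA (fun x => f x + g x) := by
  simp only [calDg, ← add_mul, ← mul_add, diagonal_add, Complex.ofReal_add]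

lemma calDg_sub (f g : ℝ → ℝ) : calDg hA f - calDg hA g = calDg hA (fun x => f x - g x) := by
  simp only [calDg, ← sub_mul, ← mul_sub, diagonal_sub, Complex.ofReal_sub]

lemma calDg_smul (r : ℝ) (f : ℝ → ℝ) : r • calDg hA f = calDg hA (fun x => r * f x) := by
  have e : (fun i => ((r * f (hA.eigenvalues i) : ℝ) : ℂ)) =
      r • fun i => (f (hA.eigenvalues i) : ℂ) := funext fun i => by simp [Complex.real_smul]
  simp only [calDg]
  rw [e, diagonal_smul, mul_smul_comm, smul_mul_assoc]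

lemma calDg_one : calDg hA (fun _ => 1) = 1 := by
  simp [calDg, Unitary.mul_star_self_of_mem]

lemma calDg_mul (f g : ℝ → ℝ) : calDg hA f * calDg hA g = calDg hA (fun x => f x * g x) := by
  set U : Matrix n n ℂ := hA.eigenvectorUnitary.val
  have hU : star U * U = 1 := Unitary.star_mul_self_of_mem hA.eigenvectorUnitary.2
  calc calDg hA f * calDg hA g
      = U * diagonal (fun i => (f (hA.eigenvalues i) : ℂ)) * (star U * U) *
          diagonal (fun i => (g (hA.eigenvalues i) : ℂ)) * star U := by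
        simp only [calDg, U, mul_assoc]
    _ = calDg hA (fun x => f x * g x) := by
        rw [hU, mul_one, mul_assoc U, diagonal_mul_diagonal, calDg]
        simp only [Complex.ofReal_mul, U]

lemma calDg_inv {f : ℝ → ℝ} (hf : ∀ i, f (hA.eigenvalues i) ≠ 0) :
    (calDg hA f)⁻¹ = calDg hA (fun x => (f x)⁻¹) := by
  refine Matrix.inv_eq_right_inv ?_
  rw [calDg_mul, ← calDg_one hA]
  exact calDg_congr hA fun i => mul_inv_cancel₀ (hf i)

lemma cal_rtr_calDg (f : ℝ → ℝ) : rtr (calDg hA f) = ∑ i, f (hA.eigenvalues i) := by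
  rw [rtr, calDg, trace_mul_cycle, Unitary.star_mul_self_of_mem hA.eigenvectorUnitary.2, one_mul,
    trace_diagonal, ← Complex.ofReal_sum, Complex.ofReal_re]

lemma cal_det_calDg (f : ℝ → ℝ) : (calDg hA f).det.re = ∏ i, f (hA.eigenvalues i) := by
  rw [calDg, det_mul, det_mul, mul_comm, ← mul_assoc, ← det_mul,
    Unitary.star_mul_self_of_mem hA.eigenvectorUnitary.2, det_one, one_mul, det_diagonal,
    ← Complex.ofReal_prod, Complex.ofReal_re]

lemma calLd_calDg {f : ℝ → ℝ} (hf : ∀ i, 0 < f (hA.eigenvalues i)) :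
    calLd (calDg hA f) = ∑ i, Real.log (f (hA.eigenvalues i)) := by
  rw [calLd, cal_det_calDg, Real.log_prod fun i _ => (hf i).ne']

lemma calDg_posSemidef {f : ℝ → ℝ} (hf : ∀ i, 0 ≤ f (hA.eigenvalues i)) :
    (calDg hA f).PosSemidef := by
  rw [calDg, star_eq_conjTranspose]
  refine PosSemidef.mul_mul_conjTranspose_same (PosSemidef.diagonal fun i => ?_) _
  exact Complex.zero_le_real.2 (hf i)

lemma calDg_posDef {f : ℝ → ℝ} (hf : ∀ i, 0 < f (hA.eigenvalues i)) :
    (calDg hA f).PosDef := by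
  rw [calDg, star_eq_conjTranspose]
  refine PosDef.mul_mul_conjTranspose_same
    (posDef_diagonal_iff.2 fun i => Complex.zero_lt_real.2 (hf i)) ?_
  exact Matrix.vecMul_injective_of_isUnit
    (Units.isUnit (Unitary.toUnits hA.eigenvectorUnitary))

/-- The spectral matrices depend linearly on the values at the eigenvalues. -/
lemma cal_hasDerivAt_calDg {f : ℝ → ℝ → ℝ} {f' : ℝ → ℝ} {t : ℝ}
    (h : ∀ i, HasDerivAt (fun s => f s (hA.eigenvalues i)) (f' (hA.eigenvalues i)) t) :
    HasDerivAt (fun s => calDg hA (f s)) (calDg hA f') t := by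
  set U : Matrix n n ℂ := hA.eigenvectorUnitary.val
  let L : (n → ℝ) →ₗ[ℝ] Matrix n n ℂ :=
    { toFun := fun v => U * diagonal (fun i => (v i : ℂ)) * star U
      map_add' := fun v w => by
        simp only [Pi.add_apply, Complex.ofReal_add, ← diagonal_add, mul_add, add_mul]
      map_smul' := fun r v => by
        have e : (fun i => (((r • v) i : ℝ) : ℂ)) = r • fun i => (v i : ℂ) :=
          funext fun i => by simp [Complex.real_smul]
        rw [e, diagonal_smul, mul_smul_comm, smul_mul_assoc, RingHom.id_apply] }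
  exact L.toContinuousLinearMap.hasFDerivAt.comp_hasDerivAt t (hasDerivAt_pi.2 h)

lemma cal_continuous_calDg {f : ℝ → ℝ → ℝ} (h : ∀ i, Continuous fun s => f s (hA.eigenvalues i)) :
    Continuous fun s => calDg hA (f s) := by
  unfold calDg
  fun_prop

end dg

lemma cal_rtr_add (A B : Matrix n n ℂ) : rtr (A + B) = rtr A + rtr B := by
  simp [rtr, trace_add]

lemma cal_rtr_sub (A B : Matrix n n ℂ) : rtr (A - B) = rtr A - rtr B := by
  simp [rtr, trace_sub]

lemma cal_rtr_smul (r : ℝ) (A : Matrix n n ℂ) : rtr (r • A) = r * rtr A := by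
  simp [rtr, trace_smul]

lemma cal_rtr_one : rtr (1 : Matrix n n ℂ) = Fintype.card n := by simp [rtr]

lemma cal_rtr_comm (A B : Matrix n n ℂ) : rtr (A * B) = rtr (B * A) := by
  simp [rtr, trace_mul_comm A B]

lemma cal_continuous_rtr : Continuous (rtr : Matrix n n ℂ → ℝ) := by
  unfold rtr
  fun_prop

lemma calDet_re_pos {A : Matrix n n ℂ} (hA : A.PosDef) : 0 < A.det.re :=
  (Complex.pos_iff.1 hA.det_pos).1

lemma calDet_eq_re {A : Matrix n n ℂ} (hA : A.PosDef) : A.det = (A.det.re : ℂ) :=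
  Complex.ext rfl (by simpa using (Complex.pos_iff.1 hA.det_pos).2.symm)

lemma calLd_mul_le {P Q : Matrix n n ℂ} (hP : P.PosDef) (hQ : Q.PosDef) :
    calLd P + calLd Q ≤ rtr (P * Q) - Fintype.card n := by
  set S := calDg hP.1 Real.sqrt
  have hpos : ∀ i, 0 < Real.sqrt (hP.1.eigenvalues i) := fun i =>
    Real.sqrt_pos.2 (hP.eigenvalues_pos i)
  have hSd : S.PosDef := calDg_posDef hP.1 hpos
  have hSS : S * S = P := by
    conv_rhs => rw [← calDg_self hP.1]
    rw [calDg_mul]
    exact calDg_congr hP.1 fun i => Real.mul_self_sqrt (hP.eigenvalues_pos i).le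
  set X := S * Q * Sᴴ
  have hX : X.PosDef :=
    hQ.mul_mul_conjTranspose_same (Matrix.vecMul_injective_of_isUnit hSd.isUnit)
  have hSh : Sᴴ = S := hSd.1
  have htr : rtr X = rtr (P * Q) := by
    simp only [X, rtr, hSh]
    rw [trace_mul_cycle, hSS]
  have hdet : X.det.re = P.det.re * Q.det.re := by
    simp only [X, hSh]
    rw [det_mul_right_comm, det_mul, hSS, calDet_eq_re hP, calDet_eq_re hQ, ← Complex.ofReal_mul]
    simp
  have h1 : calLd X = calLd P + calLd Q := by
    rw [calLd, calLd, calLd, hdet, Real.log_mul (calDet_re_pos hP).ne' (calDet_re_pos hQ).ne']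
  rw [← h1, ← htr, ← calDg_self hX.1, calLd_calDg hX.1 hX.eigenvalues_pos, cal_rtr_calDg]
  calc ∑ i, Real.log (hX.1.eigenvalues i) ≤ ∑ i, (hX.1.eigenvalues i - 1) :=
        Finset.sum_le_sum fun i _ => Real.log_le_sub_one_of_pos (hX.eigenvalues_pos i)
    _ = _ := by simp [Finset.sum_sub_distrib]

lemma calLd_inv {A : Matrix n n ℂ} (hA : A.PosDef) : calLd A⁻¹ = -calLd A := by
  rw [calLd, calLd, det_nonsing_inv, Ring.inverse_eq_inv', calDet_eq_re hA, ← Complex.ofReal_inv,
    Complex.ofReal_re, Complex.ofReal_re, Real.log_inv]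

/-- `log det` is concave. -/
lemma calLd_sub_le {A B : Matrix n n ℂ} (hA : A.PosDef) (hB : B.PosDef) :
    calLd B - calLd A ≤ rtr (A⁻¹ * (B - A)) := by
  have h := calLd_mul_le hA.inv hB
  rw [calLd_inv hA] at h
  rw [mul_sub, Matrix.nonsing_inv_mul _ ((Matrix.isUnit_iff_isUnit_det _).1 hA.isUnit), cal_rtr_sub,
    cal_rtr_one]
  linarith

lemma cal_hasDerivAt_calLd {P : ℝ → Matrix n n ℂ} {P' : Matrix n n ℂ} {t : ℝ}
    (hP : HasDerivAt P P' t) (hpos : ∀ᶠ s in 𝓝 t, (P s).PosDef) :
    HasDerivAt (fun s => calLd (P s)) (rtr ((P t)⁻¹ * P')) t := by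
  have ht : (P t).PosDef := hpos.self_of_nhds
  let L : Matrix n n ℂ →ₗ[ℝ] ℝ :=
    { toFun := fun M => rtr ((P t)⁻¹ * M)
      map_add' := fun M N => by rw [mul_add, cal_rtr_add]
      map_smul' := fun r M => by rw [mul_smul_comm, cal_rtr_smul]; rfl }
  have hup := hP
  replace hup := hup.isLittleO
  refine HasDerivAt.of_isLittleO ?_
  have h1 : (fun s => L (P s - P t - (s - t) • P')) =o[𝓝 t] fun s => s - t :=
    (L.toContinuousLinearMap.isBigO_comp _ _).trans_isLittleO hup
  have hinv : Tendsto (fun s => (P s)⁻¹ - (P t)⁻¹) (𝓝 t) (𝓝 0) := by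
    have hdet : ContinuousAt Ring.inverse (P t).det := by
      rw [Ring.inverse_eq_inv']
      exact continuousAt_inv₀ ((Matrix.isUnit_iff_isUnit_det _).1 ht.isUnit).ne_zero
    have := ((continuousAt_matrix_inv _ hdet).comp hP.continuousAt).tendsto
    rw [← sub_self ((P t)⁻¹)]
    exact this.sub tendsto_const_nhds
  have h2 : (fun s => rtr (((P s)⁻¹ - (P t)⁻¹) * (P s - P t))) =o[𝓝 t] fun s => s - t := by
    let T : Matrix n n ℂ →ₗ[ℝ] ℝ :=
      { toFun := rtr, map_add' := cal_rtr_add, map_smul' := fun r M => by rw [cal_rtr_smul]; rfl }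
    refine (T.toContinuousLinearMap.isBigO_comp _ _).trans_isLittleO ?_
    have h := ((Asymptotics.isLittleO_one_iff ℝ).2 hinv).mul_isBigO hP.isBigO_sub
    simpa using h
  have hlin : ∀ s, rtr ((P t)⁻¹ * (P s - P t)) =
      L (P s - P t - (s - t) • P') + (s - t) • rtr ((P t)⁻¹ * P') := fun s => by
    change _ = rtr ((P t)⁻¹ * (P s - P t - (s - t) • P')) + _
    rw [smul_eq_mul, mul_sub ((P t)⁻¹) (P s - P t), cal_rtr_sub, mul_smul_comm, cal_rtr_smul]
    ring
  refine Asymptotics.IsBigO.trans_isLittleO ?_ (h1.norm_left.add h2.norm_left)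
  refine Asymptotics.IsBigO.of_bound 1 (hpos.mono fun s hs => ?_)
  have u := calLd_sub_le ht hs
  have l := calLd_sub_le hs ht
  have e : rtr ((P s)⁻¹ * (P t - P s)) =
      -rtr (((P s)⁻¹ - (P t)⁻¹) * (P s - P t)) - rtr ((P t)⁻¹ * (P s - P t)) := by
    simp only [sub_mul, mul_sub, cal_rtr_sub]
    ring
  rw [e, hlin] at l
  rw [hlin] at u
  rw [one_mul, Real.norm_eq_abs, abs_le]
  have n1 := norm_nonneg (L (P s - P t - (s - t) • P'))
  have n2 := norm_nonneg (rtr (((P s)⁻¹ - (P t)⁻¹) * (P s - P t)))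
  simp only [Real.norm_eq_abs] at n1 n2 ⊢
  rw [abs_of_nonneg (by linarith)]
  constructor <;>
    linarith [le_abs_self (L (P s - P t - (s - t) • P')),
      neg_abs_le (L (P s - P t - (s - t) • P')),
      le_abs_self (rtr (((P s)⁻¹ - (P t)⁻¹) * (P s - P t))),
      neg_abs_le (rtr (((P s)⁻¹ - (P t)⁻¹) * (P s - P t)))]

end Vale.Agent.P371.Gen
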