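import Vale.Agent.P371.Gen.Trace

/-!
The truncated matrix Riccati flow `G' = C² - f(G) - F`, `G(x₀) = C`, with `f` a bounded Lipschitz
modification of the square, and the properties of its final value.
-/

namespace Vale.Agent.P371.Gen

open MeasureTheory Matrix Real Set Filter Topology
open scoped Matrix.Norms.Frobenius ComplexOrder NNReal

variable {n : Type*} [Fintype n] [DecidableEq n]

section Aux

omit [DecidableEq n] in
/-- The quadratic form of a matrix, as a linear map. -/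
noncomputable def flow_qf (u : n → ℂ) : Matrix n n ℂ →ₗ[ℝ] ℝ where
  toFun A := (star u ⬝ᵥ (A *ᵥ u)).re
  map_add' A B := by simp [add_mulVec, dotProduct_add]
  map_smul' c A := by simp [smul_mulVec, dotProduct_smul]

/-- The trace as a real linear map. -/
noncomputable def flow_tr : Matrix n n ℂ →ₗ[ℝ] ℝ where
  toFun A := rtr A
  map_add' A B := by simp [rtr]
  map_smul' c A := by simp [rtr]

omit [DecidableEq n] in
private lemma flow_tr_apply (A : Matrix n n ℂ) : flow_tr A = rtr A := rfl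

omit [DecidableEq n] in
private lemma lin_deriv {E : Type*} [NormedAddCommGroup E] [NormedSpace ℝ E]
    (L : Matrix n n ℂ →ₗ[ℝ] E) {G : ℝ → Matrix n n ℂ} {G' : Matrix n n ℂ} {s : Set ℝ} {x : ℝ}
    (h : HasDerivWithinAt G G' s x) : HasDerivWithinAt (fun y => L (G y)) (L G') s x :=
  (LinearMap.toContinuousLinearMap L).hasFDerivAt.comp_hasDerivWithinAt x h

private lemma affine_bound {h h' : ℝ → ℝ} {a b c : ℝ}
    (hh : ∀ x ∈ Icc a b, HasDerivWithinAt h (h' x) (Icc a b) x) (hle : ∀ x ∈ Icc a b, h' x ≤ c)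
    {x : ℝ} (hx : x ∈ Icc a b) : h x ≤ h a + c * (x - a) ∧ h b ≤ h x + c * (b - x) := by
  have hanti : AntitoneOn (fun y => h y - c * y) (Icc a b) := by
    have hd : ∀ y ∈ Icc a b,
        HasDerivWithinAt (fun y => h y - c * y) (h' y - c) (Icc a b) y := fun y hy => by
      exact ((hh y hy).sub (((hasDerivAt_id y).const_mul c).hasDerivWithinAt)).congr_deriv
          (by simp)
    refine antitoneOn_of_hasDerivWithinAt_nonpos (convex_Icc a b)
      (fun y hy => (hd y hy).continuousWithinAt) (f' := fun y => h' y - c) ?_ ?_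
    · intro y hy
      exact (hd y (interior_subset hy)).mono interior_subset
    · intro y hy
      have := hle y (interior_subset hy)
      linarith
  have hab : a ≤ b := hx.1.trans hx.2
  have h1 := hanti (left_mem_Icc.2 hab) hx hx.1
  have h2 := hanti hx (right_mem_Icc.2 hab) hx.2
  simp only at h1 h2
  constructor <;> linarith

omit [DecidableEq n] in
private lemma posSemidef_of_qf {A : Matrix n n ℂ} (hA : A.IsHermitian)
    (h : ∀ u, 0 ≤ flow_qf u A) : A.PosSemidef := by
  refine Matrix.PosSemidef.of_dotProduct_mulVec_nonneg hA fun u => ?_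
  rw [Complex.nonneg_iff]
  exact ⟨h u, (hA.im_star_dotProduct_mulVec_self u).symm⟩

/-- Sum of the absolute values of the entries. -/
noncomputable def flow_bd (A : Matrix n n ℂ) : ℝ := ∑ i, ∑ j, ‖A i j‖

omit [DecidableEq n] in
private lemma abs_qf_le (A : Matrix n n ℂ) (u : n → ℂ) :
    |flow_qf u A| ≤ flow_bd A * ∑ i, ‖u i‖ ^ 2 := by
  have h0 : flow_qf u A = (∑ i, star (u i) * ∑ j, A i j * u j).re := rfl
  rw [h0, flow_bd, Finset.sum_mul]
  refine (Complex.abs_re_le_norm _).trans ?_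
  refine (norm_sum_le _ _).trans (Finset.sum_le_sum fun i _ => ?_)
  rw [Finset.mul_sum, Finset.sum_mul]
  refine (norm_sum_le _ _).trans (Finset.sum_le_sum fun j _ => ?_)
  rw [norm_mul, norm_mul, norm_star]
  have hk : ∀ k, ‖u k‖ ^ 2 ≤ ∑ l, ‖u l‖ ^ 2 := fun k =>
    Finset.single_le_sum (f := fun l => ‖u l‖ ^ 2) (fun l _ => by positivity) (Finset.mem_univ k)
  calc ‖u i‖ * (‖A i j‖ * ‖u j‖) = ‖A i j‖ * (‖u i‖ * ‖u j‖) := by ring
    _ ≤ ‖A i j‖ * ∑ l, ‖u l‖ ^ 2 := by
        refine mul_le_mul_of_nonneg_left ?_ (norm_nonneg _)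
        nlinarith [hk i, hk j, sq_nonneg (‖u i‖ - ‖u j‖)]

private lemma abs_spec_le {A : Matrix n n ℂ} (hA : A.IsHermitian) {κ : ℝ}
    (h : ∀ u : n → ℂ, |flow_qf u A| ≤ κ * ∑ i, ‖u i‖ ^ 2) :
    ∀ t ∈ spectrum ℝ A, |t| ≤ κ := by
  intro t ht
  rw [hA.spectrum_real_eq_range_eigenvalues] at ht
  obtain ⟨i, rfl⟩ := ht
  have h1 := h ((hA.eigenvectorBasis i).ofLp)
  have h2 : ∑ k, ‖(hA.eigenvectorBasis i).ofLp k‖ ^ 2 = 1 := by
    rw [← EuclideanSpace.norm_sq_eq, hA.eigenvectorBasis.orthonormal.1 i, one_pow]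
  rw [h2, mul_one] at h1
  rw [hA.eigenvalues_eq]
  exact h1

private lemma norm_le_bd (A : Matrix n n ℂ) : ‖A‖ ≤ flow_bd A := by
  conv_lhs => rw [matrix_eq_sum_single A]
  refine (norm_sum_le _ _).trans (Finset.sum_le_sum fun i _ => ?_)
  refine (norm_sum_le _ _).trans (Finset.sum_le_sum fun j _ => ?_)
  rw [frobenius_norm_def, ← Real.sqrt_eq_rpow]
  refine le_of_eq ?_
  rw [Finset.sum_eq_single i, Finset.sum_eq_single j]
  · simp
  · intro b _ hb; simp [hb.symm]
  · simp
  · intro b _ hb; exact Finset.sum_eq_zero fun k _ => by simp [hb.symm]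
  · simp

/-- Hermitian part. -/
noncomputable def flow_herm (A : Matrix n n ℂ) : Matrix n n ℂ := (1 / 2 : ℝ) • (A + Aᴴ)

omit [Fintype n] [DecidableEq n] in
private lemma herm_isHermitian (A : Matrix n n ℂ) : (flow_herm A).IsHermitian := by
  simp [flow_herm, IsHermitian, conjTranspose_smul, add_comm]

omit [Fintype n] [DecidableEq n] in
private lemma herm_of_isHermitian {A : Matrix n n ℂ} (hA : A.IsHermitian) : flow_herm A = A := by
  rw [flow_herm, hA.eq, ← two_smul ℝ A, smul_smul]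
  norm_num

private lemma herm_dist (A B : Matrix n n ℂ) : ‖flow_herm A - flow_herm B‖ ≤ ‖A - B‖ := by
  have e : flow_herm A - flow_herm B = (1 / 2 : ℝ) • ((A - B) + (A - B)ᴴ) := by
    simp [flow_herm, conjTranspose_sub]; module
  rw [e, norm_smul, Real.norm_eq_abs, abs_of_nonneg (by norm_num : (0:ℝ) ≤ 1 / 2)]
  have := norm_add_le (A - B) (A - B)ᴴ
  rw [frobenius_norm_conjTranspose] at this
  linarith

/-- The truncated identity. -/
noncomputable def flow_clip (κ t : ℝ) : ℝ := max (-κ) (min t κ)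

private lemma clip_abs {κ : ℝ} (hκ : 0 ≤ κ) (t : ℝ) : |flow_clip κ t| ≤ κ := by
  rw [abs_le]
  exact ⟨le_max_left _ _, max_le (by linarith) (min_le_right _ _)⟩

private lemma clip_self {κ t : ℝ} (h : |t| ≤ κ) : flow_clip κ t = t := by
  rw [abs_le] at h
  rw [flow_clip, min_eq_left h.2, max_eq_right h.1]

private lemma clip_sq_lip {κ : ℝ} (hκ : 0 ≤ κ) (s t : ℝ) :
    |flow_clip κ s * flow_clip κ s - flow_clip κ t * flow_clip κ t| ≤ 2 * κ * |s - t| := by
  have e : flow_clip κ s * flow_clip κ s - flow_clip κ t * flow_clip κ t =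
      (flow_clip κ s + flow_clip κ t) * (flow_clip κ s - flow_clip κ t) := by ring
  rw [e, abs_mul]
  refine mul_le_mul ?_ ?_ (abs_nonneg _) (by linarith)
  · refine (abs_add_le _ _).trans ?_
    linarith [clip_abs hκ s, clip_abs hκ t]
  · refine (abs_max_sub_max_le_max _ _ _ _).trans ?_
    refine max_le (by simp) ((abs_min_sub_min_le_max _ _ _ _).trans ?_)
    simp

/-- The truncated square, a bounded Lipschitz map. -/
noncomputable def flow_trunc (κ : ℝ) (A : Matrix n n ℂ) : Matrix n n ℂ :=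
  cfc (fun t : ℝ => flow_clip κ t * flow_clip κ t) (flow_herm A)

private lemma trunc_isHermitian (κ : ℝ) (A : Matrix n n ℂ) : (flow_trunc κ A).IsHermitian :=
  Matrix.isHermitian_iff_isSelfAdjoint.2 (cfc_predicate _ _)

private lemma trunc_posSemidef (κ : ℝ) (A : Matrix n n ℂ) : (flow_trunc κ A).PosSemidef := by
  have hP : (cfc (flow_clip κ) (flow_herm A)).IsHermitian :=
    Matrix.isHermitian_iff_isSelfAdjoint.2 (cfc_predicate _ _)
  rw [flow_trunc, cfc_mul (flow_clip κ) (flow_clip κ) _ (by unfold flow_clip; fun_prop)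
    (by unfold flow_clip; fun_prop)]
  nth_rewrite 1 [← hP.eq]
  exact posSemidef_conjTranspose_mul_self _

private lemma trunc_eq_sq {κ : ℝ} {A : Matrix n n ℂ} (hA : A.IsHermitian)
    (h : ∀ u : n → ℂ, |flow_qf u A| ≤ κ * ∑ i, ‖u i‖ ^ 2) : flow_trunc κ A = A * A := by
  rw [flow_trunc, herm_of_isHermitian hA, cfc_mul (flow_clip κ) (flow_clip κ) _
    (by unfold flow_clip; fun_prop) (by unfold flow_clip; fun_prop)]
  have e : cfc (flow_clip κ) A = A := by
    rw [cfc_congr (g := fun t : ℝ => t) fun t ht => clip_self (abs_spec_le hA h t ht)]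
    exact cfc_id' ℝ A (Matrix.isHermitian_iff_isSelfAdjoint.1 hA)
  rw [e]

private lemma trunc_dist {κ : ℝ} (hκ : 0 ≤ κ) (A B : Matrix n n ℂ) :
    ‖flow_trunc κ A - flow_trunc κ B‖ ≤ 2 * κ * ‖A - B‖ :=
  (cfc_lipschitz (herm_isHermitian A) (herm_isHermitian B) (by positivity) (clip_sq_lip hκ)).trans
    (mul_le_mul_of_nonneg_left (herm_dist A B) (by positivity))

private lemma trunc_bound {κ : ℝ} (hκ : 0 ≤ κ) :
    ∃ M : ℝ, ∀ A : Matrix n n ℂ, ‖flow_trunc κ A‖ ≤ M := by
  refine ⟨(∑ _i : n, ∑ _j : n, (1:ℝ)) * (∑ _i : n, ∑ _j : n, κ * κ) *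
    (∑ _i : n, ∑ _j : n, (1:ℝ)), fun A => ?_⟩
  have hA := herm_isHermitian A
  rw [flow_trunc, hA.cfc_eq, IsHermitian.cfc, Unitary.conjStarAlgAut_apply]
  have hU : ‖(hA.eigenvectorUnitary : Matrix n n ℂ)‖ ≤ ∑ _i : n, ∑ _j : n, (1:ℝ) :=
    (norm_le_bd _).trans (Finset.sum_le_sum fun i _ => Finset.sum_le_sum fun j _ =>
      entry_norm_bound_of_unitary hA.eigenvectorUnitary.2 i j)
  refine (norm_mul_le _ _).trans (mul_le_mul ((norm_mul_le _ _).trans (mul_le_mul hU ?_
    (norm_nonneg _) (by positivity))) ?_ (norm_nonneg _) (by positivity))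
  · refine (norm_le_bd _).trans (Finset.sum_le_sum fun i _ => Finset.sum_le_sum fun j _ => ?_)
    by_cases hij : i = j
    · subst hij
      rw [diagonal_apply_eq]
      simp only [Function.comp_apply]
      rw [RCLike.norm_ofReal, abs_mul]
      exact mul_le_mul (clip_abs hκ _) (clip_abs hκ _) (abs_nonneg _) hκ
    · rw [diagonal_apply_ne _ hij, norm_zero]
      positivity
  · rw [star_eq_conjTranspose, frobenius_norm_conjTranspose]
    exact hU

/-- `x ↦ exp (x C) P(x) exp (x C)` increases when `C P + P C + P'` is positive semidefinite. -/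
private lemma conj_exp_mono {a b : ℝ} {C : Matrix n n ℂ} (hC : C.IsHermitian)
    {P P' : ℝ → Matrix n n ℂ} (hP : ∀ x ∈ Icc a b, HasDerivWithinAt P (P' x) (Icc a b) x)
    (hD : ∀ x ∈ Icc a b, (C * P x + P x * C + P' x).PosSemidef) {x : ℝ} (hx : x ∈ Icc a b)
    (u : n → ℂ) :
    flow_qf u (NormedSpace.exp (a • C) * P a * NormedSpace.exp (a • C)) ≤
      flow_qf u (NormedSpace.exp (x • C) * P x * NormedSpace.exp (x • C)) ∧
    flow_qf u (NormedSpace.exp (x • C) * P x * NormedSpace.exp (x • C)) ≤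
      flow_qf u (NormedSpace.exp (b • C) * P b * NormedSpace.exp (b • C)) := by
  set W : ℝ → Matrix n n ℂ :=
    fun y => NormedSpace.exp (y • C) * (C * P y + P y * C + P' y) * NormedSpace.exp (y • C)
  have hd : ∀ y ∈ Icc a b, HasDerivWithinAt
      (fun y => -flow_qf u (NormedSpace.exp (y • C) * P y * NormedSpace.exp (y • C)))
      (-flow_qf u (W y)) (Icc a b) y := by
    intro y hy
    have h := lin_deriv (flow_qf u)
      (((hasDerivAt_exp_smul_const C y).hasDerivWithinAt.mul (hP y hy)).mul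
        (hasDerivAt_exp_smul_const' C y).hasDerivWithinAt)
    refine (h.congr_deriv ?_).neg
    congr 1
    have e : ∀ X Y Z Z' : Matrix n n ℂ,
        (X * Y * Z + X * Z') * X + X * Z * (Y * X) = X * (Y * Z + Z * Y + Z') * X := by
      intro X Y Z Z'; simp only [mul_add, add_mul, mul_assoc]; abel
    exact e _ _ _ _
  have hle : ∀ y ∈ Icc a b, -flow_qf u (W y) ≤ 0 := by
    intro y hy
    have hE : (NormedSpace.exp (y • C)).IsHermitian := IsHermitian.exp (by
      simp [IsHermitian, conjTranspose_smul, hC.eq])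
    have h := ((hD y hy).mul_mul_conjTranspose_same (NormedSpace.exp (y • C))).re_dotProduct_nonneg u
    rw [hE.eq] at h
    exact neg_nonpos.2 h
  obtain ⟨h1, h2⟩ := affine_bound hd hle hx
  constructor <;> linarith

private lemma exp_cancel (C : Matrix n n ℂ) (x : ℝ) :
    NormedSpace.exp ((-x) • C) * NormedSpace.exp (x • C) = 1 ∧
      NormedSpace.exp (x • C) * NormedSpace.exp ((-x) • C) = 1 := by
  constructor <;>
    rw [← Matrix.exp_add_of_commute _ _ (((Commute.refl C).smul_left _).smul_right _),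
      ← add_smul] <;> simp

private lemma posSemidef_of_conj {C P : Matrix n n ℂ} (hP : P.IsHermitian) (x : ℝ)
    (hC : C.IsHermitian)
    (h : ∀ u, 0 ≤ flow_qf u (NormedSpace.exp (x • C) * P * NormedSpace.exp (x • C))) :
    P.PosSemidef := by
  have hE : ∀ y : ℝ, (NormedSpace.exp (y • C)).IsHermitian := fun y => IsHermitian.exp (by
    simp [IsHermitian, conjTranspose_smul, hC.eq])
  have hX : (NormedSpace.exp (x • C) * P * NormedSpace.exp (x • C)).PosSemidef :=
    posSemidef_of_qf (by simp [IsHermitian, conjTranspose_mul, (hE x).eq, hP.eq, mul_assoc]) h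
  have h2 := hX.mul_mul_conjTranspose_same (NormedSpace.exp ((-x) • C))
  rw [(hE (-x)).eq] at h2
  obtain ⟨c1, c2⟩ := exp_cancel C x
  convert h2 using 1
  calc P = (NormedSpace.exp ((-x) • C) * NormedSpace.exp (x • C)) * P *
        (NormedSpace.exp (x • C) * NormedSpace.exp ((-x) • C)) := by rw [c1, c2, one_mul, mul_one]
    _ = _ := by noncomm_ring

/-- The box property: a solution from `C` to `-C` stays between `-C` and `C`. -/
private lemma inBox_of_riccati {a b : ℝ} {C : Matrix n n ℂ} (hC : C.IsHermitian)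
    {G F : ℝ → Matrix n n ℂ} (hGh : ∀ x ∈ Icc a b, (G x).IsHermitian)
    (hFp : ∀ x ∈ Icc a b, (F x).PosSemidef)
    (hG : ∀ x ∈ Icc a b, HasDerivWithinAt G (C * C - G x * G x - F x) (Icc a b) x)
    (ha : G a = C) (hb : G b = -C) {x : ℝ} (hx : x ∈ Icc a b) : InBox C (G x) := by
  have hsq : ∀ M : Matrix n n ℂ, M.IsHermitian → (M * M).PosSemidef := fun M hM => by
    nth_rewrite 1 [← hM.eq]
    exact posSemidef_conjTranspose_mul_self M
  constructor
  · refine posSemidef_of_conj (hC.sub (hGh x hx)) x hC fun u => ?_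
    have h := (conj_exp_mono hC (P := fun y => C - G y)
      (fun y hy => (hG y hy).const_sub C) (fun y hy => ?_) hx u).1
    · simpa [ha] using h
    · have e : C * (C - G y) + (C - G y) * C + -(C * C - G y * G y - F y) =
          (C - G y) * (C - G y) + F y := by noncomm_ring
      rw [e]
      exact (hsq _ (hC.sub (hGh y hy))).add (hFp y hy)
  · refine posSemidef_of_conj (hC.add (hGh x hx)) x hC.neg fun u => ?_
    have h := (conj_exp_mono hC.neg (P := fun y => -(C + G y))
      (fun y hy => ((hG y hy).const_add C).neg) (fun y hy => ?_) hx u).2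
    · simpa only [hb, add_neg_cancel, neg_zero, mul_zero, zero_mul, map_zero, mul_neg, neg_mul,
        map_neg, neg_nonpos] using h
    · have e : -C * -(C + G y) + -(C + G y) * -C + -(C * C - G y * G y - F y) =
          (C + G y) * (C + G y) + F y := by noncomm_ring
      rw [e]
      exact (hsq _ (hC.add (hGh y hy))).add (hFp y hy)

end Aux

/-- Global solution of the truncated Riccati equation. -/
theorem exists_flow {x₀ x₁ : ℝ} (hx : x₀ < x₁) {Θ : Type*} [TopologicalSpace Θ] {S : Set Θ}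
    (hS : IsCompact S) {C : Θ → Matrix n n ℂ} {F : Θ → ℝ → Matrix n n ℂ}
    (hC : ContinuousOn C S) (hF : ContinuousOn (fun q : Θ × ℝ => F q.1 q.2) (S ×ˢ Set.Icc x₀ x₁))
    (hCp : ∀ θ ∈ S, (C θ).PosSemidef) (hFp : ∀ θ ∈ S, ∀ x ∈ Set.Icc x₀ x₁, (F θ x).PosSemidef) :
    ∃ (Z : Θ → Matrix n n ℂ), ContinuousOn Z S ∧ ∀ θ ∈ S,
      (Z θ).IsHermitian ∧
      rtr (Z θ) ≤ 2 * rtr (C θ) + (x₁ - x₀) * rtr (C θ * C θ) - ∫ x in x₀..x₁, rtr (F θ x) ∧
      (∀ u : n → ℂ, C θ *ᵥ u = 0 → (star u ⬝ᵥ (Z θ *ᵥ u)).re ≤ 0) ∧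
      ((∀ x ∈ Set.Icc x₀ x₁, F θ x = 0) → Z θ = 2 • C θ) ∧
      (Z θ = 0 → ∃ G : ℝ → Matrix n n ℂ, G x₀ = C θ ∧ G x₁ = -C θ ∧
        ∀ x ∈ Set.Icc x₀ x₁, InBox (C θ) (G x) ∧
          HasDerivWithinAt G (C θ * C θ - G x * G x - F θ x) (Set.Icc x₀ x₁) x) := by
  have hT : 0 ≤ x₁ - x₀ := by linarith
  have hbd : Continuous (flow_bd : Matrix n n ℂ → ℝ) :=
    continuous_finsetSum _ fun i _ => continuous_finsetSum _ fun j _ =>
      ((continuous_apply j).comp (continuous_apply i)).norm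
  have hCC : ContinuousOn (fun θ => C θ * C θ) S := hC.mul hC
  obtain ⟨c, hc⟩ := hS.exists_bound_of_continuousOn (hbd.comp_continuousOn hC)
  obtain ⟨c', hc'⟩ := hS.exists_bound_of_continuousOn (hbd.comp_continuousOn hCC)
  set κ := max c 0 + (x₁ - x₀) * max c' 0 with hκdef
  have hκ : 0 ≤ κ := by positivity
  set v : Θ → ℝ → Matrix n n ℂ → Matrix n n ℂ :=
    fun θ t X => C θ * C θ - flow_trunc κ X - F θ t with hv
  have hlip : ∀ θ t, LipschitzWith (2 * κ).toNNReal (v θ t) := fun θ t =>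
    LipschitzWith.of_dist_le_mul fun X Y => by
      rw [dist_eq_norm, dist_eq_norm, Real.coe_toNNReal _ (by positivity)]
      have e : v θ t X - v θ t Y = -(flow_trunc κ X - flow_trunc κ Y) := by simp [hv]
      rw [e, norm_neg]
      exact trunc_dist hκ X Y
  have hFθ : ∀ θ ∈ S, ContinuousOn (F θ) (Icc x₀ x₁) := fun θ hθ =>
    hF.comp (f := fun t => (θ, t)) (Continuous.continuousOn (by fun_prop))
      fun t ht => ⟨hθ, ht⟩
  obtain ⟨M, hM⟩ := trunc_bound (n := n) hκ
  have hex : ∀ θ, ∃ G : ℝ → Matrix n n ℂ, θ ∈ S → G x₀ = C θ ∧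
      ∀ t ∈ Icc x₀ x₁, HasDerivWithinAt G (v θ t (G t)) (Icc x₀ x₁) t := by
    intro θ
    by_cases hθ : θ ∈ S
    · obtain ⟨mF, hmF⟩ := isCompact_Icc.exists_bound_of_continuousOn (hFθ θ hθ)
      set L := max (‖C θ * C θ‖ + M + mF) 0 with hL
      have hpl : IsPicardLindelof (v θ) (tmin := x₀) (tmax := x₁)
          ⟨x₀, left_mem_Icc.2 hx.le⟩ (C θ) (L * (x₁ - x₀)).toNNReal 0 L.toNNReal
          (2 * κ).toNNReal := by
        refine ⟨fun t _ => (hlip θ t).lipschitzOnWith, fun X _ => ?_, fun t ht X _ => ?_, ?_⟩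
        · exact (continuousOn_const.sub continuousOn_const).sub (hFθ θ hθ)
        · rw [Real.coe_toNNReal _ (le_max_right _ _)]
          refine le_trans ?_ (le_max_left _ _)
          exact (norm_sub_le _ _).trans (add_le_add ((norm_sub_le _ _).trans
            (add_le_add le_rfl (hM X))) (hmF t ht))
        · have hL0 : 0 ≤ L := le_max_right _ _
          simp [max_eq_left hT, Real.coe_toNNReal _ hL0,
            Real.coe_toNNReal _ (mul_nonneg hL0 hT)]
      obtain ⟨G, h1, h2⟩ := hpl.exists_eq_forall_mem_Icc_hasDerivWithinAt₀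
      exact ⟨G, fun _ => ⟨h1, h2⟩⟩
    · exact ⟨fun _ => 0, fun h => absurd h hθ⟩
  choose G hG using hex
  have hGc : ∀ θ ∈ S, ContinuousOn (G θ) (Icc x₀ x₁) := fun θ hθ t ht =>
    ((hG θ hθ).2 t ht).continuousWithinAt
  have hGd : ∀ θ ∈ S, ∀ t ∈ Ico x₀ x₁, HasDerivWithinAt (G θ) (v θ t (G θ t)) (Ici t) t :=
    fun θ hθ t ht => ((hG θ hθ).2 t (Ico_subset_Icc_self ht)).mono_of_mem_nhdsWithin
      (Icc_mem_nhdsGE_of_mem ht)
  refine ⟨fun θ => G θ x₁ + C θ, ?_, ?_⟩
  · refine ContinuousOn.add (fun θ hθ => ?_) hC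
    refine Metric.tendsto_nhds.2 fun ε hε => ?_
    set Kc := ((2 * κ).toNNReal : ℝ)
    have hgb : Continuous fun η : ℝ => gronwallBound η Kc η (x₁ - x₀) := by
      by_cases hK : Kc = 0
      · simp only [hK, gronwallBound_K0]; fun_prop
      · simp only [gronwallBound_of_K_ne_0 hK]; fun_prop
    have h0 : ∀ᶠ η in 𝓝 (0:ℝ), gronwallBound η Kc η (x₁ - x₀) < ε :=
      (hgb.tendsto 0).eventually_lt_const (by rw [gronwallBound_ε0_δ0]; exact hε)
    obtain ⟨η, hηε, hη⟩ := ((h0.filter_mono nhdsWithin_le_nhds).and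
      (self_mem_nhdsWithin : Ioi (0:ℝ) ∈ 𝓝[>] 0)).exists
    have e1 : ∀ᶠ θ' in 𝓝[S] θ, dist (C θ') (C θ) ≤ η :=
      ((hC θ hθ).eventually (Metric.closedBall_mem_nhds _ hη))
    have e2 : ∀ᶠ θ' in 𝓝[S] θ, dist (C θ' * C θ') (C θ * C θ) ≤ η / 2 :=
      ((hCC θ hθ).eventually (Metric.closedBall_mem_nhds _ (half_pos hη)))
    have e3 : ∀ᶠ θ' in 𝓝[S] θ, ∀ t ∈ Icc x₀ x₁, dist (F θ' t) (F θ t) ≤ η / 2 := by
      rw [eventually_nhdsWithin_iff]
      have h := isCompact_Icc.eventually_forall_of_forall_eventually (x₀ := θ)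
        (P := fun θ' t => θ' ∈ S → t ∈ Icc x₀ x₁ → dist (F θ' t) (F θ t) ≤ η / 2)
        (K := Icc x₀ x₁) ?_
      · exact h.mono fun θ' h hθ' t ht => h t ht hθ' ht
      intro y hy
      have hq : 0 < η / 4 := by linarith [show (0:ℝ) < η from hη]
      have a1 := (hF (θ, y) ⟨hθ, hy⟩).eventually (Metric.closedBall_mem_nhds (F θ y) hq)
      have a2 := (hFθ θ hθ y hy).eventually (Metric.closedBall_mem_nhds (F θ y) hq)
      rw [eventually_nhdsWithin_iff] at a1 a2
      filter_upwards [a1, (continuous_snd.tendsto (θ, y)).eventually a2] with z h1 h2 hz1 hz2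
      have b1 : dist (F z.1 z.2) (F θ y) ≤ η / 4 := h1 ⟨hz1, hz2⟩
      have b2 : dist (F θ z.2) (F θ y) ≤ η / 4 := h2 hz2
      linarith [dist_triangle_right (F z.1 z.2) (F θ z.2) (F θ y)]
    filter_upwards [e1, e2, e3, self_mem_nhdsWithin] with θ' d1 d2 d3 hθ'
    rw [dist_comm]
    have key := dist_le_of_approx_trajectories_ODE (v := v θ) (εf := 0) (εg := η) (δ := η)
      (hlip θ) (hGc θ hθ) (hGd θ hθ) (fun t _ => by rw [dist_self]) (hGc θ' hθ') (hGd θ' hθ')
      (fun t ht => ?_) (by rw [(hG θ hθ).1, (hG θ' hθ').1, dist_comm]; exact d1) x₁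
      (right_mem_Icc.2 hx.le)
    · rw [zero_add] at key
      exact key.trans_lt hηε
    · rw [dist_eq_norm] at d2 ⊢
      have d3' := d3 t (Ico_subset_Icc_self ht)
      rw [dist_eq_norm] at d3'
      have e : v θ' t (G θ' t) - v θ t (G θ' t) =
          (C θ' * C θ' - C θ * C θ) - (F θ' t - F θ t) := by simp [hv]; abel
      rw [e]
      exact (norm_sub_le _ _).trans (by linarith)
  intro θ hθ
  obtain ⟨hG0, hG1⟩ := hG θ hθ
  have hCh : (C θ).IsHermitian := (hCp θ hθ).1
  have hC2 : (C θ * C θ).IsHermitian := by simp [IsHermitian, conjTranspose_mul, hCh.eq]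
  have hGh : ∀ t ∈ Icc x₀ x₁, (G θ t).IsHermitian := by
    let A : Matrix n n ℂ →ₗ[ℝ] Matrix n n ℂ :=
      { toFun := fun X => X - Xᴴ
        map_add' := fun X Y => by simp [conjTranspose_add]; abel
        map_smul' := fun r X => by simp [conjTranspose_smul, smul_sub] }
    have hd : ∀ t ∈ Icc x₀ x₁,
        HasDerivWithinAt (fun t => A (G θ t)) 0 (Icc x₀ x₁) t := fun t ht => by
      refine (lin_deriv A (hG1 t ht)).congr_deriv (sub_eq_zero.2 ?_)
      exact ((hC2.sub (trunc_isHermitian κ _)).sub (hFp θ hθ t ht).1).eq.symm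
    intro t ht
    have h := constant_of_has_deriv_right_zero (fun s hs => (hd s hs).continuousWithinAt)
      (fun s hs => (hd s (Ico_subset_Icc_self hs)).mono_of_mem_nhdsWithin
        (Icc_mem_nhdsGE_of_mem hs)) t ht
    simp only [A, LinearMap.coe_mk, AddHom.coe_mk, hG0, hCh.eq, sub_self, sub_eq_zero] at h
    exact h.symm
  have hq : ∀ (u : n → ℂ) {t}, t ∈ Icc x₀ x₁ →
      flow_qf u (G θ t) ≤ flow_qf u (C θ) + flow_qf u (C θ * C θ) * (t - x₀) ∧
      flow_qf u (G θ x₁) ≤ flow_qf u (G θ t) + flow_qf u (C θ * C θ) * (x₁ - t) := by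
    intro u t ht
    rw [← hG0]
    refine affine_bound (h := fun s => flow_qf u (G θ s))
      (h' := fun s => flow_qf u (v θ s (G θ s))) (fun s hs => lin_deriv _ (hG1 s hs))
      (fun s hs => ?_) ht
    have h1 : 0 ≤ flow_qf u (flow_trunc κ (G θ s)) :=
      (trunc_posSemidef κ _).re_dotProduct_nonneg u
    have h2 : 0 ≤ flow_qf u (F θ s) := (hFp θ hθ s hs).re_dotProduct_nonneg u
    simp only [hv, map_sub, hG0]
    linarith
  have hcθ : ∀ u : n → ℂ, |flow_qf u (C θ)| ≤ max c 0 * ∑ i, ‖u i‖ ^ 2 := fun u =>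
    (abs_qf_le _ u).trans (mul_le_mul_of_nonneg_right
      (((le_abs_self _).trans (hc θ hθ)).trans (le_max_left _ _)) (by positivity))
  have hcθ' : ∀ u : n → ℂ, |flow_qf u (C θ * C θ)| ≤ max c' 0 * ∑ i, ‖u i‖ ^ 2 := fun u =>
    (abs_qf_le _ u).trans (mul_le_mul_of_nonneg_right
      (((le_abs_self _).trans (hc' θ hθ)).trans (le_max_left _ _)) (by positivity))
  refine ⟨(hGh x₁ (right_mem_Icc.2 hx.le)).add hCh, ?_, ?_, ?_, ?_⟩
  · have hcont : ContinuousOn (fun t => flow_tr (v θ t (G θ t))) (Icc x₀ x₁) := by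
      have hL : LipschitzWith (2 * κ).toNNReal (flow_trunc (n := n) κ) :=
        LipschitzWith.of_dist_le_mul fun X Y => by
          rw [dist_eq_norm, dist_eq_norm, Real.coe_toNNReal _ (by positivity)]
          exact trunc_dist hκ X Y
      have h1 : ContinuousOn (fun t => flow_trunc κ (G θ t)) (Icc x₀ x₁) :=
        hL.continuous.comp_continuousOn (hGc θ hθ)
      exact (LinearMap.toContinuousLinearMap flow_tr).continuous.comp_continuousOn
        ((continuousOn_const.sub h1).sub (hFθ θ hθ))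
    have hFc : ContinuousOn (fun t => rtr (F θ t)) (Icc x₀ x₁) :=
      (LinearMap.toContinuousLinearMap flow_tr).continuous.comp_continuousOn (hFθ θ hθ)
    have hint := hcont.intervalIntegrable_of_Icc (μ := volume) hx.le
    have hFi := hFc.intervalIntegrable_of_Icc (μ := volume) hx.le
    have hftc := intervalIntegral.integral_eq_sub_of_hasDerivAt_of_le hx.le
      (f := fun t => flow_tr (G θ t))
      (fun t ht => (lin_deriv flow_tr (hG1 t ht)).continuousWithinAt)
      (fun t ht => (lin_deriv flow_tr (hG1 t (Ioo_subset_Icc_self ht))).hasDerivAt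
        (Icc_mem_nhds ht.1 ht.2)) hint
    have hmono := intervalIntegral.integral_mono_on hx.le hint
      (intervalIntegrable_const.sub hFi) fun t ht => show
        flow_tr (v θ t (G θ t)) ≤ rtr (C θ * C θ) - rtr (F θ t) by
      have h1 : 0 ≤ rtr (flow_trunc κ (G θ t)) :=
        (Complex.nonneg_iff.1 (trunc_posSemidef κ _).trace_nonneg).1
      simp only [hv, map_sub]
      simp only [flow_tr_apply]
      linarith
    rw [hftc, intervalIntegral.integral_sub intervalIntegrable_const hFi,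
      intervalIntegral.integral_const, smul_eq_mul] at hmono
    simp only [flow_tr_apply, hG0] at hmono
    simp only [rtr, trace_add, Complex.add_re] at hmono ⊢
    linarith
  · intro u hu
    have h := (hq u (right_mem_Icc.2 hx.le)).1
    have z1 : flow_qf u (C θ) = 0 := by simp [flow_qf, hu]
    have z2 : flow_qf u (C θ * C θ) = 0 := by simp [flow_qf, ← mulVec_mulVec, hu]
    show flow_qf u (G θ x₁ + C θ) ≤ 0
    rw [map_add]
    rw [z1, z2] at h
    linarith
  · intro hF0
    have hsq : flow_trunc κ (C θ) = C θ * C θ := trunc_eq_sq hCh fun u =>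
      (hcθ u).trans (mul_le_mul_of_nonneg_right
        (by have := mul_nonneg hT (le_max_right c' 0); linarith) (by positivity))
    have heq := dist_le_of_trajectories_ODE (v := v θ) (δ := 0) (hlip θ) (hGc θ hθ) (hGd θ hθ)
      (g := fun _ => C θ) continuousOn_const (fun t ht => by
        refine (hasDerivWithinAt_const _ _ _).congr_deriv ?_
        simp [hv, hsq, hF0 t (Ico_subset_Icc_self ht)])
      (by rw [hG0, dist_self]) x₁ (right_mem_Icc.2 hx.le)
    have : G θ x₁ = C θ := by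
      rw [zero_mul] at heq
      exact dist_le_zero.1 heq
    show G θ x₁ + C θ = 2 • C θ
    rw [this, two_nsmul]
  · intro hZ
    have hend : G θ x₁ = -C θ := eq_neg_of_add_eq_zero_left hZ
    have hsq : ∀ t ∈ Icc x₀ x₁, flow_trunc κ (G θ t) = G θ t * G θ t := fun t ht => by
      refine trunc_eq_sq (hGh t ht) fun u => ?_
      obtain ⟨h1, h2⟩ := hq u ht
      rw [hend, map_neg] at h2
      have a1 := abs_le.1 (hcθ u)
      have a2 := abs_le.1 (hcθ' u)
      have hN : 0 ≤ ∑ i, ‖u i‖ ^ 2 := by positivity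
      have hm : 0 ≤ max c' 0 * ∑ i, ‖u i‖ ^ 2 := mul_nonneg (le_max_right _ _) hN
      have p1 : flow_qf u (C θ * C θ) * (t - x₀) ≤
          (max c' 0 * ∑ i, ‖u i‖ ^ 2) * (x₁ - x₀) :=
        mul_le_mul a2.2 (by linarith [ht.2]) (by linarith [ht.1]) hm
      have p2 : flow_qf u (C θ * C θ) * (x₁ - t) ≤
          (max c' 0 * ∑ i, ‖u i‖ ^ 2) * (x₁ - x₀) :=
        mul_le_mul a2.2 (by linarith [ht.1]) (by linarith [ht.2]) hm
      rw [abs_le, hκdef]
      constructor <;> nlinarith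
    have hode : ∀ t ∈ Icc x₀ x₁, HasDerivWithinAt (G θ)
        (C θ * C θ - G θ t * G θ t - F θ t) (Icc x₀ x₁) t := fun t ht => by
      rw [← hsq t ht]
      exact hG1 t ht
    exact ⟨G θ, hG0, hend, fun t ht =>
      ⟨inBox_of_riccati hCh hGh (hFp θ hθ) hode hG0 hend ht, hode t ht⟩⟩

end Vale.Agent.P371.Gen
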