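import Vale.Agent.P371.Gen.Defs
import Vale.Agent.P371.Gen.Trace
import Vale.Agent.P371.Gen.Flow
import Vale.Agent.P371.Brouwer

/-!
Existence of the flipping data for the sharp Lieb-Thirring inequality: the zero of the
end-point map of the clipped Riccati flow, from Brouwer's fixed point theorem.
-/

namespace Vale.Agent.P371.Gen

open MeasureTheory Matrix Real Filter Topology
open scoped ComplexOrder

variable {n : Type*} [Fintype n] [DecidableEq n]

/-- The simplex of density matrices. -/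
private def densitySet (n : Type*) [Fintype n] : Set (Matrix n n ℂ) :=
  {D | D.PosSemidef ∧ rtr D = 1}

/-! ### Functional calculus facts (independent of the norm) -/

private lemma rtr_smul_flip (r : ℝ) (X : Matrix n n ℂ) : rtr (r • X) = r * rtr X := by
  simp [rtr, trace_smul, Complex.real_smul]

private lemma rtr_comm_flip (X Y : Matrix n n ℂ) : rtr (X * Y) = rtr (Y * X) := by
  rw [rtr, trace_mul_comm, rtr]

private lemma contOn_spec (A : Matrix n n ℂ) (f : ℝ → ℝ) : ContinuousOn f (spectrum ℝ A) :=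
  Set.Finite.continuousOn (Matrix.finite_real_spectrum (A := A)) f

private lemma rtr_cfc_flip {A : Matrix n n ℂ} (hA : A.IsHermitian) (f : ℝ → ℝ) :
    rtr (cfc f A) = ∑ i, f (hA.eigenvalues i) := by
  rw [hA.cfc_eq, IsHermitian.cfc, Unitary.conjStarAlgAut_apply, rtr, trace_mul_cycle,
    Unitary.coe_star_mul_self, one_mul, trace_diagonal, Complex.re_sum]
  simp

private lemma rtr_eigen_flip {A : Matrix n n ℂ} (hA : A.IsHermitian) :
    rtr A = ∑ i, hA.eigenvalues i := by
  rw [rtr, hA.trace_eq_sum_eigenvalues, Complex.re_sum]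
  simp

private lemma spec_nonneg {A : Matrix n n ℂ} (hA : A.PosSemidef) {x : ℝ}
    (hx : x ∈ spectrum ℝ A) : 0 ≤ x := by
  rw [hA.1.spectrum_real_eq_range_eigenvalues] at hx
  obtain ⟨i, rfl⟩ := hx
  exact hA.eigenvalues_nonneg i

private lemma spec_pos {A : Matrix n n ℂ} (hA : A.PosDef) {x : ℝ}
    (hx : x ∈ spectrum ℝ A) : 0 < x := by
  rw [hA.1.spectrum_real_eq_range_eigenvalues] at hx
  obtain ⟨i, rfl⟩ := hx
  exact hA.eigenvalues_pos i

private lemma cfc_isHermitian (A : Matrix n n ℂ) (f : ℝ → ℝ) : (cfc f A).IsHermitian :=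
  cfc_predicate f A

private lemma cfc_psd {A : Matrix n n ℂ} {f : ℝ → ℝ} (hf : ∀ x ∈ spectrum ℝ A, 0 ≤ f x) :
    (cfc f A).PosSemidef := by
  have h : cfc f A = cfc (fun x => √(f x)) A * cfc (fun x => √(f x)) A := by
    rw [← cfc_mul _ _ A (contOn_spec _ _) (contOn_spec _ _)]
    exact cfc_congr fun x hx => (Real.mul_self_sqrt (hf x hx)).symm
  rw [h]
  nth_rw 1 [← (cfc_isHermitian A fun x => √(f x)).eq]
  exact posSemidef_conjTranspose_mul_self _

private lemma cfc_mul_inv {A : Matrix n n ℂ} (hA : A.IsHermitian) {f : ℝ → ℝ}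
    (hf : ∀ x ∈ spectrum ℝ A, f x ≠ 0) : cfc f A * cfc (fun x => (f x)⁻¹) A = 1 := by
  rw [← cfc_mul _ _ A (contOn_spec _ _) (contOn_spec _ _), ← cfc_one ℝ A hA]
  exact cfc_congr fun x hx => by simp [mul_inv_cancel₀ (hf x hx)]

private lemma cfc_mul_cfc (A : Matrix n n ℂ) (f g : ℝ → ℝ) :
    cfc f A * cfc g A = cfc (fun x => f x * g x) A :=
  (cfc_mul f g A (contOn_spec _ _) (contOn_spec _ _)).symm

private lemma cfc_id_self {A : Matrix n n ℂ} (hA : A.IsHermitian) :
    cfc (fun x : ℝ => x) A = A := cfc_id' ℝ A hA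

private lemma cfc_mul_self_id {A : Matrix n n ℂ} (hA : A.IsHermitian) :
    A * A = cfc (fun x : ℝ => x * x) A := by
  conv_lhs => rw [← cfc_id_self hA, cfc_mul_cfc]

private lemma cfc_smul_rpow {A : Matrix n n ℂ} (hA : A.IsHermitian) (c r : ℝ) :
    rtr (cfc (fun x : ℝ => x ^ r) (c • A)) = ∑ i, (c * hA.eigenvalues i) ^ r := by
  exact (congrArg rtr (cfc_comp_smul c (fun x : ℝ => x ^ r) A
    ((Matrix.finite_real_spectrum.image _).continuousOn _) hA)).symm.trans
    ((rtr_cfc_flip hA _).trans (by simp))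

private lemma cfc_pos_part_spec {z : Matrix n n ℂ} (hz : z.IsHermitian) :
    (cfc (fun x : ℝ => max x 0) z).PosSemidef ∧
      cfc (fun x : ℝ => max x 0) z = z + cfc (fun x : ℝ => max (-x) 0) z ∧
      cfc (fun x : ℝ => max x 0) z * cfc (fun x : ℝ => max (-x) 0) z = 0 := by
  refine ⟨cfc_psd fun x _ => le_max_right _ _, ?_, ?_⟩
  · conv_rhs => arg 1; rw [← cfc_id_self hz]
    rw [← cfc_add z _ _ (contOn_spec _ _) (contOn_spec _ _)]
    refine cfc_congr fun x _ => ?_
    rcases le_total x 0 with h | h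
    · simp [max_eq_right h, max_eq_left (neg_nonneg.2 h)]
    · simp [max_eq_left h, max_eq_right (neg_nonpos.2 h)]
  · rw [cfc_mul_cfc, ← cfc_const_zero ℝ z]
    refine cfc_congr fun x _ => ?_
    rcases le_total x 0 with h | h
    · simp [max_eq_right h]
    · simp [max_eq_right (neg_nonpos.2 h)]

private lemma eigen_le_one {D : Matrix n n ℂ} (hD : D ∈ densitySet n) (i : n) :
    hD.1.1.eigenvalues i ≤ 1 := by
  have h := hD.2
  rw [rtr_eigen_flip hD.1.1] at h
  exact (Finset.single_le_sum (fun j _ => hD.1.eigenvalues_nonneg j)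
    (Finset.mem_univ i)).trans_eq h

private lemma exists_eigen_ge [Nonempty n] {D : Matrix n n ℂ} (hD : D ∈ densitySet n) :
    ∃ i, 1 / (Fintype.card n : ℝ) ≤ hD.1.1.eigenvalues i := by
  by_contra h
  push Not at h
  have := Finset.sum_lt_sum_of_nonempty Finset.univ_nonempty fun i _ => h i
  rw [← rtr_eigen_flip hD.1.1, hD.2, Finset.sum_const, Finset.card_univ, nsmul_eq_mul] at this
  have hN : (0 : ℝ) < Fintype.card n := by exact_mod_cast Fintype.card_pos
  rw [mul_one_div_cancel hN.ne'] at this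
  exact lt_irrefl _ this

private lemma rtr_mul_self_le_one {D : Matrix n n ℂ} (hD : D ∈ densitySet n) :
    rtr (D * D) ≤ 1 := by
  rw [cfc_mul_self_id hD.1.1, rtr_cfc_flip hD.1.1]
  exact (Finset.sum_le_sum fun a _ =>
    mul_le_of_le_one_left (hD.1.eigenvalues_nonneg a) (eigen_le_one hD a)).trans_eq
    ((rtr_eigen_flip hD.1.1).symm.trans hD.2)

/-- Weighted comparison at `γ ≥ 1`. -/
private lemma compare_ge_one {γ : ℝ} (hγ : 1 ≤ γ) {A D : Matrix n n ℂ} (hA : A.PosDef)
    (hD : D.PosSemidef) {lam : ℝ} (hlam : 0 ≤ lam)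
    (heq : rtr (cfc (fun x : ℝ => x ^ (γ - 1)) A * A) = lam ^ 2 * rtr (cfc (fun x : ℝ => x ^ (γ - 1)) A * (D * D))) :
    rtr (cfc (fun x : ℝ => x ^ γ) A) ≤ rtr (cfc (fun x : ℝ => x ^ (2 * γ)) (lam • D)) := by
  have h1 : rtr (cfc (fun x : ℝ => x ^ (γ - 1)) A * A) = rtr (cfc (fun x : ℝ => x ^ γ) A) := by
    nth_rw 2 [← cfc_id_self hA.1]
    rw [cfc_mul_cfc]
    refine congrArg rtr (cfc_congr fun x hx => ?_)
    have hx0 := spec_pos hA hx
    rw [← rpow_add_one hx0.ne', sub_add_cancel]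
  have h2 : lam ^ 2 • (D * D) = cfc (fun x => lam ^ 2 * (x * x)) D := by
    rw [cfc_const_mul _ _ D (contOn_spec _ _), cfc_mul_self_id hD.1]
  have key : rtr (cfc (fun x : ℝ => x ^ (γ - 1)) A * cfc (fun x : ℝ => lam ^ 2 * (x * x)) D) ≤
      rtr (cfc (fun x : ℝ => (1 - 1 / γ) * x ^ γ) A) +
        rtr (cfc (fun x : ℝ => 1 / γ * (lam * x) ^ (2 * γ)) D) := cfc_trace_le hA.1 hD.1 (fun x => x ^ (γ - 1)) (fun x => lam ^ 2 * (x * x))
    (fun x => (1 - 1 / γ) * x ^ γ) (fun x => 1 / γ * (lam * x) ^ (2 * γ)) (by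
      intro x hx y hy
      have hx0 : 0 ≤ x := (spec_pos hA hx).le
      have hy0 : 0 ≤ lam * y := mul_nonneg hlam (spec_nonneg hD hy)
      have hg : 0 < γ := by linarith
      have hyoung := Real.geom_mean_le_arith_mean2_weighted
        (w₁ := 1 - 1 / γ) (w₂ := 1 / γ) (p₁ := x ^ γ) (p₂ := (lam * y) ^ (2 * γ))
        (by rw [sub_nonneg, div_le_one hg]; exact hγ) (by positivity) (by positivity)
        (by positivity) (by ring)
      rw [← rpow_mul hx0, ← rpow_mul hy0] at hyoung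
      rw [show γ * (1 - 1 / γ) = γ - 1 by field_simp,
        show 2 * γ * (1 / γ) = ((2 : ℕ) : ℝ) by push_cast; field_simp, rpow_natCast] at hyoung
      calc x ^ (γ - 1) * (lam ^ 2 * (y * y)) = x ^ (γ - 1) * (lam * y) ^ 2 := by ring
        _ ≤ _ := hyoung)
  rw [← h2, Matrix.mul_smul, rtr_smul_flip, ← heq, h1] at key
  simp only [rtr_cfc_flip hA.1, rtr_cfc_flip hD.1, ← Finset.mul_sum] at key
  have e1 : rtr (cfc (fun x : ℝ => x ^ γ) A) = ∑ i, hA.1.eigenvalues i ^ γ := rtr_cfc_flip hA.1 _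
  have e2 : rtr (cfc (fun x : ℝ => x ^ (2 * γ)) (lam • D)) =
      ∑ i, (lam * hD.1.eigenvalues i) ^ (2 * γ) := cfc_smul_rpow hD.1 lam _
  rw [← e1, ← e2] at key
  have hg : 0 < γ := by linarith
  have h3 : 1 / γ * rtr (cfc (fun x : ℝ => x ^ γ) A) ≤
      1 / γ * rtr (cfc (fun x : ℝ => x ^ (2 * γ)) (lam • D)) := by linarith
  exact le_of_mul_le_mul_left h3 (by positivity)

private lemma sum_rpow_perturb {ι : Type*} [Fintype ι] {r θ : ℝ} (hr : 1 ≤ r) (hθ : 0 < θ)
    (hθ1 : θ < 1) (c : ι → ℝ) (hc : ∀ i, 0 ≤ c i) {y : ℝ} (hy : 0 ≤ y) :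
    ∑ i, (c i + y) ^ r ≤
      (1 - θ) ^ (1 - r) * ∑ i, c i ^ r + Fintype.card ι * (θ ^ (1 - r) * y ^ r) := by
  have h1 : 0 < 1 - θ := by linarith
  have hstep : ∀ i, (c i + y) ^ r ≤ (1 - θ) ^ (1 - r) * c i ^ r + θ ^ (1 - r) * y ^ r := by
    intro i
    have hconv := (convexOn_rpow hr).2 (show c i / (1 - θ) ∈ Set.Ici (0:ℝ) from
      div_nonneg (hc i) h1.le) (show y / θ ∈ Set.Ici (0:ℝ) from div_nonneg hy hθ.le)
      h1.le hθ.le (by ring)
    simp only [smul_eq_mul] at hconv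
    rw [mul_div_cancel₀ _ h1.ne', mul_div_cancel₀ _ hθ.ne', div_rpow (hc i) h1.le,
      div_rpow hy hθ.le] at hconv
    refine hconv.trans (le_of_eq ?_)
    rw [rpow_sub h1, rpow_sub hθ, rpow_one, rpow_one]
    field_simp
  refine (Finset.sum_le_sum fun i _ => hstep i).trans (le_of_eq ?_)
  rw [Finset.sum_add_distrib, ← Finset.mul_sum, Finset.sum_const, Finset.card_univ, nsmul_eq_mul]

/-- Weighted comparison at `γ < 1`. -/
private lemma compare_lt_one [Nonempty n] {γ : ℝ} (hγ : 1 / 2 < γ) (hγ1 : γ < 1)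
    {A D : Matrix n n ℂ} (hA : A.PosDef) (hD : D ∈ densitySet n) {lam e θ : ℝ} (hlam : 0 < lam)
    (he : 0 < e) (he1 : e ≤ 1) (hθ : 0 < θ) (hθ1 : θ < 1)
    (heq : rtr (cfc (fun x => (x + e) ^ (2 * γ - 2)) D * A) =
      lam ^ 2 * rtr (cfc (fun x => (x + e) ^ (2 * γ - 2)) D * (D * D))) :
    rtr (cfc (fun x : ℝ => x ^ γ) A) ≤ (1 - θ) ^ (1 - 2 * γ) * rtr (cfc (fun x : ℝ => x ^ (2 * γ)) (lam • D)) +
      Fintype.card n * (θ ^ (1 - 2 * γ) *
        (2 * Fintype.card n * √(rtr A) * e ^ γ) ^ (2 * γ)) := by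
  set d := hD.1.1.eigenvalues with hd
  set N : ℝ := (Fintype.card n : ℝ) with hNdef
  have hN : 0 < N := by rw [hNdef]; exact_mod_cast Fintype.card_pos
  have hd0 : ∀ i, 0 ≤ d i := hD.1.eigenvalues_nonneg
  have hde : ∀ i, 0 < d i + e := fun i => by linarith [hd0 i]
  -- right hand side of `heq`
  have hDD : rtr (cfc (fun x => (x + e) ^ (2 * γ - 2)) D * (D * D)) =
      ∑ i, (d i + e) ^ (2 * γ - 2) * (d i * d i) := by
    rw [cfc_mul_self_id hD.1.1, cfc_mul_cfc, rtr_cfc_flip hD.1.1]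
  rw [hDD] at heq
  -- trace Young
  have key : rtr (cfc (fun x : ℝ => -γ * x) A * cfc (fun t : ℝ => (lam * (t + e)) ^ (2 * γ - 2)) D) ≤
      rtr (cfc (fun x : ℝ => -(x ^ γ)) A) +
        rtr (cfc (fun t : ℝ => (1 - γ) * (lam * (t + e)) ^ (2 * γ)) D) :=
    cfc_trace_le hA.1 hD.1.1 (fun x => -γ * x)
    (fun t => (lam * (t + e)) ^ (2 * γ - 2)) (fun x => -(x ^ γ))
    (fun t => (1 - γ) * (lam * (t + e)) ^ (2 * γ)) (by
      intro x hx t ht
      have hx0 := spec_pos hA hx
      have hy : 0 < lam * (t + e) := mul_pos hlam (by linarith [spec_nonneg hD.1 ht])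
      set y := lam * (t + e) with hydef
      have h1 : y ^ (2 * γ - 2) * y ^ (2 : ℝ) = y ^ (2 * γ) := by
        rw [← rpow_add hy]; ring_nf
      have hyoung := Real.geom_mean_le_arith_mean2_weighted
        (w₁ := γ) (w₂ := 1 - γ) (p₁ := x * y ^ (2 * γ - 2)) (p₂ := y ^ (2 * γ))
        (by linarith) (by linarith) (by positivity) (by positivity) (by ring)
      rw [mul_rpow hx0.le (by positivity), ← rpow_mul hy.le, ← rpow_mul hy.le, mul_assoc,
        ← rpow_add hy, show (2 * γ - 2) * γ + 2 * γ * (1 - γ) = 0 by ring, rpow_zero,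
        mul_one] at hyoung
      linarith)
  have e1 : cfc (fun x => -γ * x) A = (-γ) • A := by
    rw [cfc_const_mul _ _ A (contOn_spec _ _), cfc_id_self hA.1]
  have e2 : cfc (fun t => (lam * (t + e)) ^ (2 * γ - 2)) D =
      lam ^ (2 * γ - 2) • cfc (fun x => (x + e) ^ (2 * γ - 2)) D := by
    rw [← cfc_const_mul _ _ D (contOn_spec _ _)]
    refine cfc_congr fun x hx => ?_
    rw [mul_rpow hlam.le (by linarith [spec_nonneg hD.1 hx])]
  rw [e1, e2, Matrix.smul_mul, Matrix.mul_smul, rtr_smul_flip, rtr_smul_flip,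
    rtr_comm_flip A, heq, rtr_cfc_flip hA.1, rtr_cfc_flip hD.1.1, Finset.sum_neg_distrib, ← Finset.mul_sum] at key
  have eA : rtr (cfc (fun x : ℝ => x ^ γ) A) = ∑ i, hA.1.eigenvalues i ^ γ := rtr_cfc_flip hA.1 _
  rw [← eA] at key
  have hmid : lam ^ (2 * γ - 2) * (lam ^ 2 * ∑ i, (d i + e) ^ (2 * γ - 2) * (d i * d i)) ≤
      ∑ i, (lam * (d i + e)) ^ (2 * γ) := by
    rw [Finset.mul_sum, Finset.mul_sum]
    refine Finset.sum_le_sum fun i _ => ?_
    have h2 : (d i + e) ^ (2 * γ - 2) * (d i * d i) ≤ (d i + e) ^ (2 * γ) := by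
      calc (d i + e) ^ (2 * γ - 2) * (d i * d i)
          ≤ (d i + e) ^ (2 * γ - 2) * ((d i + e) * (d i + e)) := by
            have := hd0 i; have := hde i; gcongr <;> linarith
        _ = (d i + e) ^ (2 * γ) := by
            rw [← sq, ← rpow_natCast, ← rpow_add (hde i)]; ring_nf
    have h3 : lam ^ (2 * γ - 2) * lam ^ 2 = lam ^ (2 * γ) := by
      rw [← rpow_natCast lam 2, ← rpow_add hlam]; ring_nf
    calc lam ^ (2 * γ - 2) * (lam ^ 2 * ((d i + e) ^ (2 * γ - 2) * (d i * d i)))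
        = lam ^ (2 * γ) * ((d i + e) ^ (2 * γ - 2) * (d i * d i)) := by rw [← h3]; ring
      _ ≤ lam ^ (2 * γ) * (d i + e) ^ (2 * γ) := by gcongr
      _ = _ := (mul_rpow hlam.le (hde i).le).symm
  have hmain : rtr (cfc (fun x : ℝ => x ^ γ) A) ≤ ∑ i, (lam * (d i + e)) ^ (2 * γ) := by
    have h4 := mul_le_mul_of_nonneg_left hmid (show (0:ℝ) ≤ γ by linarith)
    nlinarith [key, h4]
  -- bound on `lam * e`
  have hlamle : lam * e ≤ 2 * N * √(rtr A) * e ^ γ := by
    have hA1 : lam ^ 2 * ∑ i, (d i + e) ^ (2 * γ - 2) * (d i * d i) ≤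
        e ^ (2 * γ - 2) * rtr A := by
      rw [← heq]
      have hk : rtr (cfc (fun x : ℝ => x) A *
            cfc (fun t : ℝ => (t + e) ^ (2 * γ - 2) - e ^ (2 * γ - 2)) D) ≤
          rtr (cfc (fun _ : ℝ => (0 : ℝ)) A) + rtr (cfc (fun _ : ℝ => (0 : ℝ)) D) :=
        cfc_trace_le hA.1 hD.1.1 (fun x => x) (fun t => (t + e) ^ (2 * γ - 2) - e ^ (2 * γ - 2))
        (fun _ => 0) (fun _ => 0) (by
          intro x hx t ht
          have h5 : (t + e) ^ (2 * γ - 2) ≤ e ^ (2 * γ - 2) :=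
            rpow_le_rpow_of_nonpos he (by linarith [spec_nonneg hD.1 ht]) (by linarith)
          rw [add_zero]
          exact mul_nonpos_of_nonneg_of_nonpos (spec_pos hA hx).le (by linarith))
      rw [cfc_id_self hA.1, cfc_sub _ _ D (contOn_spec _ _) (contOn_spec _ _),
        cfc_const (e ^ (2 * γ - 2)) D hD.1.1.isSelfAdjoint, Matrix.mul_sub] at hk
      simp only [rtr_cfc_flip hA.1, rtr_cfc_flip hD.1.1, Finset.sum_const_zero, add_zero] at hk
      have e3 : ∀ X Y : Matrix n n ℂ, rtr (X - Y) = rtr X - rtr Y := fun X Y => by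
        simp [rtr, trace_sub]
      rw [e3, Algebra.algebraMap_eq_smul_one, Matrix.mul_smul, mul_one, rtr_smul_flip, rtr_comm_flip A] at hk
      linarith
    obtain ⟨j, hj⟩ := exists_eigen_ge hD
    have hlow : 1 / (4 * N ^ 2) ≤ ∑ i, (d i + e) ^ (2 * γ - 2) * (d i * d i) := by
      refine le_trans ?_ (Finset.single_le_sum (f := fun i => (d i + e) ^ (2 * γ - 2) * (d i * d i))
        (fun i _ => by have := hde i; have := mul_self_nonneg (d i); positivity) (Finset.mem_univ j))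
      have h5 : (2:ℝ) ^ (2 * γ - 2) ≤ (d j + e) ^ (2 * γ - 2) :=
        rpow_le_rpow_of_nonpos (hde j) (by linarith [eigen_le_one hD j]) (by linarith)
      have h6 : (1:ℝ) / 4 ≤ (2:ℝ) ^ (2 * γ - 2) := by
        calc (1:ℝ) / 4 = (2:ℝ) ^ (-2 : ℝ) := by norm_num [rpow_neg]
          _ ≤ _ := rpow_le_rpow_of_exponent_le one_le_two (by linarith)
      calc 1 / (4 * N ^ 2) = 1 / 4 * (1 / N * (1 / N)) := by field_simp
        _ ≤ (d j + e) ^ (2 * γ - 2) * (d j * d j) :=
          mul_le_mul (h6.trans h5) (mul_le_mul hj hj (by positivity) (hd0 j)) (by positivity)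
            (rpow_nonneg (hde j).le _)
    have hA0 : 0 ≤ rtr A := (Complex.le_def.1 hA.posSemidef.trace_nonneg).1
    have h7 : lam ^ 2 * (1 / (4 * N ^ 2)) ≤ e ^ (2 * γ - 2) * rtr A :=
      le_trans (mul_le_mul_of_nonneg_left hlow (sq_nonneg _)) hA1
    have h8 : (lam * e) ^ 2 ≤ (2 * N * √(rtr A) * e ^ γ) ^ 2 := by
      have h9 : lam ^ 2 ≤ 4 * N ^ 2 * (e ^ (2 * γ - 2) * rtr A) := by
        rw [mul_one_div, div_le_iff₀ (by positivity)] at h7
        linarith
      have h10 : e ^ (2 * γ - 2) * e ^ 2 = (e ^ γ) ^ 2 := by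
        rw [← rpow_natCast e 2, ← rpow_add he, ← rpow_natCast (e ^ γ) 2, ← rpow_mul he.le]
        push_cast; ring_nf
      calc (lam * e) ^ 2 = lam ^ 2 * e ^ 2 := by ring
        _ ≤ 4 * N ^ 2 * (e ^ (2 * γ - 2) * rtr A) * e ^ 2 := by gcongr
        _ = 4 * N ^ 2 * rtr A * (e ^ (2 * γ - 2) * e ^ 2) := by ring
        _ = _ := by rw [h10, mul_pow, mul_pow, mul_pow, Real.sq_sqrt hA0]; ring
    exact (pow_le_pow_iff_left₀ (by positivity) (by positivity) two_ne_zero).1 h8
  have e2' : rtr (cfc (fun x : ℝ => x ^ (2 * γ)) (lam • D)) = ∑ i, (lam * d i) ^ (2 * γ) :=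
    cfc_smul_rpow hD.1.1 lam _
  calc rtr (cfc (fun x : ℝ => x ^ γ) A) ≤ ∑ i, (lam * (d i + e)) ^ (2 * γ) := hmain
    _ = ∑ i, (lam * d i + lam * e) ^ (2 * γ) :=
        Finset.sum_congr rfl fun i _ => by rw [mul_add]
    _ ≤ (1 - θ) ^ (1 - 2 * γ) * ∑ i, (lam * d i) ^ (2 * γ) +
          N * (θ ^ (1 - 2 * γ) * (lam * e) ^ (2 * γ)) :=
        sum_rpow_perturb (by linarith) hθ hθ1 _ (fun i => mul_nonneg hlam.le (hd0 i))
          (by positivity)
    _ ≤ _ := by
        rw [← e2']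
        gcongr


section frobenius

open scoped Matrix.Norms.Frobenius

set_option backward.isDefEq.respectTransparency false

private lemma psd_sandwich {X P : Matrix n n ℂ} (hX : X.PosSemidef) (hP : P.IsHermitian) :
    (P * X * P).PosSemidef := by
  have := hX.conjTranspose_mul_mul_same P
  rwa [hP.eq] at this

private lemma rtr_sandwich_pos {P Q X : Matrix n n ℂ} (hP : P.IsHermitian) (hPQ : P * Q = 1)
    (hX : X.PosSemidef) (hX0 : X ≠ 0) : 0 < rtr (P * X * P) := by
  have h := psd_sandwich hX hP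
  have h0 : 0 ≤ rtr (P * X * P) := (Complex.le_def.1 h.trace_nonneg).1
  refine h0.lt_of_ne fun he => hX0 ?_
  have htr : (P * X * P).trace = 0 :=
    Complex.ext he.symm (Complex.le_def.1 h.trace_nonneg).2.symm
  have hz := h.trace_eq_zero_iff.1 htr
  have hQP : Q * P = 1 := mul_eq_one_comm.1 hPQ
  calc X = (Q * P) * X * (P * Q) := by rw [hPQ, hQP, one_mul, mul_one]
    _ = Q * (P * X * P) * Q := by simp only [mul_assoc]
    _ = 0 := by rw [hz, mul_zero, zero_mul]

private lemma rtr_sandwich_flip (P X : Matrix n n ℂ) : rtr (P * X * P) = rtr (P * P * X) := by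
  rw [rtr_comm_flip (P * X) P, mul_assoc]

private lemma continuous_rtr_flip : Continuous (rtr : Matrix n n ℂ → ℝ) :=
  Complex.continuous_re.comp continuous_id.matrix_trace

private lemma rtr_integral_sandwich {x₀ x₁ : ℝ} {M : ℝ → Matrix n n ℂ} (P : Matrix n n ℂ)
    (b : ℝ) (hM : ContinuousOn M (Set.Icc x₀ x₁)) (hx : x₀ ≤ x₁) :
    ∫ x in x₀..x₁, rtr (b • (P * M x * P)) = b * rtr (P * (∫ x in x₀..x₁, M x) * P) := by
  let L : Matrix n n ℂ →ₗ[ℝ] ℝ :=
    { toFun := fun X => b * rtr (P * X * P)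
      map_add' := fun X Y => by simp [rtr, mul_add, add_mul, trace_add]
      map_smul' := fun r X => by
        simp only [RingHom.id_apply, Matrix.mul_smul, Matrix.smul_mul, rtr_smul_flip, smul_eq_mul]
        ring }
  have hi : IntervalIntegrable M volume x₀ x₁ :=
    (hM.mono (by rw [Set.uIcc_of_le hx])).intervalIntegrable
  have h := (LinearMap.toContinuousLinearMap L).intervalIntegral_comp_comm hi
  calc ∫ x in x₀..x₁, rtr (b • (P * M x * P))
      = ∫ x in x₀..x₁, LinearMap.toContinuousLinearMap L (M x) :=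
        intervalIntegral.integral_congr fun x _ => rtr_smul_flip b _
    _ = _ := h

private lemma densitySet_convex : Convex ℝ (densitySet n) := by
  intro D hD E hE a b ha hb hab
  refine ⟨(hD.1.smul ha).add (hE.1.smul hb), ?_⟩
  have : rtr (a • D + b • E) = rtr (a • D) + rtr (b • E) := by simp [rtr, trace_add]
  rw [this, rtr_smul_flip, rtr_smul_flip, hD.2, hE.2, mul_one, mul_one, hab]

private lemma densitySet_nonempty [Nonempty n] : (densitySet n).Nonempty := by
  refine ⟨((Fintype.card n : ℝ)⁻¹) • (1 : Matrix n n ℂ),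
    PosSemidef.one.smul (by positivity), ?_⟩
  have hN : (Fintype.card n : ℝ) ≠ 0 := by exact_mod_cast Fintype.card_ne_zero
  rw [rtr_smul_flip, rtr, trace_one, Complex.natCast_re, inv_mul_cancel₀ hN]

private lemma densitySet_compact : IsCompact (densitySet n) := by
  classical
  have hsub : densitySet n ⊆
      (Set.univ.pi fun _ : n => Set.univ.pi fun _ : n => Metric.closedBall (0 : ℂ) 1) := by
    intro D hD i _ j _
    rw [mem_closedBall_zero_iff]
    have hsum : ∑ a, ∑ b, ‖D a b‖ ^ 2 = rtr (D * Dᴴ) := by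
      simp [rtr, trace, Matrix.mul_apply, Complex.mul_conj', Complex.re_sum, ← Complex.ofReal_pow]
    have hsq : rtr (D * Dᴴ) ≤ 1 := by
      rw [hD.1.1.eq]
      exact rtr_mul_self_le_one hD
    have h1 : ‖D i j‖ ^ 2 ≤ ∑ a, ∑ b, ‖D a b‖ ^ 2 :=
      le_trans (Finset.single_le_sum (f := fun b => ‖D i b‖ ^ 2) (fun b _ => by positivity)
        (Finset.mem_univ j))
        (Finset.single_le_sum (f := fun a => ∑ b, ‖D a b‖ ^ 2) (fun a _ => by positivity)
          (Finset.mem_univ i))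
    nlinarith [norm_nonneg (D i j)]
  have hclosed : IsClosed (densitySet n) := by
    have h1 : IsClosed {D : Matrix n n ℂ | Dᴴ = D} :=
      isClosed_eq continuous_id.matrix_conjTranspose continuous_id
    have h2 : IsClosed (⋂ u : n → ℂ, {D : Matrix n n ℂ | (0 : ℂ) ≤ star u ⬝ᵥ (D *ᵥ u)}) := by
      refine isClosed_iInter fun u => ?_
      simp only [Complex.le_def, Complex.zero_re, Complex.zero_im, Set.ofPred_and]
      have hc : Continuous fun D : Matrix n n ℂ => star u ⬝ᵥ (D *ᵥ u) :=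
        continuous_const.dotProduct (continuous_id.matrix_mulVec continuous_const)
      exact (isClosed_le continuous_const (Complex.continuous_re.comp hc)).inter
        (isClosed_eq continuous_const (Complex.continuous_im.comp hc))
    have h3 : IsClosed {D : Matrix n n ℂ | rtr D = 1} := isClosed_eq continuous_rtr_flip continuous_const
    have : densitySet n = {D : Matrix n n ℂ | Dᴴ = D} ∩
        (⋂ u : n → ℂ, {D : Matrix n n ℂ | (0 : ℂ) ≤ star u ⬝ᵥ (D *ᵥ u)}) ∩
        {D : Matrix n n ℂ | rtr D = 1} := by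
      ext D
      simp [densitySet, posSemidef_iff_dotProduct_mulVec, IsHermitian]
    rw [this]
    exact (h1.inter h2).inter h3
  exact IsCompact.of_isClosed_subset
    (isCompact_univ_pi fun _ => isCompact_univ_pi fun _ => isCompact_closedBall _ _) hclosed hsub

private lemma density_sq_ne_zero {D : Matrix n n ℂ} (hD : D ∈ densitySet n) : D * D ≠ 0 := by
  intro h
  have h0 : D = 0 := by
    rw [← conjTranspose_mul_self_eq_zero, hD.1.1.eq]; exact h
  have := hD.2
  simp [h0, rtr] at this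


/-- The flip for a continuous family of invertible weights. -/
private lemma flip_of_weight [Nonempty n] {x₀ x₁ : ℝ} (hx : x₀ < x₁) {M : ℝ → Matrix n n ℂ}
    (hM : ContinuousOn M (Set.Icc x₀ x₁)) (hMp : ∀ x ∈ Set.Icc x₀ x₁, (M x).PosSemidef)
    (hM0 : (∫ x in x₀..x₁, M x).PosDef) {A : Matrix n n ℂ} (hA : A.PosDef)
    (R₀ R₁ : Matrix n n ℂ → Matrix n n ℂ) (hRc : ContinuousOn R₀ (densitySet n))
    (hRp : ∀ D ∈ densitySet n, (R₀ D).PosSemidef) (hRi : ∀ D ∈ densitySet n, R₀ D * R₁ D = 1)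
    (P : Matrix n n ℂ → Prop)
    (hP : ∀ D ∈ densitySet n, ∀ lam : ℝ, 0 < lam →
      rtr (R₀ D * A * R₀ D) = lam ^ 2 * rtr (R₀ D * (D * D) * R₀ D) → P (lam • D)) :
    ∃ (C R : Matrix n n ℂ) (G : ℝ → Matrix n n ℂ), C.PosSemidef ∧ R.PosSemidef ∧
      G x₀ = C ∧ G x₁ = -C ∧
      (∀ x ∈ Set.Icc x₀ x₁, InBox C (G x) ∧
        HasDerivWithinAt G (C * C - G x * G x - R * M x * R) (Set.Icc x₀ x₁) x) ∧
      rtr (R * R * (C * C)) = rtr (R * R * A) ∧ P C := by
  classical
  set K : Set (Matrix n n ℂ) := densitySet n with hK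
  have hA0 : A ≠ 0 := fun h => by
    have := hA.trace_pos
    simp [h] at this
  have hM00 : (∫ x in x₀..x₁, M x) ≠ 0 := fun h => by
    have := hM0.trace_pos
    simp [h] at this
  have hDD : ∀ D ∈ K, (D * D).PosSemidef := fun D hD => by
    have := posSemidef_conjTranspose_mul_self D
    rwa [hD.1.1.eq] at this
  have hnum : ∀ D ∈ K, 0 < rtr (R₀ D * A * R₀ D) := fun D hD =>
    rtr_sandwich_pos (hRp D hD).1 (hRi D hD) hA.posSemidef hA0
  have hden : ∀ D ∈ K, 0 < rtr (R₀ D * (D * D) * R₀ D) := fun D hD =>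
    rtr_sandwich_pos (hRp D hD).1 (hRi D hD) (hDD D hD) (density_sq_ne_zero hD)
  set lam : Matrix n n ℂ → ℝ :=
    fun D => √(rtr (R₀ D * A * R₀ D) / rtr (R₀ D * (D * D) * R₀ D)) with hlam
  have hlampos : ∀ D ∈ K, 0 < lam D := fun D hD =>
    Real.sqrt_pos.2 (div_pos (hnum D hD) (hden D hD))
  have hlameq : ∀ D ∈ K,
      rtr (R₀ D * A * R₀ D) = lam D ^ 2 * rtr (R₀ D * (D * D) * R₀ D) := fun D hD => by
    rw [hlam, Real.sq_sqrt (div_nonneg (hnum D hD).le (hden D hD).le),
      div_mul_cancel₀ _ (hden D hD).ne']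
  have hlamc : ContinuousOn lam K := by
    refine Real.continuous_sqrt.comp_continuousOn (ContinuousOn.div ?_ ?_ fun D hD => (hden D hD).ne')
    · exact continuous_rtr_flip.comp_continuousOn ((hRc.mul continuousOn_const).mul hRc)
    · exact continuous_rtr_flip.comp_continuousOn
        ((hRc.mul (continuousOn_id.mul continuousOn_id)).mul hRc)
  set C : Matrix n n ℂ → Matrix n n ℂ := fun D => lam D • D with hCdef
  have hCc : ContinuousOn C K := hlamc.smul continuousOn_id
  have hCp : ∀ D ∈ K, (C D).PosSemidef := fun D hD => hD.1.smul (hlampos D hD).le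
  -- the constant `B`
  obtain ⟨D₁, hD₁, hmin⟩ := densitySet_compact.exists_isMinOn densitySet_nonempty
    (f := fun D => rtr (R₀ D * (∫ x in x₀..x₁, M x) * R₀ D))
    (continuous_rtr_flip.comp_continuousOn ((hRc.mul continuousOn_const).mul hRc))
  obtain ⟨D₂, hD₂, hmax⟩ := densitySet_compact.exists_isMaxOn densitySet_nonempty
    (f := fun D => 2 * rtr (C D) + (x₁ - x₀) * rtr (C D * C D))
    ((continuousOn_const.mul (continuous_rtr_flip.comp_continuousOn hCc)).add
      (continuousOn_const.mul (continuous_rtr_flip.comp_continuousOn (hCc.mul hCc))))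
  set m : ℝ := rtr (R₀ D₁ * (∫ x in x₀..x₁, M x) * R₀ D₁) with hm
  have hm0 : 0 < m := rtr_sandwich_pos (hRp D₁ hD₁).1 (hRi D₁ hD₁) hM0.posSemidef hM00
  set U : ℝ := 2 * rtr (C D₂) + (x₁ - x₀) * rtr (C D₂ * C D₂) with hU
  set B : ℝ := max 1 ((U + 1) / m) with hB
  have hB0 : 0 < B := lt_of_lt_of_le one_pos (le_max_left _ _)
  set S : Set (Matrix n n ℂ × ℝ) := K ×ˢ Set.Icc 0 B with hS
  have hScp : IsCompact S := densitySet_compact.prod isCompact_Icc
  have hfst : ContinuousOn (Prod.fst : Matrix n n ℂ × ℝ → Matrix n n ℂ) S :=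
    continuous_fst.continuousOn
  obtain ⟨Z, hZc, hZ⟩ := exists_flow hx hScp (C := fun θ => C θ.1)
    (F := fun θ x => θ.2 • (R₀ θ.1 * M x * R₀ θ.1))
    (hCc.comp hfst fun θ hθ => hθ.1) (by
      have h1 : ContinuousOn (fun q : (Matrix n n ℂ × ℝ) × ℝ => R₀ q.1.1) (S ×ˢ Set.Icc x₀ x₁) :=
        hRc.comp (continuous_fst.comp continuous_fst).continuousOn fun q hq => hq.1.1
      have h2 : ContinuousOn (fun q : (Matrix n n ℂ × ℝ) × ℝ => M q.2) (S ×ˢ Set.Icc x₀ x₁) :=
        hM.comp continuous_snd.continuousOn fun q hq => hq.2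
      exact (continuous_snd.comp continuous_fst).continuousOn.smul ((h1.mul h2).mul h1))
    (fun θ hθ => hCp _ hθ.1)
    (fun θ hθ x hx' => (psd_sandwich (hMp x hx') (hRp _ hθ.1).1).smul hθ.2.1)
  -- the Brouwer map
  set neg : ℝ → ℝ := fun x => max (-x) 0 with hneg
  set Zn : Matrix n n ℂ × ℝ → Matrix n n ℂ := fun θ => cfc neg (Z θ) with hZn
  have hZnp : ∀ θ, (Zn θ).PosSemidef := fun θ => cfc_psd fun x _ => le_max_right _ _
  have hτ0 : ∀ θ, 0 ≤ rtr (Zn θ) := fun θ => (Complex.le_def.1 (hZnp θ).trace_nonneg).1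
  have hZnc : ContinuousOn Zn S :=
    (continuousOn_cfc_of_continuous (by rw [hneg]; fun_prop)).comp hZc fun θ hθ => (hZ θ hθ).1
  set T : Matrix n n ℂ × ℝ → Matrix n n ℂ × ℝ := fun θ =>
    ((1 + rtr (Zn θ))⁻¹ • (θ.1 + Zn θ), max 0 (min B (θ.2 + rtr (Z θ)))) with hT
  have hTc : ContinuousOn T S := by
    refine ContinuousOn.prodMk ?_ ?_
    · exact ((continuousOn_const.add (continuous_rtr_flip.comp_continuousOn hZnc)).inv₀
        fun θ _ => show (1 : ℝ) + rtr (Zn θ) ≠ 0 by linarith [hτ0 θ]).smul (hfst.add hZnc)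
    · exact (continuous_const.max (continuous_const.min continuous_id)).comp_continuousOn
        (continuous_snd.continuousOn.add (continuous_rtr_flip.comp_continuousOn hZc))
  have hTm : Set.MapsTo T S S := by
    intro θ hθ
    refine ⟨⟨(hθ.1.1.add (hZnp θ)).smul (inv_nonneg.2 (by linarith [hτ0 θ])), ?_⟩,
      le_max_left _ _, max_le hB0.le (min_le_left _ _)⟩
    have e : rtr (θ.1 + Zn θ) = rtr θ.1 + rtr (Zn θ) := by simp [rtr, trace_add]
    rw [rtr_smul_flip, e, hθ.1.2, inv_mul_cancel₀ (by linarith [hτ0 θ])]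
  obtain ⟨⟨D, b⟩, ⟨hD, hb⟩, hfix⟩ := brouwer
    (densitySet_nonempty.prod (Set.nonempty_Icc.2 hB0.le)) hScp
    (densitySet_convex.prod (convex_Icc 0 B)) hTc hTm
  simp only [hT, Prod.mk.injEq] at hfix
  obtain ⟨hfixD, hfixb⟩ := hfix
  obtain ⟨hZh, hZtr, hZker, hZzero, hZG⟩ := hZ (D, b) ⟨hD, hb⟩
  simp only at hb hZh hZtr hZker hZzero hZG hfixD hfixb
  -- the trace vanishes
  have htr0 : rtr (Z (D, b)) = 0 := by
    rcases hb.1.eq_or_lt with h0 | h0
    · have h2 : Z (D, b) = 2 • C D := hZzero fun x _ => by rw [← h0, zero_smul]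
      have hpos : 0 < rtr (Z (D, b)) := by
        rw [h2, two_nsmul, hCdef]
        have : rtr (lam D • D + lam D • D) = rtr (lam D • D) + rtr (lam D • D) := by
          simp [rtr, trace_add]
        rw [this, rtr_smul_flip, hD.2, mul_one]
        linarith [hlampos D hD]
      rw [← h0, zero_add] at hfixb
      rw [← h0] at hpos
      have := lt_max_of_lt_right (b := (0:ℝ)) (lt_min hB0 hpos)
      linarith
    rcases hb.2.eq_or_lt with h1 | h1
    · exfalso
      have hint := rtr_integral_sandwich (R₀ D) b hM hx.le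
      have hmD : m ≤ rtr (R₀ D * (∫ x in x₀..x₁, M x) * R₀ D) := hmin hD
      have hUD : 2 * rtr (C D) + (x₁ - x₀) * rtr (C D * C D) ≤ U := hmax hD
      have hneg' : rtr (Z (D, b)) < 0 := by
        have hBm : U + 1 ≤ B * m := (div_le_iff₀ hm0).1 (le_max_right _ _)
        have h3 : B * m ≤ b * rtr (R₀ D * (∫ x in x₀..x₁, M x) * R₀ D) := by
          rw [h1]; exact mul_le_mul_of_nonneg_left hmD hB0.le
        linarith
      rw [min_eq_right (by linarith)] at hfixb
      rcases le_total (b + rtr (Z (D, b))) 0 with h3 | h3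
      · rw [max_eq_left h3] at hfixb; linarith
      · rw [max_eq_right h3] at hfixb; linarith
    · rcases le_total B (b + rtr (Z (D, b))) with h3 | h3
      · rw [min_eq_left h3, max_eq_right hB0.le] at hfixb; linarith
      · rw [min_eq_right h3] at hfixb
        rcases le_total (b + rtr (Z (D, b))) 0 with h4 | h4
        · rw [max_eq_left h4] at hfixb; linarith
        · rw [max_eq_right h4] at hfixb; linarith
  -- the end point vanishes
  set z := Z (D, b) with hz
  set τ : ℝ := rtr (cfc neg z) with hτ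
  have hτ' : 0 ≤ τ := hτ0 (D, b)
  have hZnD : cfc neg z = τ • D := by
    have h : D + cfc neg z = (1 + τ) • D := by
      conv_rhs => rw [← hfixD]
      rw [smul_smul, mul_inv_cancel₀ (by linarith), one_smul]
    rw [add_smul, one_smul] at h
    exact add_left_cancel h
  obtain ⟨hzpp, hsplit', hprod'⟩ := cfc_pos_part_spec hZh
  set zp : Matrix n n ℂ := cfc (fun x : ℝ => max x 0) z with hzp
  have hsplit : zp = z + τ • D := by rw [← hZnD]; exact hsplit'
  have hprod : zp * (τ • D) = 0 := by rw [← hZnD]; exact hprod'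
  have hker : ∀ u : n → ℂ, D *ᵥ u = 0 → zp *ᵥ u = 0 := by
    intro u hu
    have hCu : C D *ᵥ u = 0 := by rw [hCdef]; simp [smul_mulVec, hu]
    have h1 : star u ⬝ᵥ (zp *ᵥ u) = star u ⬝ᵥ (z *ᵥ u) := by
      rw [hsplit, add_mulVec, smul_mulVec, hu, smul_zero, add_zero]
    have h2 := hzpp.dotProduct_mulVec_nonneg u
    refine (hzpp.dotProduct_mulVec_zero_iff u).1 (Complex.ext ?_ (Complex.le_def.1 h2).2.symm)
    refine le_antisymm ?_ (Complex.le_def.1 h2).1
    rw [h1]
    exact hZker u hCu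
  have hz0 : z = 0 := by
    rcases hτ'.eq_or_lt with h | h
    · rw [← h, zero_smul, add_zero] at hsplit
      rw [hsplit] at hzpp
      exact hzpp.trace_eq_zero_iff.1
        (Complex.ext htr0 (Complex.le_def.1 hzpp.trace_nonneg).2.symm)
    have hzD : zp * D = 0 := by
      rw [Matrix.mul_smul] at hprod
      exact (smul_eq_zero.1 hprod).resolve_left h.ne'
    have hDz : D * zp = 0 := by
      have := congrArg conjTranspose hzD
      rwa [conjTranspose_mul, hzpp.1.eq, hD.1.1.eq, conjTranspose_zero] at this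
    have hzz : zp * zp = 0 := Matrix.toLin'.injective <| LinearMap.ext fun v => by
      simp only [toLin'_apply, ← mulVec_mulVec, zero_mulVec]
      exact hker _ (by rw [mulVec_mulVec, hDz, zero_mulVec])
    have hzp0 : zp = 0 := by rw [← conjTranspose_mul_self_eq_zero, hzpp.1.eq]; exact hzz
    rw [hzp0] at hsplit
    have hzeq : z = -(τ • D) := eq_neg_of_add_eq_zero_left hsplit.symm
    have htau : τ = 0 := by
      have e : rtr (-(τ • D)) = -rtr (τ • D) := by simp [rtr]
      have h5 := htr0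
      rw [hzeq, e, rtr_smul_flip, hD.2] at h5
      linarith
    linarith
  obtain ⟨G, hG0, hG1, hG⟩ := hZG hz0
  have hsR : ∀ X : Matrix n n ℂ, (√b • R₀ D) * X * (√b • R₀ D) = b • (R₀ D * X * R₀ D) := by
    intro X
    simp only [Matrix.smul_mul, Matrix.mul_smul, smul_smul, Real.mul_self_sqrt hb.1]
  refine ⟨C D, √b • R₀ D, G, hCp D hD, (hRp D hD).smul (Real.sqrt_nonneg _), hG0, hG1,
    fun x hx' => ⟨(hG x hx').1, ?_⟩, ?_, hP D hD (lam D) (hlampos D hD) (hlameq D hD)⟩
  · rw [hsR]; exact (hG x hx').2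
  · have e : C D * C D = lam D ^ 2 • (D * D) := by
      simp only [hCdef, Matrix.smul_mul, Matrix.mul_smul, smul_smul, sq]
    rw [← rtr_sandwich_flip, ← rtr_sandwich_flip, hsR, hsR, rtr_smul_flip, rtr_smul_flip, e, Matrix.mul_smul,
      Matrix.smul_mul, rtr_smul_flip, ← hlameq D hD]

/-- Existence of the flipping data. -/
theorem exists_flip {γ : ℝ} (hγ : 1 / 2 < γ) (hγ' : γ < 3 / 2) [Nonempty n] {x₀ x₁ : ℝ}
    (hx : x₀ < x₁) {M : ℝ → Matrix n n ℂ} (hM : ContinuousOn M (Set.Icc x₀ x₁))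
    (hMp : ∀ x ∈ Set.Icc x₀ x₁, (M x).PosSemidef) (hM0 : (∫ x in x₀..x₁, M x).PosDef)
    {A : Matrix n n ℂ} (hA : A.PosDef) {η : ℝ} (hη : 0 < η) :
    ∃ (C R : Matrix n n ℂ) (G : ℝ → Matrix n n ℂ), C.PosSemidef ∧ R.PosSemidef ∧
      G x₀ = C ∧ G x₁ = -C ∧
      (∀ x ∈ Set.Icc x₀ x₁, InBox C (G x) ∧
        HasDerivWithinAt G (C * C - G x * G x - R * M x * R) (Set.Icc x₀ x₁) x) ∧
      rtr (R * R * (C * C)) = rtr (R * R * A) ∧
      rtr (mpow A γ) ≤ (1 + η) * rtr (mpow C (2 * γ)) + η := by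
  have hCnn : ∀ {D : Matrix n n ℂ}, D.PosSemidef → ∀ {lam : ℝ}, 0 ≤ lam →
      0 ≤ rtr (mpow (lam • D) (2 * γ)) := fun hD lam hlam =>
    (Complex.le_def.1 (cfc_psd (fun x hx => rpow_nonneg
      (spec_nonneg (hD.smul hlam) hx) _)).trace_nonneg).1
  rcases le_or_gt 1 γ with hγ1 | hγ1
  · refine flip_of_weight hx hM hMp hM0 hA (fun _ => cfc (fun x => x ^ ((γ - 1) / 2)) A)
      (fun _ => cfc (fun x => (x ^ ((γ - 1) / 2))⁻¹) A) continuousOn_const
      (fun _ _ => cfc_psd fun x hx => rpow_nonneg (spec_pos hA hx).le _)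
      (fun _ _ => cfc_mul_inv hA.1 fun x hx => (rpow_pos_of_pos (spec_pos hA hx) _).ne')
      (fun C => rtr (mpow A γ) ≤ (1 + η) * rtr (mpow C (2 * γ)) + η) ?_
    intro D hD lam hlam heq
    have hsq : cfc (fun x : ℝ => x ^ ((γ - 1) / 2)) A * cfc (fun x : ℝ => x ^ ((γ - 1) / 2)) A =
        cfc (fun x : ℝ => x ^ (γ - 1)) A := by
      rw [cfc_mul_cfc]
      refine cfc_congr fun x hx => ?_
      rw [← rpow_add (spec_pos hA hx)]; ring_nf
    rw [rtr_sandwich_flip, rtr_sandwich_flip, hsq] at heq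
    have h := compare_ge_one hγ1 hA hD.1 hlam.le heq
    have := mul_nonneg hη.le (hCnn hD.1 hlam.le)
    unfold mpow at this ⊢
    linarith
  · -- choose the parameters
    obtain ⟨θ, hθ, hθ1, hθη⟩ : ∃ θ : ℝ, 0 < θ ∧ θ < 1 ∧ (1 - θ) ^ (1 - 2 * γ) ≤ 1 + η := by
      have hc : Tendsto (fun t : ℝ => (1 - t) ^ (1 - 2 * γ)) (𝓝[>] 0) (𝓝 1) := by
        have h1 : ContinuousAt (fun t : ℝ => (1 - t) ^ (1 - 2 * γ)) 0 :=
          ((continuous_const.sub continuous_id).continuousAt).rpow_const (Or.inl (by norm_num))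
        have h2 := h1.tendsto.mono_left (nhdsWithin_le_nhds (s := Set.Ioi 0))
        simpa using h2
      obtain ⟨t, h1, h2, h3⟩ := ((hc.eventually (eventually_le_nhds (by linarith : (1:ℝ) < 1 + η))).and
        ((Filter.eventually_of_mem self_mem_nhdsWithin fun t ht => ht).and
          (eventually_nhdsWithin_of_eventually_nhds (eventually_lt_nhds one_pos)))).exists
      exact ⟨t, h2, h3, h1⟩
    set f : ℝ → ℝ := fun e => Fintype.card n * (θ ^ (1 - 2 * γ) *
      (2 * Fintype.card n * √(rtr A) * e ^ γ) ^ (2 * γ)) with hf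
    obtain ⟨e, he, he1, hfe⟩ : ∃ e : ℝ, 0 < e ∧ e ≤ 1 ∧ f e ≤ η := by
      have hc : Continuous f := by
        rw [hf]
        exact continuous_const.mul (continuous_const.mul
          ((continuous_const.mul (continuous_id.rpow_const fun _ => Or.inr (by linarith))).rpow_const
            fun _ => Or.inr (by linarith)))
      have h0 : f 0 = 0 := by
        rw [hf]; simp [zero_rpow (show γ ≠ 0 by linarith), zero_rpow (show 2 * γ ≠ 0 by linarith)]
      have hc' := (hc.tendsto 0).mono_left (nhdsWithin_le_nhds (s := Set.Ioi 0))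
      rw [h0] at hc'
      obtain ⟨e, h1, h2, h3⟩ := ((hc'.eventually (eventually_le_nhds hη)).and
        ((Filter.eventually_of_mem self_mem_nhdsWithin fun t ht => ht).and
          (eventually_nhdsWithin_of_eventually_nhds (eventually_le_nhds one_pos)))).exists
      exact ⟨e, h2, h3, h1⟩
    set w : ℝ → ℝ := fun x => (max x 0 + e) ^ (γ - 1) with hw
    have hwpos : ∀ x, 0 < w x := fun x =>
      rpow_pos_of_pos (by linarith [le_max_right x 0]) _
    have hwc : Continuous w :=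
      ((continuous_id.max continuous_const).add continuous_const).rpow_const fun x => Or.inl (by
        show max x 0 + e ≠ 0
        have := le_max_right x (0:ℝ)
        linarith)
    refine flip_of_weight hx hM hMp hM0 hA (fun D => cfc w D)
      (fun D => cfc (fun x => (w x)⁻¹) D)
      ((continuousOn_cfc_of_continuous hwc).mono fun D hD => hD.1.1)
      (fun D _ => cfc_psd fun x _ => (hwpos x).le)
      (fun D hD => cfc_mul_inv hD.1.1 fun x _ => (hwpos x).ne')
      (fun C => rtr (mpow A γ) ≤ (1 + η) * rtr (mpow C (2 * γ)) + η) ?_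
    intro D hD lam hlam heq
    have hsq : cfc w D * cfc w D = cfc (fun x => (x + e) ^ (2 * γ - 2)) D := by
      rw [cfc_mul_cfc]
      refine cfc_congr fun x hx => ?_
      simp only [hw, max_eq_left (spec_nonneg hD.1 hx)]
      rw [← rpow_add (by linarith [spec_nonneg hD.1 hx])]; ring_nf
    rw [rtr_sandwich_flip, rtr_sandwich_flip, hsq] at heq
    have h := compare_lt_one hγ hγ1 hA hD hlam he he1 hθ hθ1 heq
    have := mul_le_mul_of_nonneg_right hθη (hCnn hD.1 hlam.le)
    simp only [hf] at hfe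
    unfold mpow at this ⊢
    linarith

end frobenius

end Vale.Agent.P371.Gen
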