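import Vale.Agent.P371.Gen.Trace
import Vale.Agent.P371.Gen.Scalar
import Vale.Agent.P371.Gen.Calib
import Vale.Agent.P371.Gen.Flip
import Vale.Agent.P371.Gen.Calc

/-!
The sharp inequality for a compression to compactly supported C¹ orbitals.
-/

set_option linter.unusedSectionVars false

namespace Vale.Agent.P371.Gen

open MeasureTheory Matrix Real
open scoped Matrix.Norms.Frobenius ComplexOrder

variable {n : Type*} [Fintype n] [DecidableEq n] {k : Type*} [Fintype k] [DecidableEq k]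

private lemma mpow_posSemidef_aux {A : Matrix k k ℂ} (hA : A.PosSemidef) (r : ℝ) :
    (mpow A r).PosSemidef := by
  rw [mpow, hA.isHermitian.cfc_eq, Matrix.IsHermitian.cfc, Unitary.conjStarAlgAut_apply]
  refine PosSemidef.mul_mul_conjTranspose_same ?_ _
  refine posSemidef_diagonal_iff.2 fun i => ?_
  simp only [Function.comp_apply, RCLike.ofReal_nonneg]
  exact rpow_nonneg (hA.eigenvalues_nonneg i) r

private lemma mpow_split_aux {A : Matrix k k ℂ} (hA : A.PosSemidef) {r : ℝ} (hr : 0 < r)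
    (hr1 : r < 1) : mpow A (1 - r) * mpow A r = A := by
  have hfin : ∀ f : ℝ → ℝ, ContinuousOn f (spectrum ℝ A) := fun f =>
    Matrix.finite_real_spectrum.continuousOn f
  rw [mpow, mpow, ← cfc_mul (fun x : ℝ => x ^ (1 - r)) (fun x : ℝ => x ^ r) A (hfin _) (hfin _)]
  refine (cfc_congr fun x hx => ?_).trans (cfc_id ℝ A hA.isHermitian)
  have hx0 : 0 ≤ x := by
    rw [hA.isHermitian.spectrum_real_eq_range_eigenvalues] at hx
    obtain ⟨i, rfl⟩ := hx
    exact hA.eigenvalues_nonneg i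
  rw [← rpow_add' hx0 (by norm_num), sub_add_cancel, rpow_one]
  rfl

/-- The quadratic form of a fixed vector as a continuous linear map. -/
private noncomputable def qForm (u : n → ℂ) : Matrix n n ℂ →L[ℝ] ℝ :=
  LinearMap.toContinuousLinearMap
    { toFun := fun A => (star u ⬝ᵥ (A *ᵥ u)).re
      map_add' := fun A B => by simp [add_mulVec, dotProduct_add]
      map_smul' := fun c A => by simp [smul_mulVec, dotProduct_smul, Complex.real_smul] }

private lemma qForm_apply (u : n → ℂ) (A : Matrix n n ℂ) :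
    qForm u A = (star u ⬝ᵥ (A *ᵥ u)).re := rfl

private lemma qForm_conj (u : n → ℂ) (B : Matrix k n ℂ) (V : Matrix k k ℂ) :
    qForm u (Bᴴ * V * B) = (star (B *ᵥ u) ⬝ᵥ (V *ᵥ (B *ᵥ u))).re := by
  rw [qForm_apply, ← mulVec_mulVec, ← mulVec_mulVec, dotProduct_mulVec, star_mulVec]

/-- The sharp inequality for a compression to compactly supported C¹ orbitals. -/
theorem compression_bound {γ : ℝ} (hγ : 1 / 2 < γ) (hγ' : γ < 3 / 2) {x₀ x₁ : ℝ} (hx : x₀ < x₁)
    {W : ℝ → Matrix k k ℂ} (hW : ContinuousOn W (Set.Icc x₀ x₁))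
    (hWp : ∀ x ∈ Set.Icc x₀ x₁, (W x).PosSemidef)
    {Ψ Ψ' : ℝ → Matrix k n ℂ}
    (hΨ : ∀ x ∈ Set.Icc x₀ x₁, HasDerivWithinAt Ψ (Ψ' x) (Set.Icc x₀ x₁) x)
    (hΨ' : ContinuousOn Ψ' (Set.Icc x₀ x₁)) (h₀ : Ψ x₀ = 0) (h₁ : Ψ x₁ = 0)
    (horth : ∫ x in x₀..x₁, (Ψ x)ᴴ * Ψ x = 1)
    (hA : (∫ x in x₀..x₁, ((Ψ x)ᴴ * W x * Ψ x - (Ψ' x)ᴴ * Ψ' x)).PosDef) :
    rtr (mpow (∫ x in x₀..x₁, ((Ψ x)ᴴ * W x * Ψ x - (Ψ' x)ᴴ * Ψ' x)) γ) ≤
      L1 γ * ∫ x in x₀..x₁, rtr (mpow (W x) (γ + 1 / 2)) := by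
  set I := Set.Icc x₀ x₁ with hI
  have hle : x₀ ≤ x₁ := hx.le
  set p := γ + 1 / 2 with hp
  have hp1 : 1 < p := by rw [hp]; linarith
  have hp2 : p < 2 := by rw [hp]; linarith
  set P := ∫ x in x₀..x₁, rtr (mpow (W x) p) with hP
  have hP0 : 0 ≤ P := intervalIntegral.integral_nonneg hle fun x hxI =>
    (Complex.le_def.1 (mpow_posSemidef_aux (hWp x hxI) p).trace_nonneg).1
  have hL1eq := L1_eq hγ
  have hL : 0 ≤ L1 γ := by
    rw [hL1eq]
    have := betaInt_pos (show 0 < γ - 1 / 2 by linarith)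
    have : 0 < γ + 1 / 2 := by linarith
    have : (0 : ℝ) ≤ γ - 1 / 2 := by linarith
    positivity
  rcases isEmpty_or_nonempty n with hn | hn
  · exact le_trans (by simp [rtr, Matrix.trace]) (mul_nonneg hL hP0)
  set A := ∫ x in x₀..x₁, ((Ψ x)ᴴ * W x * Ψ x - (Ψ' x)ᴴ * Ψ' x) with hAdef
  have hΨc : ContinuousOn Ψ I := fun x hxI => (hΨ x hxI).continuousWithinAt
  have hWs : ContinuousOn (fun x => mpow (W x) (2 - p)) I :=
    (continuousOn_mpow (by linarith)).comp hW fun x hxI => hWp x hxI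
  have hWpc : ContinuousOn (fun x => mpow (W x) p) I :=
    (continuousOn_mpow (by linarith)).comp hW fun x hxI => hWp x hxI
  set M : ℝ → Matrix n n ℂ := fun x => (Ψ x)ᴴ * mpow (W x) (2 - p) * Ψ x with hM
  have hMc : ContinuousOn M I := continuousOn_mul (continuousOn_mul (continuousOn_adj hΨc) hWs) hΨc
  have hMp : ∀ x ∈ I, (M x).PosSemidef := fun x hxI =>
    (mpow_posSemidef_aux (hWp x hxI) _).conjTranspose_mul_mul_same _
  have cWW : ContinuousOn (fun x => (Ψ x)ᴴ * W x * Ψ x) I :=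
    continuousOn_mul (continuousOn_mul (continuousOn_adj hΨc) hW) hΨc
  have cDD : ContinuousOn (fun x => (Ψ' x)ᴴ * Ψ' x) I :=
    continuousOn_mul (continuousOn_adj hΨ') hΨ'
  have cPP : ContinuousOn (fun x => (Ψ x)ᴴ * Ψ x) I :=
    continuousOn_mul (continuousOn_adj hΨc) hΨc
  have hM0 : (∫ x in x₀..x₁, M x).PosDef := by
    have hq : ∀ u : n → ℂ, qForm u (∫ x in x₀..x₁, M x) = ∫ x in x₀..x₁, qForm u (M x) := fun u =>
      ((qForm u).intervalIntegral_comp_comm (hMc.intervalIntegrable_of_Icc hle)).symm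
    have hherm : (∫ x in x₀..x₁, M x).IsHermitian := by
      have h := (adjL (k := n) (l := n)).intervalIntegral_comp_comm
        (hMc.intervalIntegrable_of_Icc (μ := volume) hle)
      refine Eq.trans (h.symm.trans ?_) rfl
      refine intervalIntegral.integral_congr fun x hxI => ?_
      rw [Set.uIcc_of_le hle] at hxI
      exact (hMp x hxI).isHermitian
    refine PosDef.of_dotProduct_mulVec_pos hherm fun u hu => ?_
    refine Complex.pos_iff.2 ⟨?_, ?_⟩
    · rw [← qForm_apply, hq]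
      have hnn : ∀ x ∈ I, 0 ≤ qForm u (M x) := fun x hxI =>
        (Complex.le_def.1 ((hMp x hxI).dotProduct_mulVec_nonneg u)).1
      have hqc : ContinuousOn (fun x => qForm u (M x)) I := (qForm u).continuous.comp_continuousOn hMc
      by_contra hcon
      have hzero : ∀ x ∈ I, qForm u (M x) = 0 := by
        intro y hy
        by_contra hne
        exact hcon (intervalIntegral.integral_pos hx hqc (fun x hxI => hnn x (Set.Ioc_subset_Icc_self hxI))
          ⟨y, hy, lt_of_le_of_ne (hnn y hy) (Ne.symm hne)⟩)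
      have hAu : qForm u A ≤ 0 := by
        have hAq : qForm u A = ∫ x in x₀..x₁, qForm u ((Ψ x)ᴴ * W x * Ψ x - (Ψ' x)ᴴ * Ψ' x) :=
          ((qForm u).intervalIntegral_comp_comm
            ((cWW.sub cDD).intervalIntegrable_of_Icc hle)).symm
        rw [hAq, ← neg_nonneg, ← intervalIntegral.integral_neg]
        refine intervalIntegral.integral_nonneg hle fun x hxI => ?_
        have h1 : mpow (W x) (2 - p) *ᵥ (Ψ x *ᵥ u) = 0 := by
          have hz := hzero x hxI
          rw [hM, qForm_conj] at hz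
          refine ((mpow_posSemidef_aux (hWp x hxI) _).dotProduct_mulVec_zero_iff _).1 ?_
          exact Complex.ext hz
            (Complex.le_def.1 ((mpow_posSemidef_aux (hWp x hxI) _).dotProduct_mulVec_nonneg _)).2.symm
        have h2 : W x *ᵥ (Ψ x *ᵥ u) = 0 := by
          conv_lhs => rw [← mpow_split_aux (hWp x hxI) (show 0 < 2 - p by linarith) (by linarith)]
          rw [← mulVec_mulVec, h1, mulVec_zero]
        have h3 : qForm u ((Ψ x)ᴴ * W x * Ψ x) = 0 := by
          rw [qForm_conj, h2, dotProduct_zero, Complex.zero_re]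
        rw [map_sub, h3, zero_sub, neg_neg]
        exact (Complex.le_def.1 ((posSemidef_conjTranspose_mul_self _).dotProduct_mulVec_nonneg u)).1
      have hApos := hA.dotProduct_mulVec_pos hu
      exact absurd (Complex.pos_iff.1 hApos).1 (not_lt.2 hAu)
    · have h := hherm.im_star_dotProduct_mulVec_self u
      simpa using h.symm
  refine le_of_forall_pos_le_add fun ε hε => ?_
  set η := ε / (L1 γ * P + 1) with hη
  have hden : 0 < L1 γ * P + 1 := by positivity
  obtain ⟨C, R, G, hC, hR, hG0, hG1, hG, hnorm, htr⟩ :=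
    exists_flip hγ hγ' hx hMc hMp hM0 hA (show 0 < η by positivity)
  have hRh : Rᴴ = R := hR.isHermitian.eq
  have hGd := fun x hxI => (hG x hxI).2
  have hGc : ContinuousOn G I := fun x hxI => (hGd x hxI).continuousWithinAt
  have hFc : ContinuousOn (fun x => R * M x * R) I :=
    continuousOn_mul (continuousOn_mul continuousOn_const hMc) continuousOn_const
  have hFp : ∀ x ∈ I, (R * M x * R).PosSemidef := fun x hxI => by
    have h := (hMp x hxI).conjTranspose_mul_mul_same R
    rwa [hRh] at h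
  set Φ : ℝ → Matrix k n ℂ := fun x => Ψ x * R with hΦ
  set Φ' : ℝ → Matrix k n ℂ := fun x => Ψ' x * R with hΦ'
  have hΦc : ContinuousOn Φ I := continuousOn_mul hΨc continuousOn_const
  have hΦ'c : ContinuousOn Φ' I := continuousOn_mul hΨ' continuousOn_const
  have hΦd : ∀ x ∈ I, HasDerivWithinAt Φ (Φ' x) I x := fun x hxI => by
    simpa using hasDerivWithinAt_mul (hΨ x hxI) (hasDerivWithinAt_const x I R)
  have hFeq : ∀ x, R * M x * R = (Φ x)ᴴ * mpow (W x) (2 - p) * Φ x := fun x => by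
    simp only [hM, hΦ, conjTranspose_mul, hRh, Matrix.mul_assoc]
  set dh : ℝ → ℝ := fun x => rtr (((Φ' x)ᴴ * Φ x + (Φ x)ᴴ * Φ' x) * G x +
      (Φ x)ᴴ * Φ x * (C * C - G x * G x - R * M x * R)) with hdh
  have hhd : ∀ x ∈ I, HasDerivWithinAt (fun y => rtr ((Φ y)ᴴ * Φ y * G y)) (dh x) I x :=
    fun x hxI => hasDerivWithinAt_rtr (hasDerivWithinAt_mul
      (hasDerivWithinAt_mul (hasDerivWithinAt_adj (hΦd x hxI)) (hΦd x hxI)) (hGd x hxI))
  have cP : ContinuousOn (fun x => (Φ x)ᴴ * Φ x) I := continuousOn_mul (continuousOn_adj hΦc) hΦc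
  have hdhc : ContinuousOn dh I := by
    refine continuous_rtr.comp_continuousOn ?_
    exact (continuousOn_mul ((continuousOn_mul (continuousOn_adj hΦ'c) hΦc).add
      (continuousOn_mul (continuousOn_adj hΦc) hΦ'c)) hGc).add
      (continuousOn_mul cP ((continuousOn_const.sub (continuousOn_mul hGc hGc)).sub hFc))
  have hboundary : ∫ x in x₀..x₁, dh x = 0 := by
    rw [intervalIntegral.integral_eq_sub_of_hasDerivAt_of_le hle
      (f := fun y => rtr ((Φ y)ᴴ * Φ y * G y))
      (fun x hxI => (hhd x hxI).continuousWithinAt)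
      (fun x hxI => (hhd x (Set.Ioo_subset_Icc_self hxI)).hasDerivAt (Icc_mem_nhds hxI.1 hxI.2))
      (hdhc.intervalIntegrable_of_Icc hle)]
    simp [hΦ, h₀, h₁, rtr]
  set t₁ : ℝ → ℝ := fun x => rtr ((Φ' x)ᴴ * Φ' x) with ht₁
  set t₂ : ℝ → ℝ := fun x => rtr ((Φ x)ᴴ * Φ x * (C * C)) with ht₂
  set t₃ : ℝ → ℝ := fun x => rtr ((Φ x)ᴴ * Φ x * (R * M x * R)) with ht₃
  set t₄ : ℝ → ℝ := fun x => rtr (W x * (Φ x * (Φ x)ᴴ)) with ht₄
  have hpt : ∀ x ∈ I, 0 ≤ t₁ x - dh x + t₂ x - t₃ x := fun x hxI => by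
    have h0 := rtr_conjTranspose_mul_self_nonneg (Φ' x - Φ x * G x)
    have hGh : (G x)ᴴ = G x := by
      have hb := (hG x hxI).1.1.isHermitian.eq
      rw [conjTranspose_sub, hC.isHermitian.eq] at hb
      exact sub_right_injective hb
    have c1 : rtr (G x * ((Φ x)ᴴ * Φ' x)) = rtr ((Φ x)ᴴ * Φ' x * G x) := rtr_mul_comm _ _
    have c2 : rtr (G x * ((Φ x)ᴴ * (Φ x * G x))) = rtr ((Φ x)ᴴ * Φ x * (G x * G x)) := by
      rw [rtr_mul_comm]; simp only [Matrix.mul_assoc]
    simp only [conjTranspose_sub, conjTranspose_mul, hGh, Matrix.sub_mul, Matrix.mul_sub, rtr_sub,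
      Matrix.mul_assoc] at h0
    simp only [ht₁, ht₂, ht₃, hdh, Matrix.add_mul, Matrix.mul_sub, rtr_add, rtr_sub,
      Matrix.mul_assoc] at c1 c2 ⊢
    linarith
  have ct₁ : ContinuousOn t₁ I :=
    continuous_rtr.comp_continuousOn (continuousOn_mul (continuousOn_adj hΦ'c) hΦ'c)
  have ct₂ : ContinuousOn t₂ I :=
    continuous_rtr.comp_continuousOn (continuousOn_mul cP continuousOn_const)
  have ct₃ : ContinuousOn t₃ I := continuous_rtr.comp_continuousOn (continuousOn_mul cP hFc)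
  have ct₄ : ContinuousOn t₄ I :=
    continuous_rtr.comp_continuousOn (continuousOn_mul hW (continuousOn_mul hΦc (continuousOn_adj hΦc)))
  have ii : ∀ {f : ℝ → ℝ}, ContinuousOn f I → IntervalIntegrable f volume x₀ x₁ := fun h =>
    h.intervalIntegrable_of_Icc hle
  set X := ∫ x in x₀..x₁, t₃ x with hX
  set V := ∫ x in x₀..x₁, t₄ x with hV
  have hbudget : X ≤ V := by
    have h := intervalIntegral.integral_nonneg (μ := volume) hle hpt
    rw [intervalIntegral.integral_sub (((ii ct₁).sub (ii hdhc)).add (ii ct₂)) (ii ct₃),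
      intervalIntegral.integral_add ((ii ct₁).sub (ii hdhc)) (ii ct₂),
      intervalIntegral.integral_sub (ii ct₁) (ii hdhc), hboundary] at h
    have e₁ : ∀ (B : ℝ → Matrix n n ℂ), ContinuousOn B I →
        ∫ x in x₀..x₁, rtr (R * B x * R) = rtr (R * R * ∫ x in x₀..x₁, B x) := by
      intro B hB
      rw [← rtr_integral ((continuousOn_mul (continuousOn_mul continuousOn_const hB)
        continuousOn_const).intervalIntegrable_of_Icc hle),
        conj_integral (hB.intervalIntegrable_of_Icc hle) R R, rtr_mul_comm, Matrix.mul_assoc]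
    have e₂ : ∫ x in x₀..x₁, t₁ x = rtr (R * R * ∫ x in x₀..x₁, (Ψ' x)ᴴ * Ψ' x) := by
      rw [← e₁ _ cDD]
      simp only [ht₁, hΦ', conjTranspose_mul, hRh, Matrix.mul_assoc]
    have e₃ : V = rtr (R * R * ∫ x in x₀..x₁, (Ψ x)ᴴ * W x * Ψ x) := by
      rw [← e₁ _ cWW, hV]
      refine intervalIntegral.integral_congr fun x _ => ?_
      simp only [ht₄, hΦ, conjTranspose_mul, hRh]
      rw [rtr_mul_comm (R * ((Ψ x)ᴴ * W x * Ψ x)) R, rtr_mul_comm (W x) _]
      simp only [Matrix.mul_assoc]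
      rw [rtr_mul_comm]
      simp only [Matrix.mul_assoc]
    have e₄ : ∫ x in x₀..x₁, t₂ x = rtr (R * R * (C * C)) := by
      have : ∀ x, t₂ x = rtr (R * ((Ψ x)ᴴ * Ψ x) * R * (C * C)) := fun x => by
        simp only [ht₂, hΦ, conjTranspose_mul, hRh, Matrix.mul_assoc]
      simp only [this]
      rw [← rtr_integral ((continuousOn_mul (continuousOn_mul (continuousOn_mul continuousOn_const cPP)
        continuousOn_const) continuousOn_const).intervalIntegrable_of_Icc hle)]
      have hc := conj_integral (cPP.intervalIntegrable_of_Icc hle) R (R * (C * C))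
      simp only [← Matrix.mul_assoc] at hc ⊢
      rw [hc, horth, Matrix.mul_one]
    have e₅ : rtr (R * R * A) = V - ∫ x in x₀..x₁, t₁ x := by
      rw [e₂, e₃, hAdef, intervalIntegral.integral_sub (cWW.intervalIntegrable_of_Icc hle)
        (cDD.intervalIntegrable_of_Icc hle), Matrix.mul_sub, rtr_sub]
    linarith [hnorm]
  have ht₃' : ∀ x, t₃ x = rtr (mpow (W x) (2 - p) * (Φ x * (Φ x)ᴴ) * (Φ x * (Φ x)ᴴ)) := fun x => by
    simp only [ht₃, hFeq]
    rw [show (Φ x)ᴴ * Φ x * ((Φ x)ᴴ * mpow (W x) (2 - p) * Φ x)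
        = ((Φ x)ᴴ * Φ x * (Φ x)ᴴ) * (mpow (W x) (2 - p) * Φ x) by simp only [Matrix.mul_assoc],
      rtr_mul_comm]
    simp only [Matrix.mul_assoc]
  have cPw : ContinuousOn (fun x => rtr (mpow (W x) p)) I := continuous_rtr.comp_continuousOn hWpc
  have hVle : V ≤ 1 / 2 * P + 1 / 2 * X := by
    rw [hV, hP, hX, ← intervalIntegral.integral_const_mul, ← intervalIntegral.integral_const_mul,
      ← intervalIntegral.integral_add ((ii cPw).const_mul _) ((ii ct₃).const_mul _)]
    refine intervalIntegral.integral_mono_on hle (ii ct₄)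
      (((ii cPw).const_mul _).add ((ii ct₃).const_mul _)) fun x hxI => ?_
    rw [ht₃']
    exact rtr_mul_le_half hp1 hp2 (hWp x hxI) (posSemidef_self_mul_conjTranspose _)
  set H := ∫ x in x₀..x₁, rtr (mpow (R * M x * R) p) with hH
  have cH : ContinuousOn (fun x => rtr (mpow (R * M x * R) p)) I :=
    continuous_rtr.comp_continuousOn ((continuousOn_mpow (by linarith)).comp hFc hFp)
  have hHle : H ≤ P := by
    have : H ≤ p / 2 * X + (2 - p) / 2 * P := by
      rw [hH, hP, hX, ← intervalIntegral.integral_const_mul, ← intervalIntegral.integral_const_mul,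
        ← intervalIntegral.integral_add ((ii ct₃).const_mul _) ((ii cPw).const_mul _)]
      refine intervalIntegral.integral_mono_on hle (ii cH)
        (((ii ct₃).const_mul _).add ((ii cPw).const_mul _)) fun x hxI => ?_
      rw [ht₃', hFeq]
      exact rtr_mpow_sandwich_le hp1 hp2 (hWp x hxI) (Φ x)
    nlinarith
  have hric := riccati_bound (a := γ - 1 / 2) (by linarith) (by linarith) hC hle hFc hFp hGd
    (fun x hxI => (hG x hxI).1) hG0 hG1
  rw [show 1 + (γ - 1 / 2) = p by rw [hp]; ring, show 2 * (γ - 1 / 2) + 1 = 2 * γ by ring] at hric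
  have hB := betaInt_pos (show 0 < γ - 1 / 2 by linarith)
  have hCle : rtr (mpow C (2 * γ)) ≤ L1 γ * P := by
    have h1 : betaInt (γ - 1 / 2) * rtr (mpow C (2 * γ)) ≤
        (γ - 1 / 2) ^ (γ - 1 / 2) / p ^ p * P :=
      hric.trans (mul_le_mul_of_nonneg_left hHle
        (div_nonneg (rpow_nonneg (by linarith) _) (rpow_nonneg (by linarith) _)))
    have e : L1 γ * P = (γ - 1 / 2) ^ (γ - 1 / 2) / p ^ p * P / betaInt (γ - 1 / 2) := by
      rw [hL1eq, ← hp]; field_simp
    rw [e, le_div_iff₀ hB]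
    linarith
  have hηb : η * (L1 γ * P + 1) = ε := by rw [hη]; field_simp
  nlinarith [mul_le_mul_of_nonneg_left hCle (show 0 ≤ 1 + η by positivity)]

end Vale.Agent.P371.Gen
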