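import Mathlib

/-!
Common definitions for the sharp one-dimensional Lieb-Thirring inequality with matrix potentials,
`1/2 < γ < 3/2`. Throughout, `a = γ - 1/2 ∈ (0,1)`, `p = γ + 1/2 = 1 + a`.
-/

namespace Vale.Agent.P371.Gen

open MeasureTheory Matrix Real
open scoped Matrix.Norms.Frobenius ComplexOrder

variable {n : Type*} [Fintype n] [DecidableEq n]

/-- The extended norm of a matrix, induced by the Frobenius norm. -/
noncomputable instance frobENormComm {k l : Type*} [Fintype k] [Fintype l] :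
    ENormedAddCommMonoid (Matrix k l ℂ) :=
  let h : NormedAddCommGroup (Matrix k l ℂ) := inferInstance
  @NormedAddCommGroup.toENormedAddCommMonoid _ h

/-- Real part of the trace. -/
def rtr (A : Matrix n n ℂ) : ℝ := A.trace.re

/-- Real power of a Hermitian positive semidefinite matrix. -/
noncomputable def mpow (A : Matrix n n ℂ) (r : ℝ) : Matrix n n ℂ := cfc (fun x : ℝ => x ^ r) A

/-- The one-bound-state constant `L^(1)_γ`. -/
noncomputable def L1 (γ : ℝ) : ℝ :=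
  2 * ((γ - 1 / 2) / (γ + 1 / 2)) ^ (γ - 1 / 2) * (Gamma (γ + 1) / (2 * √π * Gamma (γ + 3 / 2)))

/-- `∫_{-1}^{1} (1-u²)^a du`. -/
noncomputable def betaInt (a : ℝ) : ℝ := ∫ u in (-1 : ℝ)..1, (1 - u ^ 2) ^ a

/-- `∫_0^∞ τ^(a-1)/(1+τ) dτ`. -/
noncomputable def jInt (a : ℝ) : ℝ := ∫ τ in Set.Ioi (0 : ℝ), τ ^ (a - 1) / (1 + τ)

/-- `φ_t(x) = x - t log (1 + x/t)`. -/
noncomputable def phiT (t x : ℝ) : ℝ := x - t * Real.log (1 + x / t)

/-- `K_t = √(C² + t)`. -/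
noncomputable def kt (C : Matrix n n ℂ) (t : ℝ) : Matrix n n ℂ :=
  cfc (fun x : ℝ => √(x ^ 2 + t)) C

/-- The linear pencil `K + vG`. -/
def pencil (K G : Matrix n n ℂ) (v : ℝ) : Matrix n n ℂ := K + (v : ℂ) • G

/-- `R = ½ ∫_{-1}^1 (K+vG)⁻² dv`, the average which replaces `(K² - G²)⁻¹`. -/
noncomputable def rMat (K G : Matrix n n ℂ) : Matrix n n ℂ :=
  (1 / 2 : ℝ) • ∫ v in (-1 : ℝ)..1, (pencil K G v)⁻¹ * (pencil K G v)⁻¹

/-- `Λ = ½ ∫_{-1}^1 tr(K⁻¹ G (K+vG)⁻¹) dv`, a primitive of `rMat`. -/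
noncomputable def lam (K G : Matrix n n ℂ) : ℝ :=
  (1 / 2) * ∫ v in (-1 : ℝ)..1, rtr (K⁻¹ * G * (pencil K G v)⁻¹)

/-- `log det (K-G) + log det (K+G)`. -/
noncomputable def logDet2 (K G : Matrix n n ℂ) : ℝ :=
  Real.log (K - G).det.re + Real.log (K + G).det.re

/-- The Riccati box `-C ≤ G ≤ C`. -/
def InBox (C G : Matrix n n ℂ) : Prop := (C - G).PosSemidef ∧ (C + G).PosSemidef

end Vale.Agent.P371.Gen
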