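import Vale.Agent.P371.Gen.Defs

/-!
Oppenheim's inequality and the lower bound for the determinant of `rMat`.
-/

namespace Vale.Agent.P371.Gen

open MeasureTheory Matrix Real
open scoped Matrix.Norms.Frobenius ComplexOrder MatrixOrder

variable {n : Type*} [Fintype n] [DecidableEq n]

omit [DecidableEq n] in
private lemma diag_gram (B : Matrix n n ℂ) (i : n) :
    (Bᴴ * B) i i = ((∑ k, Complex.normSq (B k i) : ℝ) : ℂ) := by
  simp [mul_apply, Complex.normSq_eq_conj_mul_self]

omit [DecidableEq n] in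
private lemma diag_gram' (B : Matrix n n ℂ) (i : n) :
    (B * Bᴴ) i i = ((∑ k, Complex.normSq (B i k) : ℝ) : ℂ) := by
  simp [mul_apply, Complex.normSq_eq_conj_mul_self, mul_comm]

/-- A Schur multiplier with unit diagonal does not lower the determinant. -/
private lemma log_det_corr {M L : Matrix n n ℂ} (hM : M.PosDef) (hL : L.PosSemidef)
    (hd : ∀ i, L i i = 1) :
    Real.log M.det.re ≤ Real.log (M ⊙ L).det.re ∧ 0 < (M ⊙ L).det.re := by
  obtain ⟨B, hB⟩ : ∃ B : Matrix n n ℂ, L = Bᴴ * B := by
    obtain ⟨B, hB⟩ := CStarAlgebra.nonneg_iff_eq_star_mul_self.1 hL.nonneg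
    exact ⟨B, hB⟩
  set D : n → Matrix n n ℂ := fun k => diagonal fun i => star (B k i) with hD
  have hML : M ⊙ L = ∑ k, D k * M * (D k)ᴴ := by
    ext i j
    simp only [hD, hadamard_apply, hB, mul_apply (M := Bᴴ), conjTranspose_apply, Finset.mul_sum,
      Matrix.sum_apply, diagonal_conjTranspose, mul_diagonal, diagonal_mul, Pi.star_apply,
      star_star]
    exact Finset.sum_congr rfl fun k _ => by ring
  have hnorm : ∀ i, ∑ k, star (B k i) * B k i = 1 := fun i => by
    rw [← hd i, hB, mul_apply]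
    rfl
  have hDD : ∑ k, D k * (D k)ᴴ = 1 := by
    ext i j
    simp only [hD, diagonal_conjTranspose, diagonal_mul_diagonal, Matrix.sum_apply, Pi.star_apply,
      star_star]
    rcases eq_or_ne i j with rfl | h
    · simp only [diagonal_apply_eq, one_apply_eq, hnorm]
    · simp [diagonal_apply_ne _ h, one_apply_ne h]
  have hDD' : ∑ k, (D k)ᴴ * D k = 1 := by
    rw [← hDD]
    refine Finset.sum_congr rfl fun k _ => ?_
    simp only [hD, diagonal_conjTranspose, diagonal_mul_diagonal, mul_comm]
  set X := M ⊙ L with hX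
  have hXs : X.PosSemidef := hM.posSemidef.hadamard hL
  set U : Matrix n n ℂ := (hXs.1.eigenvectorUnitary : Matrix n n ℂ) with hU
  set V : Matrix n n ℂ := (hM.1.eigenvectorUnitary : Matrix n n ℂ) with hV
  set μ := hXs.1.eigenvalues with hμ
  set lam := hM.1.eigenvalues with hlam
  have hUU : Uᴴ * U = 1 := Unitary.coe_star_mul_self _
  have hVV : V * Vᴴ = 1 := Unitary.coe_mul_star_self _
  have hVV' : Vᴴ * V = 1 := Unitary.coe_star_mul_self _
  have hUU' : U * Uᴴ = 1 := Unitary.coe_mul_star_self _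
  have hMs : M = V * diagonal (fun a => (lam a : ℂ)) * Vᴴ := hM.1.spectral_theorem
  have hXspec : X = U * diagonal (fun a => (μ a : ℂ)) * Uᴴ := hXs.1.spectral_theorem
  set Q : n → Matrix n n ℂ := fun k => Uᴴ * D k * V with hQ
  have hkey : diagonal (fun a => (μ a : ℂ)) =
      ∑ k, Q k * diagonal (fun a => (lam a : ℂ)) * (Q k)ᴴ := by
    have h1 : Uᴴ * X * U = diagonal (fun a => (μ a : ℂ)) := by
      rw [hXspec]
      calc Uᴴ * (U * diagonal (fun a => (μ a : ℂ)) * Uᴴ) * U
          = (Uᴴ * U) * diagonal (fun a => (μ a : ℂ)) * (Uᴴ * U) := by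
            simp only [Matrix.mul_assoc]
        _ = _ := by rw [hUU, Matrix.one_mul, Matrix.mul_one]
    rw [← h1, hML, Finset.mul_sum, Finset.sum_mul]
    refine Finset.sum_congr rfl fun k _ => ?_
    rw [hMs]
    simp only [hQ, conjTranspose_mul, conjTranspose_conjTranspose, Matrix.mul_assoc]
  have hQQ : ∑ k, Q k * (Q k)ᴴ = 1 := by
    calc ∑ k, Q k * (Q k)ᴴ = ∑ k, Uᴴ * (D k * (D k)ᴴ) * U := by
          refine Finset.sum_congr rfl fun k _ => ?_
          simp only [hQ, conjTranspose_mul, conjTranspose_conjTranspose]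
          calc Uᴴ * D k * V * (Vᴴ * ((D k)ᴴ * U))
              = Uᴴ * D k * (V * Vᴴ) * ((D k)ᴴ * U) := by simp only [Matrix.mul_assoc]
            _ = _ := by rw [hVV, Matrix.mul_one]; simp only [Matrix.mul_assoc]
      _ = _ := by rw [← Finset.sum_mul, ← Finset.mul_sum, hDD, Matrix.mul_one, hUU]
  have hQQ' : ∑ k, (Q k)ᴴ * Q k = 1 := by
    calc ∑ k, (Q k)ᴴ * Q k = ∑ k, Vᴴ * ((D k)ᴴ * D k) * V := by
          refine Finset.sum_congr rfl fun k _ => ?_
          simp only [hQ, conjTranspose_mul, conjTranspose_conjTranspose]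
          calc Vᴴ * ((D k)ᴴ * U) * (Uᴴ * D k * V)
              = Vᴴ * ((D k)ᴴ * (U * Uᴴ) * D k) * V := by simp only [Matrix.mul_assoc]
            _ = _ := by rw [hUU', Matrix.mul_one]
      _ = _ := by rw [← Finset.sum_mul, ← Finset.mul_sum, hDD', Matrix.mul_one, hVV']
  set w : n → n → ℝ := fun a b => ∑ k, Complex.normSq (Q k a b) with hw
  have hrow : ∀ a, ∑ b, w a b = 1 := fun a => by
    have h := congrFun (congrFun hQQ a) a
    simp only [Matrix.sum_apply, diag_gram', one_apply_eq] at h
    rw [hw, Finset.sum_comm]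
    exact_mod_cast h
  have hcol : ∀ b, ∑ a, w a b = 1 := fun b => by
    have h := congrFun (congrFun hQQ' b) b
    simp only [Matrix.sum_apply, diag_gram, one_apply_eq] at h
    rw [hw, Finset.sum_comm]
    exact_mod_cast h
  have hmean : ∀ a, μ a = ∑ b, w a b * lam b := fun a => by
    have h := congrFun (congrFun hkey a) a
    simp only [diagonal_apply_eq, Matrix.sum_apply] at h
    have e : ∀ k, (Q k * diagonal (fun a => (lam a : ℂ)) * (Q k)ᴴ) a a =
        ((∑ b, Complex.normSq (Q k a b) * lam b : ℝ) : ℂ) := fun k => by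
      rw [mul_apply]
      simp only [mul_diagonal, conjTranspose_apply, Complex.ofReal_sum,
        Complex.ofReal_mul]
      refine Finset.sum_congr rfl fun b _ => ?_
      rw [Complex.normSq_eq_conj_mul_self]
      change Q k a b * _ * (starRingEnd ℂ) (Q k a b) = _
      ring
    simp only [e, ← Complex.ofReal_sum, Complex.ofReal_inj] at h
    rw [h, Finset.sum_comm]
    simp only [hw, Finset.sum_mul]
  have hlampos : ∀ b, lam b ∈ Set.Ioi (0 : ℝ) := fun b => hM.eigenvalues_pos b
  have hw0 : ∀ a, ∀ b ∈ Finset.univ, 0 ≤ w a b := fun a b _ =>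
    Finset.sum_nonneg fun k _ => Complex.normSq_nonneg _
  have hμpos : ∀ a, 0 < μ a := fun a => by
    rw [hmean]
    exact (convex_Ioi (0 : ℝ)).sum_mem (hw0 a) (hrow a) (fun b _ => hlampos b)
  have hjensen : ∀ a, ∑ b, w a b * Real.log (lam b) ≤ Real.log (μ a) := fun a => by
    rw [hmean]
    exact strictConcaveOn_log_Ioi.concaveOn.le_map_sum (hw0 a) (hrow a) (fun b _ => hlampos b)
  have hdet : ∀ {A : Matrix n n ℂ} (hA : A.IsHermitian),
      A.det.re = ∏ i, hA.eigenvalues i := fun hA => by
    rw [hA.det_eq_prod_eigenvalues]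
    exact (congrArg Complex.re (Complex.ofReal_prod _ _).symm).trans (Complex.ofReal_re _)
  rw [hdet hM.1, hdet hXs.1, ← hμ, ← hlam]
  refine ⟨?_, Finset.prod_pos fun i _ => hμpos i⟩
  rw [Real.log_prod (fun i _ => (hlampos i).ne'), Real.log_prod (fun i _ => (hμpos i).ne')]
  calc ∑ b, Real.log (lam b) = ∑ b, ∑ a, w a b * Real.log (lam b) := by
        simp only [← Finset.sum_mul, hcol, one_mul]
    _ = ∑ a, ∑ b, w a b * Real.log (lam b) := Finset.sum_comm
    _ ≤ _ := Finset.sum_le_sum fun a _ => hjensen a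

/-- Oppenheim's inequality. -/
theorem det_hadamard_ge {M L : Matrix n n ℂ} (hM : M.PosDef) (hL : L.PosSemidef) :
    M.det.re * ∏ i, (L i i).re ≤ (Matrix.of fun i j => M i j * L i j).det.re := by
  change _ ≤ (M ⊙ L).det.re
  have hnn : 0 ≤ (M ⊙ L).det.re :=
    (Complex.nonneg_iff.1 (hM.posSemidef.hadamard hL).det_nonneg).1
  by_cases hz : ∃ i, (L i i).re = 0
  · obtain ⟨i, hi⟩ := hz
    rw [Finset.prod_eq_zero (Finset.mem_univ i) hi, mul_zero]
    exact hnn
  push Not at hz
  set d : n → ℝ := fun i => (L i i).re with hd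
  have hLii : ∀ i, L i i = (d i : ℂ) := fun i => (hL.1.coe_re_apply_self i).symm
  have hd0 : ∀ i, 0 < d i := fun i =>
    lt_of_le_of_ne (Complex.nonneg_iff.1 hL.diag_nonneg).1 (hz i).symm
  set S : Matrix n n ℂ := diagonal fun i => (√(d i) : ℂ) with hS
  set T : Matrix n n ℂ := diagonal fun i => ((√(d i))⁻¹ : ℂ) with hT
  have hs : ∀ i, (√(d i) : ℂ) ≠ 0 := fun i =>
    Complex.ofReal_ne_zero.2 (Real.sqrt_ne_zero'.2 (hd0 i))
  have hTh : Tᴴ = T := by
    rw [hT, diagonal_conjTranspose]
    congr 1
    funext i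
    simp
  set C := T * L * T with hC
  have hCp : C.PosSemidef := by
    have := hL.mul_mul_conjTranspose_same T
    rwa [hTh] at this
  have hCd : ∀ i, C i i = 1 := fun i => by
    have := hs i
    simp only [hC, hT, mul_diagonal, diagonal_mul, hLii]
    field_simp
    exact_mod_cast (Real.sq_sqrt (hd0 i).le).symm
  have hfac : M ⊙ L = S * (M ⊙ C) * S := by
    ext i j
    have := hs i
    have := hs j
    simp only [hC, hT, hS, hadamard_apply, mul_diagonal, diagonal_mul]
    field_simp
  obtain ⟨hlog, hpos⟩ := log_det_corr hM hCp hCd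
  have hMpos : 0 < M.det.re := (Complex.pos_iff.1 hM.det_pos).1
  have hle : M.det.re ≤ (M ⊙ C).det.re := (Real.log_le_log_iff hMpos hpos).1 hlog
  have hdetS : S.det = ((∏ i, √(d i) : ℝ) : ℂ) := by
    rw [hS, det_diagonal, Complex.ofReal_prod]
  have hsq : (∏ i, √(d i)) * (∏ i, √(d i)) = ∏ i, d i := by
    rw [← Finset.prod_mul_distrib]
    exact Finset.prod_congr rfl fun i _ => Real.mul_self_sqrt (hd0 i).le
  rw [hfac, det_mul, det_mul, hdetS, mul_right_comm, ← Complex.ofReal_mul, hsq,
    Complex.re_ofReal_mul]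
  rw [mul_comm]
  exact mul_le_mul_of_nonneg_left hle (Finset.prod_nonneg fun i _ => (hd0 i).le)

variable {K G : Matrix n n ℂ}

/-- Simultaneous diagonalisation of two positive definite matrices by congruence. -/
private lemma exists_simul_diag {P Q : Matrix n n ℂ} (hP : P.PosDef) (hQ : Q.PosDef) :
    ∃ (W : Matrix n n ℂ) (τ : n → ℝ), IsUnit W.det ∧ (∀ i, 0 < τ i) ∧ P = Wᴴ * W ∧
      Q = Wᴴ * diagonal (fun i => (τ i : ℂ)) * W := by
  obtain ⟨B, hB⟩ : ∃ B : Matrix n n ℂ, P = Bᴴ * B := by
    obtain ⟨B, hB⟩ := CStarAlgebra.nonneg_iff_eq_star_mul_self.1 hP.posSemidef.nonneg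
    exact ⟨B, hB⟩
  have hBdet : IsUnit B.det := by
    have := (isUnit_iff_isUnit_det _).1 hP.isUnit
    rw [hB, det_mul] at this
    exact isUnit_of_mul_isUnit_right this
  have hH : ((B⁻¹)ᴴ * Q * B⁻¹).PosDef := hQ.conjTranspose_mul_mul_same
    (mulVec_injective_of_isUnit (isUnit_nonsing_inv_iff.2 ((isUnit_iff_isUnit_det _).2 hBdet)))
  set U : Matrix n n ℂ := (hH.1.eigenvectorUnitary : Matrix n n ℂ) with hU
  have hUU : U * Uᴴ = 1 := Unitary.coe_mul_star_self _
  refine ⟨Uᴴ * B, hH.1.eigenvalues, ?_, hH.eigenvalues_pos, ?_, ?_⟩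
  · rw [det_mul]
    exact (isUnit_det_of_left_inverse hUU).mul hBdet
  · rw [hB, conjTranspose_mul, conjTranspose_conjTranspose]
    calc Bᴴ * B = Bᴴ * (U * Uᴴ) * B := by rw [hUU, Matrix.mul_one]
      _ = _ := by simp only [Matrix.mul_assoc]
  · have hs : (B⁻¹)ᴴ * Q * B⁻¹ =
        U * diagonal (fun i => (hH.1.eigenvalues i : ℂ)) * Uᴴ := hH.1.spectral_theorem
    calc Q = (B⁻¹ * B)ᴴ * Q * (B⁻¹ * B) := by
          rw [nonsing_inv_mul _ hBdet, conjTranspose_one, Matrix.one_mul, Matrix.mul_one]
      _ = Bᴴ * ((B⁻¹)ᴴ * Q * B⁻¹) * B := by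
          simp only [conjTranspose_mul, Matrix.mul_assoc]
      _ = Bᴴ * (U * diagonal (fun i => (hH.1.eigenvalues i : ℂ)) * Uᴴ) * B :=
          congrArg (fun Z => Bᴴ * Z * B) hs
      _ = _ := by
          rw [conjTranspose_mul, conjTranspose_conjTranspose]
          simp only [Matrix.mul_assoc]

theorem log_det_rMat_ge (hP : (K - G).PosDef) (hQ : (K + G).PosDef) :
    -logDet2 K G ≤ Real.log (rMat K G).det.re := by
  obtain ⟨W, τ, hW, hτ, hPW, hQW⟩ := exists_simul_diag hP hQ
  set V := W⁻¹ with hV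
  set N := Vᴴ * V with hN
  set d : n → ℝ → ℝ := fun i v => (1 + v) / 2 * τ i + (1 - v) / 2 with hd
  have hd0 : ∀ i, ∀ v ∈ Set.Icc (-1 : ℝ) 1, 0 < d i v := fun i v hv => by
    rcases eq_or_lt_of_le hv.1 with h | h
    · simp [hd, ← h]
    · have h1 : 0 < (1 + v) / 2 * τ i := mul_pos (by linarith) (hτ i)
      have h2 : 0 ≤ (1 - v) / 2 := by linarith [hv.2]
      simp only [hd]
      linarith
  set e : n → ℝ → ℝ := fun i v => (d i v)⁻¹ with he
  have hec : ∀ i, ContinuousOn (e i) (Set.uIcc (-1 : ℝ) 1) := fun i => by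
    rw [Set.uIcc_of_le (by norm_num)]
    exact ContinuousOn.inv₀ (by simp only [hd]; fun_prop) fun v hv => (hd0 i v hv).ne'
  set L : Matrix n n ℂ :=
    Matrix.of fun i j => ((1 / 2 * ∫ v in (-1 : ℝ)..1, e i v * e j v : ℝ) : ℂ) with hL
  have hint : ∀ i j, IntervalIntegrable (fun v => e i v * e j v) volume (-1) 1 := fun i j =>
    ((hec i).mul (hec j)).intervalIntegrable
  -- the diagonal
  have hLd : ∀ i, L i i = ((τ i)⁻¹ : ℝ) := fun i => by
    simp only [hL, of_apply]
    congr 1
    have hderiv : ∀ v ∈ Set.uIcc (-1 : ℝ) 1,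
        HasDerivAt (fun v => (1 + v) / d i v) (e i v * e i v) v := fun v hv => by
      rw [Set.uIcc_of_le (by norm_num)] at hv
      have h1 : HasDerivAt (fun v : ℝ => 1 + v) 1 v := (hasDerivAt_id v).const_add 1
      have h2 : HasDerivAt (d i) (τ i / 2 - 1 / 2) v := by
        have := ((h1.div_const 2).mul_const (τ i)).add
          (((hasDerivAt_id v).const_sub 1).div_const 2)
        refine this.congr_deriv ?_
        ring
      refine (h1.div h2 (hd0 i v hv).ne').congr_deriv ?_
      have := (hd0 i v hv).ne'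
      simp only [he]
      field_simp
      simp only [hd]
      ring
    rw [intervalIntegral.integral_eq_sub_of_hasDerivAt hderiv (hint i i)]
    have := (hτ i).ne'
    simp only [hd]
    norm_num
    field_simp
  -- positivity
  have hLp : L.PosSemidef := by
    refine .of_dotProduct_mulVec_nonneg ?_ fun x => ?_
    · ext i j
      simp [hL, conjTranspose_apply, mul_comm]
    · have hi : ∀ i j, IntervalIntegrable
          (fun v => ((e i v * e j v : ℝ) : ℂ) * (star (x i) * x j)) volume (-1) 1 := fun i j =>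
        ((Complex.continuous_ofReal.comp_continuousOn ((hec i).mul (hec j))).mul
          continuousOn_const).intervalIntegrable
      have hi2 : ∀ i, IntervalIntegrable
          (fun v => ∑ j, ((e i v * e j v : ℝ) : ℂ) * (star (x i) * x j)) volume (-1) 1 := fun i =>
        (continuousOn_finsetSum _ fun j _ =>
          (Complex.continuous_ofReal.comp_continuousOn ((hec i).mul (hec j))).mul
            continuousOn_const).intervalIntegrable
      have hx : star x ⬝ᵥ (L *ᵥ x) =
          ((1 / 2 * ∫ v in (-1 : ℝ)..1, Complex.normSq (∑ i, (e i v : ℂ) * x i) : ℝ) : ℂ) := by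
        rw [Complex.ofReal_mul, ← intervalIntegral.integral_ofReal]
        simp only [dotProduct, mulVec, hL, of_apply, Pi.star_apply, Finset.mul_sum,
          Complex.ofReal_mul, ← intervalIntegral.integral_ofReal]
        have : ∀ v, ((Complex.normSq (∑ i, (e i v : ℂ) * x i) : ℝ) : ℂ) =
            ∑ i, ∑ j, ((e i v * e j v : ℝ) : ℂ) * (star (x i) * x j) := fun v => by
          rw [Complex.normSq_eq_conj_mul_self, map_sum, Finset.sum_mul_sum]
          refine Finset.sum_congr rfl fun i _ => Finset.sum_congr rfl fun j _ => ?_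
          rw [map_mul, Complex.conj_ofReal, Complex.star_def]
          push_cast
          ring
        rw [intervalIntegral.integral_congr (fun v _ => this v),
          intervalIntegral.integral_finsetSum fun i _ => hi2 i]
        rw [Finset.mul_sum]
        refine Finset.sum_congr rfl fun i _ => ?_
        rw [intervalIntegral.integral_finsetSum (fun j _ => hi i j), Finset.mul_sum]
        refine Finset.sum_congr rfl fun j _ => ?_
        rw [intervalIntegral.integral_mul_const]
        push_cast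
        ring
      rw [hx, Complex.zero_le_real]
      exact mul_nonneg (by norm_num)
        (intervalIntegral.integral_nonneg (by norm_num) fun v _ => Complex.normSq_nonneg _)
  -- the representation
  have hWV : W * V = 1 := mul_nonsing_inv _ hW
  have hX : ∀ v ∈ Set.Icc (-1 : ℝ) 1,
      (pencil K G v)⁻¹ = V * diagonal (fun i => (e i v : ℂ)) * Vᴴ := fun v hv => by
    have hpen : pencil K G v = Wᴴ * diagonal (fun i => (d i v : ℂ)) * W := by
      have hd' : diagonal (fun i => (d i v : ℂ)) =
          (((1 + v) / 2 : ℝ) : ℂ) • diagonal (fun i => (τ i : ℂ)) +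
            (((1 - v) / 2 : ℝ) : ℂ) • (1 : Matrix n n ℂ) := by
        ext i j
        rcases eq_or_ne i j with rfl | h
        · simp [hd]
        · simp [h]
      rw [hd', Matrix.mul_add, Matrix.add_mul, Matrix.mul_smul, Matrix.mul_smul, Matrix.smul_mul,
        Matrix.smul_mul, Matrix.mul_one, ← hQW, ← hPW, pencil]
      push_cast
      ext i j
      simp only [Matrix.add_apply, Matrix.sub_apply, Matrix.smul_apply, smul_eq_mul]
      ring
    refine inv_eq_right_inv ?_
    have hde : diagonal (fun i => (d i v : ℂ)) * diagonal (fun i => (e i v : ℂ)) = 1 := by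
      rw [diagonal_mul_diagonal, ← diagonal_one]
      congr 1
      funext i
      rw [← Complex.ofReal_mul]
      simp [he, (hd0 i v hv).ne']
    calc pencil K G v * (V * diagonal (fun i => (e i v : ℂ)) * Vᴴ)
        = Wᴴ * (diagonal (fun i => (d i v : ℂ)) * (W * V) * diagonal (fun i => (e i v : ℂ))) *
            Vᴴ := by rw [hpen]; simp only [Matrix.mul_assoc]
      _ = 1 := by rw [hWV, Matrix.mul_one, hde, Matrix.mul_one, ← conjTranspose_mul,
            nonsing_inv_mul _ hW, conjTranspose_one]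
  have hR : rMat K G = V * (N ⊙ L) * Vᴴ := by
    have hc : ContinuousOn (fun v => (pencil K G v)⁻¹ * (pencil K G v)⁻¹)
        (Set.uIcc (-1 : ℝ) 1) := by
      have h1 : ContinuousOn (fun v => V * diagonal (fun i => (e i v : ℂ)) * Vᴴ)
          (Set.uIcc (-1 : ℝ) 1) := by
        have h2 : ContinuousOn (fun v => fun i => (e i v : ℂ)) (Set.uIcc (-1 : ℝ) 1) :=
          continuousOn_pi.2 fun i => Complex.continuous_ofReal.comp_continuousOn (hec i)
        exact (continuous_const.matrix_mul continuous_id.matrix_diagonal).matrix_mul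
          continuous_const |>.comp_continuousOn h2
      refine (h1.mul h1).congr fun v hv => ?_
      rw [Set.uIcc_of_le (by norm_num)] at hv
      rw [hX v hv]
      rfl
    ext a b
    let φ : Matrix n n ℂ →L[ℝ] ℂ :=
      LinearMap.toContinuousLinearMap
        ({ toFun := fun A => A a b, map_add' := fun _ _ => rfl, map_smul' := fun _ _ => rfl } :
          Matrix n n ℂ →ₗ[ℝ] ℂ)
    have hentry : (∫ v in (-1 : ℝ)..1, (pencil K G v)⁻¹ * (pencil K G v)⁻¹) a b =
        ∫ v in (-1 : ℝ)..1, ((pencil K G v)⁻¹ * (pencil K G v)⁻¹) a b :=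
      (φ.intervalIntegral_comp_comm hc.intervalIntegrable).symm
    have hi : ∀ i j, IntervalIntegrable
        (fun v => ((e i v * e j v : ℝ) : ℂ) * (V a i * N i j * star (V b j))) volume (-1) 1 :=
      fun i j => ((Complex.continuous_ofReal.comp_continuousOn ((hec i).mul (hec j))).mul
        continuousOn_const).intervalIntegrable
    have hi2 : ∀ i, IntervalIntegrable
        (fun v => ∑ j, ((e i v * e j v : ℝ) : ℂ) * (V a i * N i j * star (V b j))) volume (-1) 1 :=
      fun i => (continuousOn_finsetSum _ fun j _ =>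
        (Complex.continuous_ofReal.comp_continuousOn ((hec i).mul (hec j))).mul
          continuousOn_const).intervalIntegrable
    have hv : Set.EqOn (fun v => ((pencil K G v)⁻¹ * (pencil K G v)⁻¹) a b)
        (fun v => ∑ i, ∑ j, ((e i v * e j v : ℝ) : ℂ) * (V a i * N i j * star (V b j)))
        (Set.uIcc (-1 : ℝ) 1) := fun v hv => by
      rw [Set.uIcc_of_le (by norm_num)] at hv
      have h3 : (pencil K G v)⁻¹ * (pencil K G v)⁻¹ = V * (diagonal (fun i => (e i v : ℂ)) * N *
          diagonal (fun i => (e i v : ℂ))) * Vᴴ := by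
        rw [hX v hv, hN]; simp only [Matrix.mul_assoc]
      simp only [h3]
      simp only [mul_apply (M := V * _), mul_apply (M := V), conjTranspose_apply,
        Finset.sum_mul, mul_diagonal, diagonal_mul]
      rw [Finset.sum_comm]
      refine Finset.sum_congr rfl fun i _ => Finset.sum_congr rfl fun j _ => ?_
      push_cast
      ring
    rw [rMat, Matrix.smul_apply, hentry, intervalIntegral.integral_congr hv,
      intervalIntegral.integral_finsetSum fun i _ => hi2 i]
    simp only [mul_apply (M := V * (N ⊙ L)), mul_apply (M := V), conjTranspose_apply,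
      Finset.sum_mul, hadamard_apply]
    rw [Finset.sum_comm, Complex.real_smul, Finset.mul_sum]
    refine Finset.sum_congr rfl fun i _ => ?_
    rw [intervalIntegral.integral_finsetSum (fun j _ => hi i j), Finset.mul_sum]
    refine Finset.sum_congr rfl fun j _ => ?_
    rw [intervalIntegral.integral_mul_const, hL, of_apply, Complex.ofReal_mul,
      ← intervalIntegral.integral_ofReal]
    push_cast
    ring
  -- determinants
  have hVdet : V.det ≠ 0 := by
    rw [hV, det_nonsing_inv]
    simp [hW.ne_zero]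
  have hNp : N.PosDef := PosDef.conjTranspose_mul_self _
    (mulVec_injective_of_isUnit ((isUnit_iff_isUnit_det _).2 (isUnit_iff_ne_zero.2 hVdet)))
  set q := Complex.normSq W.det with hq
  have hq0 : 0 < q := Complex.normSq_pos.2 hW.ne_zero
  have hdetNL : (rMat K G).det.re = q⁻¹ * (N ⊙ L).det.re := by
    rw [hR, det_mul, det_mul, det_conjTranspose, mul_right_comm, Complex.star_def,
      Complex.mul_conj, Complex.re_ofReal_mul, hV, det_nonsing_inv, Ring.inverse_eq_inv',
      Complex.normSq_inv]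
  have hdetN : N.det.re = q⁻¹ := by
    rw [hN, det_mul, det_conjTranspose, Complex.star_def, ← Complex.normSq_eq_conj_mul_self,
      Complex.ofReal_re, hV, det_nonsing_inv, Ring.inverse_eq_inv', Complex.normSq_inv]
  have hopp := det_hadamard_ge hNp hLp
  simp only [hLd, Complex.ofReal_re, hdetN] at hopp
  change q⁻¹ * ∏ i, (τ i)⁻¹ ≤ (N ⊙ L).det.re at hopp
  have hτp : 0 < ∏ i, τ i := Finset.prod_pos fun i _ => hτ i
  have hlow : 0 < q⁻¹ * (q⁻¹ * ∏ i, (τ i)⁻¹) := by
    rw [Finset.prod_inv_distrib]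
    positivity
  have hdP : (K - G).det.re = q := by
    rw [hPW, det_mul, det_conjTranspose, Complex.star_def, ← Complex.normSq_eq_conj_mul_self,
      Complex.ofReal_re]
  have hdQ : (K + G).det.re = q * ∏ i, τ i := by
    rw [hQW, det_mul, det_mul, det_conjTranspose, det_diagonal, ← Complex.ofReal_prod,
      Complex.star_def, mul_right_comm, ← Complex.normSq_eq_conj_mul_self, ← Complex.ofReal_mul,
      Complex.ofReal_re]
  calc -logDet2 K G = Real.log (q⁻¹ * (q⁻¹ * ∏ i, (τ i)⁻¹)) := by
        rw [logDet2, hdP, hdQ, Finset.prod_inv_distrib, ← mul_inv, ← mul_inv, Real.log_inv,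
          Real.log_mul hq0.ne' (mul_pos hq0 hτp).ne']
    _ ≤ _ := by
        rw [hdetNL]
        exact Real.log_le_log hlow (mul_le_mul_of_nonneg_left hopp (inv_nonneg.2 hq0.le))

end Vale.Agent.P371.Gen
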