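import Vale.Agent.P371.Soliton
import Vale.Agent.P371.Gen.Scalar

/-!
The potential `a (a+1) sech²`, `a = γ - 1/2`, attains the one-bound-state constant.
-/

namespace Vale.Agent.P371.Gen

open MeasureTheory Filter Real
open scoped Topology

/-- The extremal potential. -/
noncomputable def optW (a x : ℝ) : ℝ := a * (a + 1) / cosh x ^ 2

/-- Unnormalised ground state. -/
noncomputable def optF (a x : ℝ) : ℝ := cosh x ^ (-a)

/-- Its derivative. -/
noncomputable def optF' (a x : ℝ) : ℝ := -a * (sinh x / cosh x) * optF a x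

lemma continuous_optW (a : ℝ) : Continuous (optW a) :=
  continuous_const.div (continuous_cosh.pow 2) fun x => by positivity

lemma continuous_optF (a : ℝ) : Continuous (optF a) :=
  continuous_cosh.rpow_const fun x => .inl (cosh_pos x).ne'

lemma continuous_optF' (a : ℝ) : Continuous (optF' a) :=
  (continuous_const.mul (continuous_sinh.div continuous_cosh fun x => (cosh_pos x).ne')).mul
    (continuous_optF a)

lemma hasDerivAt_optF (a x : ℝ) : HasDerivAt (optF a) (optF' a x) x := by
  refine ((hasDerivAt_cosh x).rpow_const (p := -a) (.inl (cosh_pos x).ne')).congr_deriv ?_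
  rw [optF', optF, rpow_sub_one (cosh_pos x).ne']
  ring

lemma hasDerivAt_optF' (a x : ℝ) :
    HasDerivAt (optF' a) (a ^ 2 * optF a x - optW a x * optF a x) x := by
  have hc := cosh_pos x
  have h := (((hasDerivAt_sinh x).div (hasDerivAt_cosh x) hc.ne').const_mul (-a)).mul
    (hasDerivAt_optF a x)
  refine h.congr_deriv ?_
  rw [optF', optW]
  simp only [Pi.div_apply]
  field_simp
  linear_combination ((a ^ 2 + a) * optF a x) * sinh_sq x

lemma integrable_optF_sq {a : ℝ} (ha : 0 < a) : Integrable fun x => optF a x ^ 2 := by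
  have hc : 0 < 2 * a := by positivity
  refine ((sech_integral.1.comp_mul_left' hc.ne').const_mul ((2 : ℝ) ^ (2 * a))).mono'
    ((continuous_optF a).pow 2).aestronglyMeasurable (.of_forall fun x => ?_)
  have hx := cosh_pos x
  rw [Real.norm_of_nonneg (sq_nonneg _), optF, ← rpow_natCast, ← rpow_mul hx.le]
  have h1 : cosh (2 * a * x) ≤ (2 * cosh x) ^ (2 * a) := by
    have h2 : exp |x| ≤ 2 * cosh x := by
      rw [cosh_eq]
      rcases abs_cases x with ⟨h, _⟩ | ⟨h, _⟩ <;> rw [h] <;> linarith [exp_pos x, exp_pos (-x)]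
    calc cosh (2 * a * x) = cosh (2 * a * |x|) := by
          rw [← cosh_abs, abs_mul, abs_of_pos hc]
      _ ≤ exp (2 * a * |x|) := by
          rw [cosh_eq]
          linarith [exp_le_exp.2 (show -(2 * a * |x|) ≤ 2 * a * |x| by
            nlinarith [mul_nonneg hc.le (abs_nonneg x)])]
      _ = exp |x| ^ (2 * a) := by rw [← exp_mul]; ring_nf
      _ ≤ _ := rpow_le_rpow (exp_pos _).le h2 hc.le
  rw [mul_rpow zero_le_two hx.le] at h1
  rw [show -a * ((2 : ℕ) : ℝ) = -(2 * a) by push_cast; ring, rpow_neg hx.le, mul_one_div,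
    inv_eq_one_div, div_le_div_iff₀ (rpow_pos_of_pos hx _) (cosh_pos _), one_mul]
  exact h1

lemma optW_rpow {a : ℝ} (ha : 0 < a) (x : ℝ) :
    optW a x ^ (a + 1) = (a * (a + 1)) ^ (a + 1) * ((1 / cosh x ^ 2) ^ (a + 1)) := by
  have := cosh_pos x
  rw [← mul_rpow (by positivity) (by positivity), optW, mul_one_div]

lemma sech_rpow_integral {a : ℝ} (ha : 0 < a) :
    (Integrable fun x => (1 / cosh x ^ 2) ^ (a + 1)) ∧
      ∫ x, (1 / cosh x ^ 2) ^ (a + 1) = betaInt a := by
  set g : ℝ → ℝ := fun u => (1 - u ^ 2) ^ a with hg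
  have hgc : Continuous g := Continuous.rpow_const (by fun_prop) fun u => .inr ha.le
  set G : ℝ → ℝ := fun s => ∫ u in (0 : ℝ)..s, g u with hG
  have hGc : Continuous G := intervalIntegral.continuous_primitive (fun a b => hgc.intervalIntegrable a b) 0
  have hd : ∀ x, HasDerivAt (fun x => G (sinh x / cosh x)) ((1 / cosh x ^ 2) ^ (a + 1)) x := by
    intro x
    have hc := cosh_pos x
    have h1 : HasDerivAt (fun x => sinh x / cosh x) (1 / cosh x ^ 2) x := by
      refine ((hasDerivAt_sinh x).div (hasDerivAt_cosh x) hc.ne').congr_deriv ?_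
      field_simp
      linear_combination -sinh_sq x
    refine ((hgc.integral_hasStrictDerivAt 0 _).hasDerivAt.comp x h1).congr_deriv ?_
    have e : 1 - (sinh x / cosh x) ^ 2 = 1 / cosh x ^ 2 := by
      field_simp
      linear_combination -sinh_sq x
    simp only [hg, e]
    rw [rpow_add_one (by positivity)]
  have key : ∀ l : Filter ℝ, ∀ e : ℝ, Tendsto (fun x => sinh x / cosh x) l (𝓝 e) →
      Tendsto (fun x => G (sinh x / cosh x)) l (𝓝 (G e)) :=
    fun l e h => (hGc.tendsto e).comp h
  have htop : Tendsto (fun x => sinh x / cosh x) atTop (𝓝 1) := by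
    have h : Tendsto (fun x => 1 - exp (-x) / cosh x) atTop (𝓝 (1 - 0)) :=
      tendsto_const_nhds.sub ((tendsto_exp_atBot.comp tendsto_neg_atTop_atBot).div_atTop
        tendsto_cosh_atTop')
    rw [sub_zero] at h
    refine h.congr fun x => ?_
    rw [eq_div_iff (cosh_pos x).ne', sub_mul, one_mul, div_mul_cancel₀ _ (cosh_pos x).ne',
      ← cosh_sub_sinh]
    ring
  have hbot : Tendsto (fun x => sinh x / cosh x) atBot (𝓝 (-1)) := by
    refine ((htop.comp tendsto_neg_atBot_atTop).neg).congr fun x => ?_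
    simp only [Function.comp_apply, sinh_neg, cosh_neg]
    ring
  have h := integral_of_hasDerivAt_of_nonneg hd
    (Continuous.rpow_const (continuous_const.div (continuous_cosh.pow 2) fun x => by positivity)
      fun x => .inr (by positivity)) (fun x => rpow_nonneg (by positivity) _)
    (key _ _ htop) (key _ _ hbot)
  refine ⟨h.1, h.2.trans ?_⟩
  rw [hG, betaInt]
  simp only [hg]
  rw [intervalIntegral.integral_interval_sub_left (hgc.intervalIntegrable _ _)
    (hgc.intervalIntegrable _ _)]

lemma orbital_optF {a : ℝ} (ha : 0 < a) (c : ℝ) :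
    Orbital (fun x => ((c * optF a x : ℝ) : ℂ)) (fun x => ((c * optF' a x : ℝ) : ℂ)) := by
  have hf : Continuous fun x => ((c * optF a x : ℝ) : ℂ) :=
    Complex.continuous_ofReal.comp (continuous_const.mul (continuous_optF a))
  have hf' : Continuous fun x => ((c * optF' a x : ℝ) : ℂ) :=
    Complex.continuous_ofReal.comp (continuous_const.mul (continuous_optF' a))
  have h2 : Integrable fun x => ‖((c * optF a x : ℝ) : ℂ)‖ ^ 2 := by
    simp only [Complex.norm_real, Real.norm_eq_abs, sq_abs, mul_pow]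
    exact (integrable_optF_sq ha).const_mul _
  refine ⟨(memLp_two_iff_integrable_sq_norm hf.aestronglyMeasurable).2 h2,
    (memLp_two_iff_integrable_sq_norm hf'.aestronglyMeasurable).2 ?_, fun s t => ?_⟩
  · refine (h2.const_mul (a ^ 2)).mono' (hf'.norm.pow 2).aestronglyMeasurable
      (.of_forall fun x => ?_)
    simp only [Complex.norm_real, Real.norm_eq_abs, sq_abs, abs_pow]
    rw [optF', ← mul_one (a ^ 2 * (c * optF a x) ^ 2)]
    calc (c * (-a * (sinh x / cosh x) * optF a x)) ^ 2
        = a ^ 2 * (c * optF a x) ^ 2 * (sinh x / cosh x) ^ 2 := by ring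
      _ ≤ _ := by
          gcongr
          exact (sq_le_one_iff_abs_le_one _).2 (abs_sinh_div_cosh_le x)
  · exact (intervalIntegral.integral_eq_sub_of_hasDerivAt
      (fun x _ => ((hasDerivAt_optF a x).const_mul c).ofReal_comp)
      (hf'.intervalIntegrable s t)).symm

lemma isBoundState_optF {a : ℝ} (ha : 0 < a) (c : ℝ) :
    IsBoundState (optW a) (-a ^ 2) fun x => ((c * optF a x : ℝ) : ℂ) := by
  refine ⟨_, orbital_optF ha c, fun η η' h => ?_⟩
  obtain ⟨i1, i2, i3⟩ := h.conj.integrable_mul (orbital_optF ha c)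
  have hW : Integrable fun x => (optW a x : ℂ) * (star (η x) * ((c * optF a x : ℝ) : ℂ)) := by
    refine (i1.norm.const_mul (a * (a + 1))).mono'
      ((Complex.continuous_ofReal.comp (continuous_optW a)).aestronglyMeasurable.mul i1.1)
      (.of_forall fun x => ?_)
    rw [norm_mul, Complex.norm_real, Real.norm_eq_abs]
    refine mul_le_mul_of_nonneg_right ?_ (norm_nonneg _)
    have := cosh_pos x
    rw [optW, abs_of_pos (by positivity)]
    exact div_le_self (by positivity) (one_le_pow₀ (one_le_cosh x))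
  have hg : Integrable fun x =>
      star (η x) * ((c * (a ^ 2 * optF a x - optW a x * optF a x) : ℝ) : ℂ) :=
    ((i1.const_mul ((a : ℂ) ^ 2)).sub hW).congr (.of_forall fun x => by
      simp only [Pi.sub_apply]; push_cast; ring)
  have h0 := h.conj.ibp_line (fun x => (hasDerivAt_optF' a x).const_mul c)
    (continuous_const.mul ((continuous_const.mul (continuous_optF a)).sub
      ((continuous_optW a).mul (continuous_optF a)))) i2 hg i3
  have e : ∫ x, star (η x) * ((c * (a ^ 2 * optF a x - optW a x * optF a x) : ℝ) : ℂ)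
      = (a : ℂ) ^ 2 * (∫ x, star (η x) * ((c * optF a x : ℝ) : ℂ))
        - ∫ x, (optW a x : ℂ) * (star (η x) * ((c * optF a x : ℝ) : ℂ)) := by
    rw [← integral_const_mul, ← integral_sub (i1.const_mul _) hW]
    exact integral_congr_ae (.of_forall fun x => by push_cast; ring)
  rw [e] at h0
  push_cast at h0 ⊢
  linear_combination h0

/-- The optimiser attains `a^a / (p^p B(a))`, `a = γ - 1/2`, `p = γ + 1/2`. -/
theorem opt_mem_ratios {γ : ℝ} (hγ : 1 / 2 < γ) :
    (γ - 1 / 2) ^ (γ - 1 / 2) / ((γ + 1 / 2) ^ (γ + 1 / 2) * betaInt (γ - 1 / 2)) ∈ ratios γ := by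
  obtain ⟨a, ha, rfl⟩ : ∃ a, 0 < a ∧ γ = a + 1 / 2 := ⟨γ - 1 / 2, by linarith, by ring⟩
  simp only [add_sub_cancel_right, add_assoc, add_halves]
  obtain ⟨hint, hval⟩ := sech_rpow_integral ha
  have hWi : Integrable fun x => optW a x ^ (a + 1 / 2 + 1 / 2) := by
    simp only [add_assoc, add_halves, optW_rpow ha]
    exact hint.const_mul _
  have hWv : ∫ x, optW a x ^ (a + 1 / 2 + 1 / 2) = (a * (a + 1)) ^ (a + 1) * betaInt a := by
    simp only [add_assoc, add_halves, optW_rpow ha]
    rw [integral_const_mul, hval]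
  have hB : 0 < betaInt a := by
    rw [← hval]
    refine (integral_pos_iff_support_of_nonneg (fun x => rpow_nonneg (by positivity) _) hint).2 ?_
    have : Function.support (fun x => (1 / cosh x ^ 2) ^ (a + 1)) = Set.univ :=
      Set.eq_univ_of_forall fun x => (rpow_pos_of_pos (by positivity) _).ne'
    rw [this]; simp
  set N := ∫ x, optF a x ^ 2 with hN
  have hNp : 0 < N := by
    refine (integral_pos_iff_support_of_nonneg (fun x => sq_nonneg _) (integrable_optF_sq ha)).2 ?_
    have : Function.support (fun x => optF a x ^ 2) = Set.univ :=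
      Set.eq_univ_of_forall fun x => (pow_pos (rpow_pos_of_pos (cosh_pos x) _) 2).ne'
    rw [this]; simp
  refine ⟨optW a, ⟨(continuous_optW a).measurable, fun x => by unfold optW; positivity, hWi⟩, ?_,
    1, fun _ => -a ^ 2, fun _ x => (((√N)⁻¹ * optF a x : ℝ) : ℂ),
    fun _ => ⟨by nlinarith, isBoundState_optF ha _⟩, fun i j => ?_, ?_⟩
  · rw [hWv]; positivity
  · rw [Subsingleton.elim i j, if_pos rfl]
    have e : ∀ x, star (((√N)⁻¹ * optF a x : ℝ) : ℂ) * (((√N)⁻¹ * optF a x : ℝ) : ℂ)
        = ((N⁻¹ * optF a x ^ 2 : ℝ) : ℂ) := fun x => by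
      rw [Complex.star_def, Complex.conj_ofReal, ← Complex.ofReal_mul, ← sq, mul_pow, inv_pow,
        sq_sqrt hNp.le]
    rw [integral_congr_ae (.of_forall e), integral_complex_ofReal, integral_const_mul, ← hN,
      inv_mul_cancel₀ hNp.ne', Complex.ofReal_one]
  · rw [hWv, Finset.sum_const, Finset.card_univ, Fintype.card_fin, one_smul, abs_neg,
      abs_of_pos (pow_pos ha 2), ← rpow_natCast, ← rpow_mul ha.le, mul_rpow ha.le (by positivity),
      show ((2 : ℕ) : ℝ) * (a + 1 / 2) = a + (a + 1) by push_cast; ring, rpow_add ha]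
    field_simp

/-- The one-bound-state constant is a Lieb-Thirring ratio. -/
theorem L1_mem_ratios {γ : ℝ} (hγ : 1 / 2 < γ) : L1 γ ∈ ratios γ :=
  L1_eq hγ ▸ opt_mem_ratios hγ

end Vale.Agent.P371.Gen
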