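import Vale.Agent.P371.Gen.PotentialAlg

/-!
From the inequality for smooth compactly supported orbitals and continuous potentials to weak
bound states of `L^p` matrix potentials.
-/

namespace Vale.Agent.P371.Gen

open MeasureTheory Matrix Real Filter
open scoped Matrix.Norms.Frobenius ComplexOrder Topology Convolution

/-- The sharp inequality for compressions to compactly supported `C¹` orbitals, for all numbers
of orbitals. -/
def CompressionBound (γ : ℝ) (m : ℕ) : Prop :=
  ∀ (N : ℕ) {x₀ x₁ : ℝ}, x₀ < x₁ → ∀ {W : ℝ → Matrix (Fin m) (Fin m) ℂ},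
    ContinuousOn W (Set.Icc x₀ x₁) → (∀ x ∈ Set.Icc x₀ x₁, (W x).PosSemidef) →
    ∀ {Ψ Ψ' : ℝ → Matrix (Fin m) (Fin N) ℂ},
    (∀ x ∈ Set.Icc x₀ x₁, HasDerivWithinAt Ψ (Ψ' x) (Set.Icc x₀ x₁) x) →
    ContinuousOn Ψ' (Set.Icc x₀ x₁) → Ψ x₀ = 0 → Ψ x₁ = 0 →
    (∫ x in x₀..x₁, (Ψ x)ᴴ * Ψ x) = 1 →
    (∫ x in x₀..x₁, ((Ψ x)ᴴ * W x * Ψ x - (Ψ' x)ᴴ * Ψ' x)).PosDef →
    rtr (mpow (∫ x in x₀..x₁, ((Ψ x)ᴴ * W x * Ψ x - (Ψ' x)ᴴ * Ψ' x)) γ) ≤
      L1 γ * ∫ x in x₀..x₁, rtr (mpow (W x) (γ + 1 / 2))

variable {m N : ℕ}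

/-- The orbitals as a matrix valued function. -/
def orbMat (ψ : Fin N → Fin m → ℝ → ℂ) (x : ℝ) : Matrix (Fin m) (Fin N) ℂ :=
  Matrix.of fun a i => ψ i a x

/-- The Gram matrix. -/
noncomputable def gramMat (ψ : Fin N → Fin m → ℝ → ℂ) : Matrix (Fin N) (Fin N) ℂ :=
  Matrix.of fun i j => ∫ x, ∑ a, star (ψ i a x) * ψ j a x

/-- The potential term. -/
noncomputable def potMat (W : ℝ → Matrix (Fin m) (Fin m) ℂ) (ψ : Fin N → Fin m → ℝ → ℂ) :
    Matrix (Fin N) (Fin N) ℂ :=
  Matrix.of fun i j => ∫ x, ∑ a, ∑ b, star (ψ i a x) * W x a b * ψ j b x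

lemma isHermitian_gramMat (ψ : Fin N → Fin m → ℝ → ℂ) : (gramMat ψ).IsHermitian := by
  ext i j
  simp only [gramMat, conjTranspose_apply, of_apply, Complex.star_def, ← integral_conj, map_sum,
    map_mul, Complex.conj_conj]
  exact integral_congr_ae (.of_forall fun x => Finset.sum_congr rfl fun a _ => mul_comm _ _)

lemma isHermitian_potMat {W : ℝ → Matrix (Fin m) (Fin m) ℂ} (hW : ∀ x, (W x).IsHermitian)
    (ψ : Fin N → Fin m → ℝ → ℂ) : (potMat W ψ).IsHermitian := by
  ext i j
  simp only [potMat, conjTranspose_apply, of_apply, Complex.star_def, ← integral_conj, map_sum,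
    map_mul, Complex.conj_conj]
  refine integral_congr_ae (.of_forall fun x => ?_)
  dsimp only
  rw [Finset.sum_comm]
  refine Finset.sum_congr rfl fun a _ => Finset.sum_congr rfl fun b _ => ?_
  rw [show (starRingEnd ℂ) (W x b a) = W x a b from (hW x).apply a b]
  ring

lemma intervalIntegral_matrix_apply {κ : Type} [Fintype κ] [DecidableEq κ]
    {F : ℝ → Matrix κ κ ℂ} {a b : ℝ} (hF : Continuous F) (i j : κ) :
    (∫ x in a..b, F x) i j = ∫ x in a..b, F x i j :=
  ((LinearMap.toContinuousLinearMap (Matrix.entryLinearMap ℝ ℂ i j :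
    Matrix κ κ ℂ →ₗ[ℝ] ℂ)).intervalIntegral_comp_comm (hF.intervalIntegrable _ _)).symm

lemma intervalIntegral_sandwich {κ : Type} [Fintype κ] [DecidableEq κ] (S : Matrix κ κ ℂ)
    {F : ℝ → Matrix κ κ ℂ} {a b : ℝ} (hF : Continuous F) :
    ∫ x in a..b, S * F x * S = S * (∫ x in a..b, F x) * S :=
  (LinearMap.toContinuousLinearMap
    ((LinearMap.mulRight ℝ S).comp (LinearMap.mulLeft ℝ S))).intervalIntegral_comp_comm
    (hF.intervalIntegrable _ _)

lemma integral_eq_intervalIntegral {f : ℝ → ℂ} {a b : ℝ} (hab : a ≤ b)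
    (h : ∀ x, x ∉ Set.Ioc a b → f x = 0) : ∫ x, f x = ∫ x in a..b, f x := by
  rw [intervalIntegral.integral_of_le hab, setIntegral_eq_integral_of_forall_compl_eq_zero h]

/-- Smooth compactly supported orbitals, continuous potential. -/
lemma goodPair_smooth {γ : ℝ} (hγ : 1 / 2 < γ) (hcb : CompressionBound γ m)
    {W : ℝ → Matrix (Fin m) (Fin m) ℂ} (hW : Continuous W) (hWp : ∀ x, (W x).PosSemidef)
    {ψ ψ' : Fin N → Fin m → ℝ → ℂ} (hd : ∀ i a x, HasDerivAt (ψ i a) (ψ' i a x) x)
    (hc : ∀ i a, Continuous (ψ' i a)) {L : ℝ} (hL : 0 ≤ L)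
    (hsupp : ∀ i a x, L < |x| → ψ i a x = 0) {B : ℝ}
    (hB : ∫ x in (-(L + 1))..(L + 1), rtr (mpow (W x) (γ + 1 / 2)) ≤ B) :
    GoodPair γ (L1 γ * B) (gramMat ψ) (potMat W ψ - gramMat ψ') := by
  intro hG hA
  set S := mpow (gramMat ψ) (-(1 / 2)) with hS
  have hSh : Sᴴ = S := (isHermitian_mpow _ _).eq
  have hψc : ∀ i a, Continuous (ψ i a) := fun i a =>
    continuous_iff_continuousAt.2 fun x => (hd i a x).continuousAt
  have hsupp' : ∀ i a x, L < |x| → ψ' i a x = 0 := by
    intro i a x hx
    refine (hd i a x).unique ((hasDerivAt_const x (0 : ℂ)).congr_of_eventuallyEq ?_)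
    exact ((continuous_abs.tendsto x).eventually_const_lt hx).mono fun y hy => hsupp i a y hy
  have hle : -(L + 1) ≤ L + 1 := by linarith
  set A : ℝ → Matrix (Fin m) (Fin N) ℂ := orbMat ψ with hAdef
  set A' : ℝ → Matrix (Fin m) (Fin N) ℂ := orbMat ψ' with hA'def
  have hWe : ∀ a b, Continuous fun x => W x a b := fun a b => hW.matrix_elem a b
  have hc1 : Continuous fun x => (A x)ᴴ * A x := by
    refine continuous_matrix fun i j => ?_
    simp only [hAdef, orbMat, mul_apply, conjTranspose_apply, of_apply]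
    exact continuous_finsetSum _ fun a _ => (hψc i a).star.mul (hψc j a)
  have hc2 : Continuous fun x => (A x)ᴴ * W x * A x - (A' x)ᴴ * A' x := by
    refine continuous_matrix fun i j => ?_
    simp only [hAdef, hA'def, orbMat, Matrix.sub_apply, mul_apply, conjTranspose_apply, of_apply]
    exact (continuous_finsetSum _ fun b _ => (continuous_finsetSum _ fun a _ =>
      (hψc i a).star.mul (hWe a b)).mul (hψc j b)).sub
      (continuous_finsetSum _ fun a _ => (hc i a).star.mul (hc j a))
  have hz : ∀ x, x ∉ Set.Ioc (-(L + 1)) (L + 1) → L < |x| := by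
    intro x hx
    rw [Set.mem_Ioc, not_and_or, not_lt, not_le] at hx
    rcases hx with h | h
    · linarith [neg_le_abs x]
    · linarith [le_abs_self x]
  have e1 : ∫ x in (-(L + 1))..(L + 1), (A x)ᴴ * A x = gramMat ψ := by
    ext i j
    rw [intervalIntegral_matrix_apply hc1, gramMat, of_apply,
      integral_eq_intervalIntegral hle fun x hx => Finset.sum_eq_zero fun a _ => by
        rw [hsupp j a x (hz x hx), mul_zero]]
    simp only [hAdef, orbMat, mul_apply, conjTranspose_apply, of_apply]
  have e2 : ∫ x in (-(L + 1))..(L + 1), ((A x)ᴴ * W x * A x - (A' x)ᴴ * A' x)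
      = potMat W ψ - gramMat ψ' := by
    ext i j
    rw [intervalIntegral_matrix_apply hc2, Matrix.sub_apply, potMat,
      gramMat, of_apply, of_apply,
      integral_eq_intervalIntegral hle fun x hx => Finset.sum_eq_zero fun a _ =>
        Finset.sum_eq_zero fun b _ => by rw [hsupp j b x (hz x hx), mul_zero],
      integral_eq_intervalIntegral hle fun x hx => Finset.sum_eq_zero fun a _ => by
        rw [hsupp' j a x (hz x hx), mul_zero],
      ← intervalIntegral.integral_sub (f := fun x => ∑ a, ∑ b, star (ψ i a x) * W x a b * ψ j b x)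
        (g := fun x => ∑ a, star (ψ' i a x) * ψ' j a x)
        ((continuous_finsetSum _ fun a _ => continuous_finsetSum _ fun b _ =>
          ((hψc i a).star.mul (hWe a b)).mul (hψc j b)).intervalIntegrable _ _)
        ((continuous_finsetSum _ fun a _ => (hc i a).star.mul (hc j a)).intervalIntegrable _ _)]
    refine intervalIntegral.integral_congr fun x _ => ?_
    simp only [hAdef, hA'def, orbMat, Matrix.sub_apply, mul_apply, conjTranspose_apply, of_apply,
      Finset.sum_mul]
    rw [Finset.sum_comm]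
  have hder : ∀ x, HasDerivAt (fun y => A y * S) (A' x * S) x := by
    intro x
    refine hasDerivAt_pi.2 fun a => hasDerivAt_pi.2 fun j => ?_
    simp only [hAdef, hA'def, orbMat, mul_apply, of_apply]
    exact HasDerivAt.fun_sum fun i _ => (hd i a x).mul_const _
  have hzero : ∀ x, x = -(L + 1) ∨ x = L + 1 → A x * S = 0 := by
    intro x hx
    have h0 : A x = 0 := by
      ext a i
      refine hsupp i a x ?_
      rcases hx with rfl | rfl
      · linarith [neg_le_abs (-(L + 1))]
      · linarith [le_abs_self (L + 1)]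
    rw [h0, Matrix.zero_mul]
  have hcont' : Continuous fun x => A' x * S := by
    refine continuous_matrix fun a j => ?_
    simp only [hA'def, orbMat, mul_apply, of_apply]
    exact continuous_finsetSum _ fun i _ => (hc i a).mul continuous_const
  have key := hcb N (x₀ := -(L + 1)) (x₁ := L + 1) (by linarith) (W := W) hW.continuousOn
    (fun x _ => hWp x) (Ψ := fun x => A x * S) (Ψ' := fun x => A' x * S)
    (fun x _ => (hder x).hasDerivWithinAt) hcont'.continuousOn (hzero _ (.inl rfl))
    (hzero _ (.inr rfl)) ?_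
  swap
  · rw [show (fun x => (A x * S)ᴴ * (A x * S)) = fun x => S * ((A x)ᴴ * A x) * S from
      funext fun x => by simp only [conjTranspose_mul, hSh, Matrix.mul_assoc],
      intervalIntegral_sandwich S hc1, e1]
    exact whiten hG
  have e3 : ∫ x in (-(L + 1))..(L + 1),
      ((A x * S)ᴴ * W x * (A x * S) - (A' x * S)ᴴ * (A' x * S))
      = S * (potMat W ψ - gramMat ψ') * S := by
    rw [← e2, ← intervalIntegral_sandwich S hc2]
    refine intervalIntegral.integral_congr fun x _ => ?_
    simp only [conjTranspose_mul, hSh, Matrix.mul_sub, Matrix.sub_mul, Matrix.mul_assoc]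
  rw [e3] at key
  refine (key (posDef_whitened hG hA)).trans (mul_le_mul_of_nonneg_left hB ?_)
  have : 0 < Gamma (γ + 1) := Gamma_pos_of_pos (by linarith)
  have : 0 < Gamma (γ + 3 / 2) := Gamma_pos_of_pos (by linarith)
  have : 0 ≤ (γ - 1 / 2) / (γ + 1 / 2) := div_nonneg (by linarith) (by linarith)
  unfold L1
  positivity

lemma trace_le_card_add {κ : Type} [Fintype κ] [DecidableEq κ] {M : Matrix κ κ ℂ}
    (hM : M.PosSemidef) {p : ℝ} (hp : 1 ≤ p) :
    (trace M).re ≤ Fintype.card κ + eigPow M p := by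
  rw [eigPow_eq hM.1, hM.1.trace_eq_sum_eigenvalues, Complex.re_sum]
  calc ∑ a, ((hM.1.eigenvalues a : ℝ) : ℂ).re ≤ ∑ a, (1 + hM.1.eigenvalues a ^ p) :=
        Finset.sum_le_sum fun a _ => by
          rw [Complex.ofReal_re]
          rcases le_or_gt (hM.1.eigenvalues a) 1 with h | h
          · linarith [rpow_nonneg (hM.eigenvalues_nonneg a) p]
          · linarith [self_le_rpow_of_one_le h.le hp]
    _ = _ := by rw [Finset.sum_add_distrib]; simp

section General

variable {γ : ℝ} {W : ℝ → Matrix (Fin m) (Fin m) ℂ}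

lemma locallyIntegrable_entry (hW : MatPotential m γ W) (hγ : 1 / 2 ≤ γ) (a b : Fin m) :
    LocallyIntegrable fun x => W x a b := by
  refine locallyIntegrable_iff.2 fun K hK => ?_
  refine Integrable.mono' ((continuous_const (y := (Fintype.card (Fin m) : ℝ))).continuousOn.integrableOn_compact
      hK |>.add hW.int.integrableOn) (hW.meas a b).aestronglyMeasurable (.of_forall fun x => ?_)
  rw [Pi.add_apply]
  exact (norm_apply_le_trace (hW.posSemidef x) a b).trans
    (trace_le_card_add (hW.posSemidef x) (by linarith))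

/-- An `H¹` function is bounded. -/
lemma Orbital.norm_sq_le {u u' : ℝ → ℂ} (h : Orbital u u') (x : ℝ) :
    ‖u x‖ ^ 2 ≤ (∫ t, ‖u t‖ ^ 2) + ∫ t, ‖u' t‖ ^ 2 := by
  refine le_of_tendsto' (((tendsto_moll h.continuous x).norm).pow 2) fun k => ?_
  set f := fun y => moll k u y with hf
  obtain ⟨hi1, hle1⟩ := integrable_norm_moll_sq k h.continuous.locallyIntegrable h.sq
  obtain ⟨hi2, hle2⟩ := integrable_norm_moll_sq k h.locallyIntegrable h.sq'
  have hc1 := continuous_moll k h.continuous.locallyIntegrable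
  have hc2 := continuous_moll k h.locallyIntegrable
  set g := fun y => 2 * inner ℝ (moll k u y) (moll k u' y) with hg
  have hgd : ∀ y, HasDerivAt (fun y => ‖moll k u y‖ ^ 2) (g y) y := fun y =>
    (h.hasDerivAt_moll k y).norm_sq
  have hb : ∀ y, ‖g y‖ ≤ ‖moll k u y‖ ^ 2 + ‖moll k u' y‖ ^ 2 := fun y => by
    rw [hg, Real.norm_eq_abs, abs_mul, abs_two]
    nlinarith [abs_real_inner_le_norm (moll k u y) (moll k u' y),
      two_mul_le_add_sq ‖moll k u y‖ ‖moll k u' y‖]
  have hgi : Integrable g :=
    (hi1.add hi2).mono' (continuous_const.mul (hc1.inner hc2)).aestronglyMeasurable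
      (.of_forall hb)
  have h0 := tendsto_zero_of_hasDerivAt_of_integrableOn_Iic (a := x) (fun y _ => hgd y)
    hgi.integrableOn hi1.integrableOn
  have e := integral_Iic_of_hasDerivAt_of_tendsto' (fun y _ => hgd y) hgi.integrableOn h0 (a := x)
  rw [sub_zero] at e
  rw [← e]
  calc ∫ y in Set.Iic x, g y ≤ ∫ y in Set.Iic x, (‖moll k u y‖ ^ 2 + ‖moll k u' y‖ ^ 2) :=
        setIntegral_mono_on hgi.integrableOn (hi1.add hi2).integrableOn measurableSet_Iic
          fun y _ => le_trans (le_abs_self _) (hb y)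
    _ ≤ ∫ y, (‖moll k u y‖ ^ 2 + ‖moll k u' y‖ ^ 2) :=
        setIntegral_le_integral (hi1.add hi2) (.of_forall fun y => by positivity)
    _ ≤ _ := by rw [integral_add hi1 hi2]; linarith

lemma integrable_potTerm (hW : MatPotential m γ W) (hγ : 1 / 2 ≤ γ) {u u' v v' : ℝ → ℂ}
    (hu : Orbital u u') (hv : Orbital v v') (a b : Fin m) :
    Integrable fun x => ‖W x a b‖ * (‖u x‖ * ‖v x‖) := by
  set B := ((∫ t, ‖u t‖ ^ 2) + ∫ t, ‖u' t‖ ^ 2) + ((∫ t, ‖v t‖ ^ 2) + ∫ t, ‖v' t‖ ^ 2) with hB
  refine ((((hu.sq.add hv.sq)).const_mul (Fintype.card (Fin m) : ℝ)).add (hW.int.const_mul B)).mono'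
    ((hW.meas a b).aestronglyMeasurable.norm.mul
      (hu.continuous.norm.mul hv.continuous.norm).aestronglyMeasurable) (.of_forall fun x => ?_)
  have h1 : ‖u x‖ * ‖v x‖ ≤ ‖u x‖ ^ 2 + ‖v x‖ ^ 2 := by
    nlinarith [two_mul_le_add_sq ‖u x‖ ‖v x‖]
  have h2 : ‖u x‖ * ‖v x‖ ≤ B := by
    linarith [Orbital.norm_sq_le hu x, Orbital.norm_sq_le hv x]
  have h3 := (norm_apply_le_trace (hW.posSemidef x) a b).trans
    (trace_le_card_add (hW.posSemidef x) (show 1 ≤ γ + 1 / 2 by linarith))
  have h4 := eigPow_nonneg (hW.posSemidef x) (γ + 1 / 2)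
  rw [Real.norm_of_nonneg (by positivity)]
  simp only [Pi.add_apply]
  nlinarith [mul_le_mul_of_nonneg_right h3 (show 0 ≤ ‖u x‖ * ‖v x‖ by positivity),
    mul_le_mul_of_nonneg_left h2 h4,
    mul_le_mul_of_nonneg_left h1 (Nat.cast_nonneg' (α := ℝ) (Fintype.card (Fin m)))]

/-- The mollified potential. -/
noncomputable def mollW (k : ℕ) (W : ℝ → Matrix (Fin m) (Fin m) ℂ) (x : ℝ) :
    Matrix (Fin m) (Fin m) ℂ :=
  Matrix.of fun a b => moll k (fun t => W t a b) x

lemma continuous_mollW (hW : MatPotential m γ W) (hγ : 1 / 2 ≤ γ) (k : ℕ) :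
    Continuous (mollW k W) :=
  continuous_matrix fun a b => continuous_moll k (locallyIntegrable_entry hW hγ a b)

lemma posSemidef_mollW (hW : MatPotential m γ W) (hγ : 1 / 2 ≤ γ) (k : ℕ) (x : ℝ) :
    (mollW k W x).PosSemidef := by
  have hI : ∀ a b, Integrable fun t => ((bump k).normed volume (x - t) : ℂ) * W t a b :=
    fun a b => (integrable_bump_mul k x (locallyIntegrable_entry hW hγ a b) :).congr
      (.of_forall fun t => Complex.real_smul)
  have hh : (mollW k W x).IsHermitian := by
    ext a b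
    simp only [mollW, conjTranspose_apply, of_apply, moll_apply, Complex.star_def, ← integral_conj,
      map_mul, Complex.conj_ofReal]
    refine integral_congr_ae (.of_forall fun t => ?_)
    dsimp only
    rw [show (starRingEnd ℂ) (W t b a) = W t a b from (hW.posSemidef t).1.apply a b]
  refine PosSemidef.of_dotProduct_mulVec_nonneg hh fun v => ?_
  have e : star v ⬝ᵥ (mollW k W x *ᵥ v) = ((∫ t, (bump k).normed volume (x - t)
      * (star v ⬝ᵥ (W t *ᵥ v)).re : ℝ) : ℂ) := by
    rw [← integral_complex_ofReal]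
    have hre : ∀ t, (((star v ⬝ᵥ (W t *ᵥ v)).re : ℝ) : ℂ) = star v ⬝ᵥ (W t *ᵥ v) := fun t => by
      refine Complex.ext (by simp) ?_
      rw [Complex.ofReal_im]
      exact (Complex.nonneg_iff.1 ((hW.posSemidef t).dotProduct_mulVec_nonneg v)).2
    simp only [Complex.ofReal_mul, hre]
    simp only [dotProduct, mulVec, mollW, of_apply, moll_apply, Pi.star_apply, Finset.mul_sum]
    have hI2 : ∀ a b, Integrable fun t =>
        ((bump k).normed volume (x - t) : ℂ) * (star (v a) * (W t a b * v b)) := fun a b =>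
      (((hI a b).mul_const (v b)).const_mul (star (v a))).congr (.of_forall fun t => by ring)
    rw [integral_finsetSum _ fun a _ => integrable_finsetSum _ fun b _ => hI2 a b]
    refine Finset.sum_congr rfl fun a _ => ?_
    rw [integral_finsetSum _ fun b _ => hI2 a b]
    refine Finset.sum_congr rfl fun b _ => ?_
    rw [← integral_mul_const, ← integral_const_mul]
    exact integral_congr_ae (.of_forall fun t => by ring)
  rw [e]
  refine Complex.zero_le_real.2 (integral_nonneg fun t => mul_nonneg ((bump k).nonneg_normed _) ?_)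
  exact (hW.posSemidef t).re_dotProduct_nonneg v

lemma rtr_mollW_le (hW : MatPotential m γ W) (hγ : 1 / 2 ≤ γ) (k : ℕ) (x : ℝ) :
    rtr (mpow (mollW k W x) (γ + 1 / 2))
      ≤ ∫ t, (bump k).normed volume (x - t) * eigPow (W t) (γ + 1 / 2) := by
  set p := γ + 1 / 2 with hp
  set V := mollW k W x with hV
  set Y := mpow V (p - 1) with hY
  have hVp := posSemidef_mollW hW hγ k x
  have hI : ∀ a b, Integrable fun t => ((bump k).normed volume (x - t) : ℂ) * W t a b :=
    fun a b => (integrable_bump_mul k x (locallyIntegrable_entry hW hγ a b) :).congr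
      (.of_forall fun t => Complex.real_smul)
  have hI2 : ∀ a b, Integrable fun t =>
      ((bump k).normed volume (x - t) : ℂ) * W t a b * Y b a := fun a b => (hI a b).mul_const _
  have hsum : Integrable fun t => ∑ a, ∑ b,
      ((bump k).normed volume (x - t) : ℂ) * W t a b * Y b a :=
    integrable_finsetSum _ fun a _ => integrable_finsetSum _ fun b _ => hI2 a b
  have hlin : rtr (V * Y) = ∫ t, (bump k).normed volume (x - t) * rtr (W t * Y) := by
    have e : ∀ t, (bump k).normed volume (x - t) * rtr (W t * Y)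
        = (∑ a, ∑ b, ((bump k).normed volume (x - t) : ℂ) * W t a b * Y b a).re := fun t => by
      simp only [rtr, trace, Matrix.diag, mul_apply, mul_assoc, ← Finset.mul_sum,
        Complex.re_ofReal_mul]
    simp only [e]
    refine Eq.trans ?_ (integral_re hsum).symm
    rw [rtr]
    change Complex.re _ = Complex.re _
    congr 1
    simp only [trace, Matrix.diag, mul_apply, hV, mollW, of_apply, moll_apply]
    rw [integral_finsetSum _ fun a _ => integrable_finsetSum _ fun b _ => hI2 a b]
    refine Finset.sum_congr rfl fun a _ => ?_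
    rw [integral_finsetSum _ fun b _ => hI2 a b]
    exact Finset.sum_congr rfl fun b _ => (integral_mul_const _ _).symm
  have hh : Integrable fun t => (bump k).normed volume (x - t) * eigPow (W t) p :=
    (integrable_bump_mul k x hW.int.locallyIntegrable :)
  have h1 : Integrable fun t => (bump k).normed volume (x - t) := (bump k).integrable_normed.comp_sub_left x
  have hone : ∫ t, (bump k).normed volume (x - t) = 1 := by
    rw [integral_sub_left_eq_self]; exact (bump k).integral_normed
  have hWY : Integrable fun t => (bump k).normed volume (x - t) * rtr (W t * Y) := by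
    refine hsum.re.congr (.of_forall fun t => ?_)
    simp only [rtr, trace, Matrix.diag, mul_apply, mul_assoc, ← Finset.mul_sum]
    exact Complex.re_ofReal_mul _ _
  have hineq : p * rtr (V * Y) ≤ (∫ t, (bump k).normed volume (x - t) * eigPow (W t) p)
      + (p - 1) * rtr (mpow V p) := by
    rw [hlin, ← integral_const_mul]
    refine (integral_mono (hWY.const_mul p)
      (hh.add (h1.mul_const ((p - 1) * rtr (mpow V p)))) fun t => ?_).trans (le_of_eq ?_)
    · rw [Pi.add_apply, eigPow_eq_rtr_mpow (hW.posSemidef t).1]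
      have := mul_le_mul_of_nonneg_left
        (rtr_mul_mpow_le (hW.posSemidef t) hVp (show 1 ≤ p by linarith))
        ((bump k).nonneg_normed (μ := volume) (x - t))
      linarith
    · simp only [Pi.add_apply]
      rw [integral_add hh (h1.mul_const _), integral_mul_const, hone, one_mul]
  rw [hY, mpow_mul_self hVp (by linarith : 0 < p)] at hineq
  linarith

lemma integral_mollW_le (hW : MatPotential m γ W) (hγ : 1 / 2 ≤ γ) (k : ℕ) {a b : ℝ}
    (hab : a ≤ b) : ∫ x in a..b, rtr (mpow (mollW k W x) (γ + 1 / 2))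
      ≤ ∫ x, eigPow (W x) (γ + 1 / 2) := by
  set h := fun t => eigPow (W t) (γ + 1 / 2) with hh
  have h0 : ∀ t, 0 ≤ h t := fun t => eigPow_nonneg (hW.posSemidef t) _
  have hI : Integrable ((bump k).normed volume ⋆[ContinuousLinearMap.lsmul ℝ ℝ, volume] h) :=
    (bump k).integrable_normed.integrable_convolution _ hW.int
  have he : ∀ x, ((bump k).normed volume ⋆[ContinuousLinearMap.lsmul ℝ ℝ, volume] h) x
      = ∫ t, (bump k).normed volume (x - t) * h t := fun x => by
    rw [convolution_eq_swap]; simp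
  have hc : Continuous fun x => rtr (mpow (mollW k W x) (γ + 1 / 2)) := by
    have h1 : Continuous fun x => mpow (mollW k W x) (γ + 1 / 2) :=
      (continuousOn_mpow (by linarith)).comp_continuous (continuous_mollW hW hγ k)
        fun x => posSemidef_mollW hW hγ k x
    exact Complex.continuous_re.comp h1.matrix_trace
  rw [intervalIntegral.integral_of_le hab]
  calc ∫ x in Set.Ioc a b, rtr (mpow (mollW k W x) (γ + 1 / 2))
      ≤ ∫ x in Set.Ioc a b, ((bump k).normed volume ⋆[ContinuousLinearMap.lsmul ℝ ℝ, volume] h) x :=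
        setIntegral_mono_on hc.integrableOn_Ioc hI.integrableOn measurableSet_Ioc fun x _ => by
          rw [he]; exact rtr_mollW_le hW hγ k x
    _ ≤ ∫ x, ((bump k).normed volume ⋆[ContinuousLinearMap.lsmul ℝ ℝ, volume] h) x :=
        setIntegral_le_integral hI (.of_forall fun x => by
          simp only [Pi.zero_apply, he]
          exact integral_nonneg fun t => mul_nonneg ((bump k).nonneg_normed _) (h0 t))
    _ = ∫ x, h x := by
        rw [integral_convolution _ (bump k).integrable_normed hW.int]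
        simp [(bump k).integral_normed, hh]

lemma moll_eq_zero (k : ℕ) {f : ℝ → ℂ} (hf : Continuous f) {L : ℝ}
    (hs : ∀ x, L < |x| → f x = 0) {x : ℝ} (hx : L + 1 < |x|) : moll k f x = 0 := by
  refine norm_le_zero_iff.1 (norm_moll_le k hf fun t ht => ?_)
  rw [hs t (by linarith [abs_sub_abs_le_abs_sub x t, abs_sub_comm x t]), norm_zero]

lemma exists_bound_of_supp {f : ℝ → ℂ} (hf : Continuous f) {L : ℝ}
    (hs : ∀ x, L < |x| → f x = 0) : ∃ B, 0 ≤ B ∧ ∀ x, ‖f x‖ ≤ B := by
  obtain ⟨B, hB⟩ := (isCompact_Icc (a := -L) (b := L)).exists_bound_of_continuousOn hf.continuousOn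
  refine ⟨max B 0, le_max_right _ _, fun x => ?_⟩
  by_cases h : L < |x|
  · rw [hs x h, norm_zero]; exact le_max_right _ _
  · exact (hB x (abs_le.1 (not_lt.1 h))).trans (le_max_left _ _)

/-- Pairing a mollified function with a continuous compactly supported one. -/
lemma tendsto_integral_mul_moll {w f : ℝ → ℂ} (hw : LocallyIntegrable w) (hf : Continuous f)
    {L : ℝ} (hs : ∀ x, L < |x| → f x = 0) :
    Tendsto (fun k => ∫ x, f x * moll k w x) atTop (𝓝 (∫ x, f x * w x)) := by
  obtain ⟨B, hB0, hB⟩ := exists_bound_of_supp hf hs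
  set J := Set.Icc (-(L + 1)) (L + 1) with hJ
  have hnot : ∀ x, x ∉ J → L + 1 < |x| := fun x hx => by
    by_contra h
    exact hx (abs_le.1 (not_lt.1 h))
  have hswap : ∀ k, ∫ x, f x * moll k w x = ∫ t, w t * moll k f t := by
    intro k
    set φ := (bump k).normed volume with hφ
    obtain ⟨C, hC⟩ := (bump k).hasCompactSupport_normed.exists_bound_of_continuous
      ((bump k).continuous_normed (μ := volume))
    have hC0 : 0 ≤ C := (norm_nonneg _).trans (hC 0)
    have hint : Integrable (Function.uncurry fun x t => f x * ((φ (x - t) : ℂ) * w t))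
        (volume.prod volume) := by
      have hbig : Integrable (fun z : ℝ × ℝ => Set.indicator J (fun _ => B * C) z.1
          * Set.indicator (Set.Icc (-(L + 3)) (L + 3)) (fun t => ‖w t‖) z.2) (volume.prod volume) :=
        ((continuousOn_const.integrableOn_compact isCompact_Icc).integrable_indicator
          measurableSet_Icc).mul_prod
          (IntegrableOn.integrable_indicator (hw.integrableOn_isCompact isCompact_Icc).norm measurableSet_Icc)
      refine hbig.mono' (((hf.comp continuous_fst).aestronglyMeasurable).mul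
        (((Complex.continuous_ofReal.comp (((bump k).continuous_normed (μ := volume)).comp
          (continuous_fst.sub continuous_snd))).aestronglyMeasurable).mul
            hw.aestronglyMeasurable.comp_snd)) (.of_forall fun z => ?_)
      obtain ⟨x, t⟩ := z
      simp only [Function.uncurry_apply_pair, norm_mul, Complex.norm_real]
      have hnn : 0 ≤ Set.indicator J (fun _ => B * C) x
          * Set.indicator (Set.Icc (-(L + 3)) (L + 3)) (fun t => ‖w t‖) t :=
        mul_nonneg (Set.indicator_nonneg (fun _ _ => by positivity) _)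
          (Set.indicator_nonneg (fun _ _ => norm_nonneg _) _)
      rcases eq_or_ne (f x) 0 with h | h
      · rw [h, norm_zero, zero_mul]; exact hnn
      rcases eq_or_ne (φ (x - t)) 0 with h' | h'
      · rw [h', norm_zero, zero_mul, mul_zero]; exact hnn
      have hx : |x| ≤ L := not_lt.1 fun hlt => h (hs x hlt)
      have hxt := (bump k).support_normed_eq.subset (Function.mem_support.2 h')
      rw [Metric.mem_ball, dist_zero_right, Real.norm_eq_abs] at hxt
      have h1 := bump_rOut_le k
      have hxJ : x ∈ J := abs_le.1 (by linarith : |x| ≤ L + 1)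
      have htJ : t ∈ Set.Icc (-(L + 3)) (L + 3) :=
        abs_le.1 (by linarith [abs_sub_abs_le_abs_sub t x, abs_sub_comm x t] : |t| ≤ L + 3)
      rw [Set.indicator_of_mem hxJ, Set.indicator_of_mem htJ, mul_assoc B C]
      exact mul_le_mul (hB x) (mul_le_mul_of_nonneg_right (hC _) (norm_nonneg _))
        (by positivity) hB0
    simp only [moll_apply, ← integral_const_mul]
    rw [integral_integral_swap hint]
    refine integral_congr_ae (.of_forall fun t => integral_congr_ae (.of_forall fun x => ?_))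
    dsimp only
    rw [← neg_sub t x, hφ, ContDiffBump.normed_neg]
    ring
  simp only [hswap]
  rw [show ∫ x, f x * w x = ∫ t, w t * f t from integral_congr_ae (.of_forall fun x => mul_comm _ _)]
  refine tendsto_integral_of_dominated_convergence
    (Set.indicator J fun t => ‖w t‖ * B) (fun k => hw.aestronglyMeasurable.mul
      (continuous_moll k hf.locallyIntegrable).aestronglyMeasurable)
    (IntegrableOn.integrable_indicator ((hw.integrableOn_isCompact isCompact_Icc).norm.mul_const B)
      measurableSet_Icc) (fun k => .of_forall fun t => ?_)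
    (.of_forall fun t => (tendsto_moll hf t).const_mul _)
  by_cases ht : t ∈ J
  · rw [Set.indicator_of_mem ht, norm_mul]
    exact mul_le_mul_of_nonneg_left (norm_moll_le k hf fun s _ => hB s) (norm_nonneg _)
  · rw [moll_eq_zero k hf hs (hnot t ht), mul_zero, norm_zero]
    exact Set.indicator_nonneg (fun _ _ => by positivity) _

lemma tendsto_matrix {ι κ : Type*} [Fintype κ] {l : Filter ι} {F : ι → Matrix κ κ ℂ}
    {M : Matrix κ κ ℂ} (h : ∀ i j, Tendsto (fun k => F k i j) l (𝓝 (M i j))) :
    Tendsto F l (𝓝 M) :=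
  tendsto_pi_nhds.2 fun i => tendsto_pi_nhds.2 fun j => h i j

/-- Smooth compactly supported orbitals, general potential. -/
lemma goodPair_potential (hγ : 1 / 2 < γ) (hcb : CompressionBound γ m) (hW : MatPotential m γ W)
    {ψ ψ' : Fin N → Fin m → ℝ → ℂ} (hd : ∀ i a x, HasDerivAt (ψ i a) (ψ' i a x) x)
    (hc : ∀ i a, Continuous (ψ' i a)) {L : ℝ} (hL : 0 ≤ L)
    (hsupp : ∀ i a x, L < |x| → ψ i a x = 0) :
    GoodPair γ (L1 γ * ∫ x, eigPow (W x) (γ + 1 / 2)) (gramMat ψ) (potMat W ψ - gramMat ψ') := by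
  have hψc : ∀ i a, Continuous (ψ i a) := fun i a =>
    continuous_iff_continuousAt.2 fun x => (hd i a x).continuousAt
  have hWherm : ∀ k x, (mollW k W x).IsHermitian := fun k x => (posSemidef_mollW hW hγ.le k x).1
  refine GoodPair.limit (G := fun _ => gramMat ψ)
    (A := fun k => potMat (mollW k W) ψ - gramMat ψ') (fun _ => isHermitian_gramMat _)
    (fun k => (isHermitian_potMat (hWherm k) ψ).sub (isHermitian_gramMat _)) tendsto_const_nhds
    ?_ fun k => goodPair_smooth hγ hcb (continuous_mollW hW hγ.le k) (posSemidef_mollW hW hγ.le k)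
      hd hc hL hsupp (integral_mollW_le hW hγ.le k (by linarith))
  refine (tendsto_matrix fun i j => ?_).sub tendsto_const_nhds
  simp only [potMat, of_apply]
  have hfc : ∀ a b, Continuous fun x => star (ψ i a x) * ψ j b x := fun a b =>
    (hψc i a).star.mul (hψc j b)
  have hfs : ∀ a b x, L < |x| → star (ψ i a x) * ψ j b x = 0 := fun a b x hx => by
    rw [hsupp j b x hx, mul_zero]
  have hint : ∀ (g : ℝ → ℂ), LocallyIntegrable g → ∀ a b,
      Integrable fun x => star (ψ i a x) * g x * ψ j b x := fun g hg a b =>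
    ((hg.integrable_smul_left_of_hasCompactSupport (hfc a b)
      (HasCompactSupport.intro (isCompact_Icc (a := -L) (b := L)) fun x hx => hfs a b x
        (not_le.1 fun h => hx (abs_le.1 h)))) :).congr
      (.of_forall fun x => by simp only [smul_eq_mul]; ring)
  have e : ∀ (V : ℝ → Matrix (Fin m) (Fin m) ℂ), (∀ a b, LocallyIntegrable fun x => V x a b) →
      ∫ x, ∑ a, ∑ b, star (ψ i a x) * V x a b * ψ j b x
        = ∑ a, ∑ b, ∫ x, (star (ψ i a x) * ψ j b x) * V x a b := by
    intro V hV
    rw [integral_finsetSum _ fun a _ => integrable_finsetSum _ fun b _ => hint _ (hV a b) a b]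
    refine Finset.sum_congr rfl fun a _ => ?_
    rw [integral_finsetSum _ fun b _ => hint _ (hV a b) a b]
    exact Finset.sum_congr rfl fun b _ => integral_congr_ae (.of_forall fun x => by ring)
  rw [e W (locallyIntegrable_entry hW hγ.le)]
  simp only [fun k => e (mollW k W) fun a b =>
    ((continuous_mollW hW hγ.le k).matrix_elem a b).locallyIntegrable]
  exact tendsto_finsetSum _ fun a _ => tendsto_finsetSum _ fun b _ =>
    tendsto_integral_mul_moll (locallyIntegrable_entry hW hγ.le a b) (hfc a b) (hfs a b)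

lemma re_dotProduct_gramMat {ψ : Fin N → Fin m → ℝ → ℂ}
    (h : ∀ i a, Integrable fun x => ‖ψ i a x‖ ^ 2)
    (hm : ∀ i a, AEStronglyMeasurable (ψ i a)) (v : Fin N → ℂ) :
    (∀ a, Integrable fun x => ‖∑ i, ψ i a x * v i‖ ^ 2) ∧
      star v ⬝ᵥ (gramMat ψ *ᵥ v) = ((∑ a, ∫ x, ‖∑ i, ψ i a x * v i‖ ^ 2 : ℝ) : ℂ) := by
  have hii : ∀ i j a, Integrable fun x => star (ψ i a x) * ψ j a x := fun i j a => by
    refine ((h i a).add (h j a)).mono' ((hm i a).star.mul (hm j a)) (.of_forall fun x => ?_)
    rw [norm_mul, norm_star, Pi.add_apply]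
    nlinarith [two_mul_le_add_sq ‖ψ i a x‖ ‖ψ j a x‖]
  have hsq : ∀ a, Integrable fun x => ‖∑ i, ψ i a x * v i‖ ^ 2 := fun a => by
    refine Integrable.mono' ((integrable_finsetSum Finset.univ fun i _ => h i a).const_mul
      (∑ i, ‖v i‖ ^ 2)) (((Finset.aestronglyMeasurable_fun_sum _ fun i _ =>
        (hm i a).mul_const _).norm).pow 2) (.of_forall fun t => ?_)
    rw [Real.norm_eq_abs, abs_of_nonneg (by positivity)]
    refine (pow_le_pow_left₀ (norm_nonneg _) (norm_sum_le _ _) 2).trans ?_
    simp only [norm_mul]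
    rw [mul_comm]
    exact Finset.sum_mul_sq_le_sq_mul_sq _ _ _
  refine ⟨hsq, ?_⟩
  push_cast
  simp only [← integral_complex_ofReal, Complex.ofReal_pow, ← Complex.conj_mul', map_sum, map_mul,
    starRingEnd_apply, Finset.sum_mul, Finset.mul_sum, dotProduct, mulVec, gramMat, of_apply,
    Pi.star_apply]
  have hI : ∀ a i j, Integrable fun x => star (ψ j a x) * star (v j) * (ψ i a x * v i) :=
    fun a i j => ((hii j i a).mul_const (star (v j) * v i)).congr (.of_forall fun x => by ring)
  simp only [integral_finsetSum _ fun i _ => integrable_finsetSum _ fun j _ => hI _ i j,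
    integral_finsetSum _ fun j _ => hI _ _ j]
  rw [Finset.sum_comm]
  rw [Finset.sum_comm (γ := Fin m)]
  refine Finset.sum_congr rfl fun i _ => ?_
  rw [Finset.sum_comm (γ := Fin m)]
  refine Finset.sum_congr rfl fun j _ => ?_
  rw [integral_finsetSum _ fun a _ => hii j i a, Finset.sum_mul, Finset.mul_sum]
  refine Finset.sum_congr rfl fun a _ => ?_
  rw [← integral_mul_const, ← integral_const_mul]
  exact integral_congr_ae (.of_forall fun x => by ring)

lemma tendsto_gramMat {F : ℕ → Fin N → Fin m → ℝ → ℂ} {f : Fin N → Fin m → ℝ → ℂ}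
    (d : Fin N → Fin m → ℝ → ℝ) (hm : ∀ k i a, AEStronglyMeasurable (F k i a))
    (hd : ∀ i a, Integrable fun x => d i a x ^ 2) (hdm : ∀ i a, AEStronglyMeasurable (d i a))
    (hb : ∀ k i a x, ‖F k i a x‖ ≤ d i a x)
    (hl : ∀ i a x, Tendsto (fun k => F k i a x) atTop (𝓝 (f i a x))) :
    Tendsto (fun k => gramMat (F k)) atTop (𝓝 (gramMat f)) := by
  refine tendsto_matrix fun i j => ?_
  simp only [gramMat, of_apply]
  refine tendsto_integral_of_dominated_convergence (fun x => ∑ a, d i a x * d j a x)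
    (fun k => Finset.aestronglyMeasurable_fun_sum _ fun a _ => (hm k i a).star.mul (hm k j a))
    (integrable_finsetSum _ fun a _ => ?_) (fun k => .of_forall fun x => ?_)
    (.of_forall fun x => tendsto_finsetSum _ fun a _ => (hl i a x).star.mul (hl j a x))
  · refine ((hd i a).add (hd j a)).mono' ((hdm i a).mul (hdm j a)) (.of_forall fun x => ?_)
    rw [norm_mul, Pi.add_apply, Real.norm_eq_abs, Real.norm_eq_abs]
    nlinarith [two_mul_le_add_sq |d i a x| |d j a x|, sq_abs (d i a x), sq_abs (d j a x)]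
  · refine (norm_sum_le _ _).trans (Finset.sum_le_sum fun a _ => ?_)
    rw [norm_mul, norm_star]
    exact mul_le_mul (hb k i a x) (hb k j a x) (norm_nonneg _) ((norm_nonneg _).trans (hb k i a x))

lemma tendsto_potMat (hW : MatPotential m γ W) {F : ℕ → Fin N → Fin m → ℝ → ℂ}
    {f : Fin N → Fin m → ℝ → ℂ} (d : Fin N → Fin m → ℝ → ℝ)
    (hm : ∀ k i a, AEStronglyMeasurable (F k i a))
    (hd : ∀ i j a b, Integrable fun x => ‖W x a b‖ * (d i a x * d j b x))
    (hb : ∀ k i a x, ‖F k i a x‖ ≤ d i a x)
    (hl : ∀ i a x, Tendsto (fun k => F k i a x) atTop (𝓝 (f i a x))) :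
    Tendsto (fun k => potMat W (F k)) atTop (𝓝 (potMat W f)) := by
  refine tendsto_matrix fun i j => ?_
  simp only [potMat, of_apply]
  refine tendsto_integral_of_dominated_convergence
    (fun x => ∑ a, ∑ b, ‖W x a b‖ * (d i a x * d j b x))
    (fun k => Finset.aestronglyMeasurable_fun_sum _ fun a _ =>
      Finset.aestronglyMeasurable_fun_sum _ fun b _ =>
        ((hm k i a).star.mul (hW.meas a b).aestronglyMeasurable).mul (hm k j b))
    (integrable_finsetSum _ fun a _ => integrable_finsetSum _ fun b _ => hd i j a b)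
    (fun k => .of_forall fun x => ?_)
    (.of_forall fun x => tendsto_finsetSum _ fun a _ => tendsto_finsetSum _ fun b _ =>
      ((hl i a x).star.mul tendsto_const_nhds).mul (hl j b x))
  refine (norm_sum_le _ _).trans (Finset.sum_le_sum fun a _ => (norm_sum_le _ _).trans
    (Finset.sum_le_sum fun b _ => ?_))
  rw [norm_mul, norm_mul, norm_star, mul_comm ‖F k i a x‖, mul_assoc]
  exact mul_le_mul_of_nonneg_left
    (mul_le_mul (hb k i a x) (hb k j b x) (norm_nonneg _) ((norm_nonneg _).trans (hb k i a x)))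
    (norm_nonneg _)

/-- Compactly supported `H¹` orbitals. -/
lemma goodPair_compact (hγ : 1 / 2 < γ) (hcb : CompressionBound γ m) (hW : MatPotential m γ W)
    {ψ ψ' : Fin N → Fin m → ℝ → ℂ} (ho : ∀ i a, Orbital (ψ i a) (ψ' i a)) {L : ℝ} (hL : 0 ≤ L)
    (hsupp : ∀ i a x, L < |x| → ψ i a x = 0) :
    GoodPair γ (L1 γ * ∫ x, eigPow (W x) (γ + 1 / 2)) (gramMat ψ) (potMat W ψ - gramMat ψ') := by
  set F := fun k i a => moll k (ψ i a) with hF
  set F' := fun k i a => moll k (ψ' i a) with hF'
  have hdd : ∀ i a, ∃ B, 0 ≤ B ∧ ∀ x, ‖ψ i a x‖ ≤ B := fun i a =>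
    exists_bound_of_supp (ho i a).continuous (hsupp i a)
  choose B hB0 hB using hdd
  set J := Set.Icc (-(L + 1)) (L + 1) with hJ
  set d := fun i a => Set.indicator J fun _ : ℝ => B i a with hd
  have hbd : ∀ k i a x, ‖F k i a x‖ ≤ d i a x := by
    intro k i a x
    by_cases hx : x ∈ J
    · simp only [hd, Set.indicator_of_mem hx]
      exact norm_moll_le k (ho i a).continuous fun t _ => hB i a t
    · simp only [hd, hF, Set.indicator_of_notMem hx]
      rw [moll_eq_zero k (ho i a).continuous (hsupp i a)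
        (not_le.1 fun h => hx (abs_le.1 h)), norm_zero]
  have hd2 : ∀ i a, Integrable fun x => d i a x ^ 2 := fun i a => by
    have : (fun x => d i a x ^ 2) = Set.indicator J fun _ : ℝ => B i a ^ 2 := by
      funext x; by_cases hx : x ∈ J <;> simp [hd, hx]
    rw [this]
    exact (continuousOn_const.integrableOn_compact isCompact_Icc).integrable_indicator
      measurableSet_Icc
  have hdW : ∀ i j a b, Integrable fun x => ‖W x a b‖ * (d i a x * d j b x) := fun i j a b => by
    have : (fun x => ‖W x a b‖ * (d i a x * d j b x))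
        = Set.indicator J fun x => ‖W x a b‖ * (B i a * B j b) := by
      funext x; by_cases hx : x ∈ J <;> simp [hd, hx]
    rw [this]
    exact IntegrableOn.integrable_indicator (((locallyIntegrable_entry hW hγ.le a b).integrableOn_isCompact
      isCompact_Icc).norm.mul_const _) measurableSet_Icc
  have hFc : ∀ k i a, AEStronglyMeasurable (F k i a) := fun k i a =>
    (continuous_moll k (ho i a).continuous.locallyIntegrable).aestronglyMeasurable
  have hl : ∀ i a x, Tendsto (fun k => F k i a x) atTop (𝓝 (ψ i a x)) := fun i a x =>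
    tendsto_moll (ho i a).continuous x
  refine GoodPair.limit (G := fun k => gramMat (F k))
    (A := fun k => potMat W (F k) - gramMat ψ') (fun _ => isHermitian_gramMat _)
    (fun k => (isHermitian_potMat (fun x => (hW.posSemidef x).1) _).sub (isHermitian_gramMat _))
    (tendsto_gramMat d hFc hd2 (fun i a => (measurable_const.indicator
      measurableSet_Icc).aestronglyMeasurable) hbd hl)
    ((tendsto_potMat hW d hFc hdW hbd hl).sub tendsto_const_nhds) fun k => ?_
  have hk := goodPair_potential hγ hcb hW (ψ := F k) (ψ' := F' k)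
    (fun i a x => (ho i a).hasDerivAt_moll k x)
    (fun i a => continuous_moll k (ho i a).locallyIntegrable) (L := L + 1) (by linarith)
    (fun i a x hx => moll_eq_zero k (ho i a).continuous (hsupp i a) hx)
  refine hk.anti (by linarith) ?_
  rw [sub_sub_sub_cancel_left]
  refine PosSemidef.of_dotProduct_mulVec_nonneg
    ((isHermitian_gramMat _).sub (isHermitian_gramMat _)) fun v => ?_
  obtain ⟨hi1, e1⟩ := re_dotProduct_gramMat (fun i a => (ho i a).sq')
    (fun i a => (ho i a).memLp'.1) v
  obtain ⟨-, e2⟩ := re_dotProduct_gramMat (ψ := F' k)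
    (fun i a => (integrable_norm_moll_sq k (ho i a).locallyIntegrable (ho i a).sq').1)
    (fun i a => (continuous_moll k (ho i a).locallyIntegrable).aestronglyMeasurable) v
  rw [sub_mulVec, dotProduct_sub, e1, e2, ← Complex.ofReal_sub]
  refine Complex.zero_le_real.2 (sub_nonneg.2 (Finset.sum_le_sum fun a _ => ?_))
  have hloc : LocallyIntegrable fun t => ∑ i, ψ' i a t * v i :=
    locallyIntegrable_iff.2 fun K hK => integrable_finsetSum _ fun i _ =>
      ((ho i a).locallyIntegrable.integrableOn_isCompact hK).mul_const _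
  have hlin : ∀ x, ∑ i, moll k (ψ' i a) x * v i = moll k (fun t => ∑ i, ψ' i a t * v i) x := by
    intro x
    simp only [moll_apply, Finset.mul_sum]
    rw [integral_finsetSum _ fun i _ => ?_]
    · refine Finset.sum_congr rfl fun i _ => ?_
      rw [← integral_mul_const]
      exact integral_congr_ae (.of_forall fun t => by ring)
    · exact ((integrable_bump_mul k x (ho i a).locallyIntegrable :).mul_const (v i)).congr
        (.of_forall fun t => by simp [Complex.real_smul, mul_assoc])
  simp only [hF', hlin]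
  exact (integrable_norm_moll_sq k hloc (hi1 a)).2

lemma Orbital.mul_cutoff {u u' : ℝ → ℂ} (h : Orbital u u') {g g' : ℝ → ℝ}
    (hg : ∀ x, HasDerivAt g (g' x) x) (hg' : Continuous g') {C : ℝ} (hb : ∀ x, |g x| ≤ C)
    (hb' : ∀ x, |g' x| ≤ C) :
    Orbital (fun x => u x * (g x : ℂ)) (fun x => u' x * (g x : ℂ) + u x * (g' x : ℂ)) := by
  have hgc : Continuous g := continuous_iff_continuousAt.2 fun x => (hg x).continuousAt
  have key : ∀ {p : ℝ → ℂ} {q : ℝ → ℝ}, MemLp p 2 → Continuous q → (∀ x, |q x| ≤ C) →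
      MemLp (fun x => p x * (q x : ℂ)) 2 := by
    intro p q hp hq hqb
    refine MemLp.of_le_mul (c := C) hp (hp.1.mul
      (Complex.continuous_ofReal.comp hq).aestronglyMeasurable) (.of_forall fun x => ?_)
    rw [norm_mul, Complex.norm_real, Real.norm_eq_abs, mul_comm]
    exact mul_le_mul_of_nonneg_right (hqb x) (norm_nonneg _)
  exact ⟨key h.memLp hgc hb, (key h.memLp' hgc hb).add (key h.memLp hg' hb'),
    fun a b => (h.ibp hg hg' a b).symm⟩

/-- All orthonormal `H¹` families. -/
lemma goodPair_orbital (hγ : 1 / 2 < γ) (hcb : CompressionBound γ m) (hW : MatPotential m γ W)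
    {ψ ψ' : Fin N → Fin m → ℝ → ℂ} (ho : ∀ i a, Orbital (ψ i a) (ψ' i a)) :
    GoodPair γ (L1 γ * ∫ x, eigPow (W x) (γ + 1 / 2)) (gramMat ψ) (potMat W ψ - gramMat ψ') := by
  let c : ContDiffBump (0 : ℝ) := ⟨1, 2, one_pos, one_lt_two⟩
  have hcd : ∀ x, HasDerivAt c (deriv c x) x := fun x =>
    ((c.contDiff (n := 1)).differentiable (by simp) x).hasDerivAt
  have hdc : Continuous (deriv c) := (c.contDiff (n := 1)).continuous_deriv le_rfl
  obtain ⟨C₀, hC₀⟩ := c.hasCompactSupport.deriv.exists_bound_of_continuous hdc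
  set C := 1 + |C₀| with hC
  have hC1 : 1 ≤ C := le_add_of_nonneg_right (abs_nonneg _)
  set g : ℕ → ℝ → ℝ := fun k x => c (x / ((k : ℝ) + 1)) with hg
  set g' : ℕ → ℝ → ℝ := fun k x => deriv c (x / ((k : ℝ) + 1)) / ((k : ℝ) + 1) with hg'
  have hgd : ∀ k x, HasDerivAt (g k) (g' k x) x := fun k x => by
    have := (hcd (x / ((k : ℝ) + 1))).comp x ((hasDerivAt_id x).div_const ((k : ℝ) + 1))
    simpa [hg, hg', Function.comp_def, div_eq_mul_inv] using this
  have hgb : ∀ k x, |g k x| ≤ 1 := fun k x => by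
    rw [abs_of_nonneg c.nonneg]; exact c.le_one
  have hgb' : ∀ k x, |g' k x| ≤ C / ((k : ℝ) + 1) := fun k x => by
    rw [hg', abs_div, abs_of_pos (show (0 : ℝ) < (k : ℝ) + 1 by positivity)]
    refine div_le_div_of_nonneg_right ?_ (by positivity)
    have := hC₀ (x / ((k : ℝ) + 1))
    rw [Real.norm_eq_abs] at this
    linarith [le_abs_self C₀]
  have hgb'' : ∀ k x, |g' k x| ≤ C := fun k x => (hgb' k x).trans
    (div_le_self (by linarith) (le_add_of_nonneg_left (Nat.cast_nonneg k)))
  have hx0 : ∀ x : ℝ, Tendsto (fun k : ℕ => x / ((k : ℝ) + 1)) atTop (𝓝 0) := fun x =>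
    by simpa [div_eq_mul_inv] using
      (tendsto_one_div_add_atTop_nhds_zero_nat (𝕜 := ℝ)).const_mul x
  have hgl : ∀ x, Tendsto (fun k => (g k x : ℂ)) atTop (𝓝 1) := fun x => by
    have h1 : c (0 : ℝ) = 1 := c.one_of_mem_closedBall (by simp [c.rIn_pos.le])
    have := (c.continuous.tendsto 0).comp (hx0 x)
    rw [h1] at this
    simpa [hg, Function.comp_def] using (Complex.continuous_ofReal.tendsto 1).comp this
  have hgl' : ∀ x, Tendsto (fun k => (g' k x : ℂ)) atTop (𝓝 0) := fun x => by
    have h0 : Tendsto (fun k : ℕ => C / ((k : ℝ) + 1)) atTop (𝓝 0) := hx0 C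
    have := squeeze_zero_norm (f := fun k => g' k x) (fun k => hgb' k x) h0
    simpa [Function.comp_def] using (Complex.continuous_ofReal.tendsto 0).comp this
  set F := fun k i a x => ψ i a x * (g k x : ℂ) with hF
  set F' := fun k i a x => ψ' i a x * (g k x : ℂ) + ψ i a x * (g' k x : ℂ) with hF'
  have hgc' : ∀ k, Continuous (g' k) := fun k => (hdc.comp (continuous_id.div_const _)).div_const _
  have hoF : ∀ k i a, Orbital (F k i a) (F' k i a) := fun k i a =>
    Orbital.mul_cutoff (ho i a) (hgd k) (hgc' k) (fun x => (hgb k x).trans hC1) (hgb'' k)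
  have hbd : ∀ k i a x, ‖F k i a x‖ ≤ ‖ψ i a x‖ := fun k i a x => by
    rw [norm_mul, Complex.norm_real, Real.norm_eq_abs]
    exact mul_le_of_le_one_right (norm_nonneg _) (hgb k x)
  have hl : ∀ i a x, Tendsto (fun k => F k i a x) atTop (𝓝 (ψ i a x)) := fun i a x => by
    simpa using (hgl x).const_mul (ψ i a x)
  have hl' : ∀ i a x, Tendsto (fun k => F' k i a x) atTop (𝓝 (ψ' i a x)) := fun i a x => by
    simpa using ((hgl x).const_mul (ψ' i a x)).add ((hgl' x).const_mul (ψ i a x))
  have hd' : ∀ i a, Integrable fun x => (‖ψ' i a x‖ + C * ‖ψ i a x‖) ^ 2 := fun i a => by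
    refine (((ho i a).sq'.const_mul 2).add ((ho i a).sq.const_mul (2 * C ^ 2))).mono'
      (((ho i a).memLp'.1.norm.add ((ho i a).continuous.norm.aestronglyMeasurable.const_mul C)).pow
        2) (.of_forall fun x => ?_)
    rw [Real.norm_of_nonneg (sq_nonneg _), Pi.add_apply]
    nlinarith [two_mul_le_add_sq ‖ψ' i a x‖ (C * ‖ψ i a x‖)]
  refine GoodPair.limit (G := fun k => gramMat (F k))
    (A := fun k => potMat W (F k) - gramMat (F' k)) (fun _ => isHermitian_gramMat _)
    (fun k => (isHermitian_potMat (fun x => (hW.posSemidef x).1) _).sub (isHermitian_gramMat _))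
    (tendsto_gramMat (fun i a x => ‖ψ i a x‖) (fun k i a => (hoF k i a).memLp.1)
      (fun i a => (ho i a).sq) (fun i a => (ho i a).memLp.1.norm) hbd hl)
    ((tendsto_potMat hW (fun i a x => ‖ψ i a x‖) (fun k i a => (hoF k i a).memLp.1)
      (fun i j a b => integrable_potTerm hW hγ.le (ho i a) (ho j b) a b) hbd hl).sub
      (tendsto_gramMat (fun i a x => ‖ψ' i a x‖ + C * ‖ψ i a x‖) (fun k i a => (hoF k i a).memLp'.1)
        hd' (fun i a => (ho i a).memLp'.1.norm.add
          ((ho i a).continuous.norm.aestronglyMeasurable.const_mul C)) (fun k i a x => ?_) hl'))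
    fun k => goodPair_compact hγ hcb hW (hoF k) (L := 2 * ((k : ℝ) + 1)) (by positivity)
      fun i a x hx => ?_
  · refine (norm_add_le _ _).trans (add_le_add ?_ ?_)
    · rw [norm_mul, Complex.norm_real, Real.norm_eq_abs]
      exact mul_le_of_le_one_right (norm_nonneg _) (hgb k x)
    · rw [norm_mul, Complex.norm_real, Real.norm_eq_abs, mul_comm]
      exact mul_le_mul_of_nonneg_right (hgb'' k x) (norm_nonneg _)
  · have : c (x / ((k : ℝ) + 1)) = 0 := by
      refine c.zero_of_le_dist ?_
      rw [dist_zero_right, Real.norm_eq_abs, abs_div,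
        abs_of_pos (show (0 : ℝ) < (k : ℝ) + 1 by positivity), le_div_iff₀ (by positivity)]
      exact hx.le
    simp [hF, hg, this]

/-- The reduction: the compression inequality bounds every ratio. -/
theorem matRatios_le_of_compression (hγ : 1 / 2 < γ) (hcb : CompressionBound γ m) {r : ℝ}
    (hr : r ∈ matRatios m γ) : r ≤ L1 γ := by
  obtain ⟨W, hW, hpos, N, lam, ψ, hb, horth, rfl⟩ := hr
  rw [div_le_iff₀ hpos]
  choose ψ' ho he using fun i => (hb i).2
  have hG : gramMat ψ = 1 := by
    ext i j
    simpa [gramMat, one_apply] using horth i j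
  have hA : potMat W ψ - gramMat ψ' = diagonal fun i => ((|lam i| : ℝ) : ℂ) := by
    ext i j
    have h := he j (ψ i) (ψ' i) (ho i)
    rw [horth] at h
    simp only [Matrix.sub_apply, potMat, gramMat, of_apply, diagonal_apply]
    split_ifs at h ⊢ with hij
    · subst hij
      rw [abs_of_neg (hb i).1]
      push_cast
      linear_combination -h
    · linear_combination -h
  have h := goodPair_orbital hγ hcb hW ho
  rw [hG, hA] at h
  have hval := h PosDef.one (PosDef.diagonal fun i => by
    simpa using (abs_pos.2 (hb i).1.ne))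
  have h1 : mpow (1 : Matrix (Fin N) (Fin N) ℂ) (-(1 / 2)) = 1 := by
    rw [mpow, cfc_apply_one, one_rpow, map_one]
  rw [pairVal, h1, Matrix.one_mul, Matrix.mul_one, ← eigPow_eq_rtr_mpow (isHermitian_diagonal_of_self_adjoint _ (by
    ext i; simp)), eigPow_diag] at hval
  simpa using hval

end General

/-- Scalar ratios are matrix ratios. -/
theorem mem_matRatios_of_mem_ratios {γ : ℝ} (hγ : 1 / 2 < γ) (k : ℕ) {r : ℝ}
    (hr : r ∈ ratios γ) : r ∈ matRatios (k + 1) γ := by
  obtain ⟨W, hW, hpos, n, lam, ψ, hb, horth, rfl⟩ := hr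
  have hp : ∀ x, eigPow (embedW k W x) (γ + 1 / 2) = W x ^ (γ + 1 / 2) := by
    intro x
    rw [embedW, eigPow_diag, Finset.sum_eq_single 0]
    · simp
    · intro a _ ha
      rw [if_neg ha, Complex.zero_re, zero_rpow (by linarith)]
    · simp
  refine ⟨embedW k W, ⟨fun a b => ?_, fun x => ?_, ?_⟩, ?_, n, lam, fun i => embedF k (ψ i),
    fun i => ⟨(hb i).1, ?_⟩, fun i j => ?_, ?_⟩
  · simp only [embedW, diagonal_apply]
    have := Complex.measurable_ofReal.comp hW.meas
    split_ifs <;> first | exact this | exact measurable_const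
  · refine PosSemidef.diagonal fun a => ?_
    simp only [Pi.zero_apply]
    split_ifs with h
    · exact Complex.zero_le_real.2 (hW.nonneg x)
    · exact le_rfl
  · simp only [hp]; exact hW.int
  · simpa only [hp] using hpos
  · obtain ⟨g, hg, he⟩ := (hb i).2
    refine ⟨embedF k g, fun a => ?_, fun η η' h => ?_⟩
    · by_cases h : a = 0
      · simpa [embedF, h] using hg
      · simpa [embedF, h] using orbital_zero
    · simp only [embedF, embedW, diagonal_apply, apply_ite, ite_mul, zero_mul, mul_zero,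
        Finset.sum_ite_eq', Finset.sum_ite_eq, Finset.mem_univ, if_true, ite_apply]
      rw [← he (η 0) (η' 0) (h 0)]
      congr 1
      exact integral_congr_ae (.of_forall fun x => by ring)
  · rw [← horth i j]
    refine integral_congr_ae (.of_forall fun x => ?_)
    dsimp only
    rw [Finset.sum_eq_single 0 (fun a _ ha => by simp [embedF, ha]) (by simp)]
    simp [embedF]
  · simp only [hp]

/-- The matrix constant equals the one-bound-state constant, given the compression inequality and a
scalar potential attaining it. -/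
theorem isLUB_matRatios_of_compression {m : ℕ} {γ : ℝ} (hγ : 1 / 2 < γ) (hm : 1 ≤ m)
    (hcb : CompressionBound γ m) (hopt : L1 γ ∈ ratios γ) : IsLUB (matRatios m γ) (L1 γ) := by
  obtain ⟨k, rfl⟩ : ∃ k, m = k + 1 := ⟨m - 1, by omega⟩
  exact ⟨fun _ hr => matRatios_le_of_compression hγ hcb hr,
    fun _ hb => hb (mem_matRatios_of_mem_ratios hγ k hopt)⟩

end Vale.Agent.P371.Gen
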