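import Vale.Agent.P371.Gen.Trace
import Vale.Agent.P371.MatrixBound

/-!
Matrix algebra for the reduction from weak bound states to smooth compactly supported orbitals.
-/

namespace Vale.Agent.P371.Gen

open MeasureTheory Matrix Real Filter
open scoped Matrix.Norms.Frobenius ComplexOrder Topology

variable {n : Type} [Fintype n] [DecidableEq n]

lemma contOn_spectrum (A : Matrix n n ℂ) (f : ℝ → ℝ) : ContinuousOn f (spectrum ℝ A) :=
  (Matrix.finite_real_spectrum (A := A)).continuousOn f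

lemma rtr_cfc_eq {A : Matrix n n ℂ} (hA : A.IsHermitian) (f : ℝ → ℝ) :
    rtr (cfc f A) = ∑ i, f (hA.eigenvalues i) := by
  rw [rtr, hA.cfc_eq, Matrix.IsHermitian.cfc, Unitary.conjStarAlgAut_apply, trace_mul_comm,
    ← mul_assoc, Unitary.coe_star_mul_self, one_mul, trace_diagonal]
  simp [Complex.re_sum]

lemma eigPow_eq_rtr_mpow {A : Matrix n n ℂ} (hA : A.IsHermitian) (r : ℝ) :
    eigPow A r = rtr (mpow A r) := by
  rw [eigPow_eq hA, mpow, rtr_cfc_eq hA]

lemma nonneg_of_mem_spectrum {A : Matrix n n ℂ} (hA : A.PosSemidef) {x : ℝ}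
    (hx : x ∈ spectrum ℝ A) : 0 ≤ x := by
  rw [hA.1.spectrum_real_eq_range_eigenvalues] at hx
  obtain ⟨i, rfl⟩ := hx
  exact hA.eigenvalues_nonneg i

lemma pos_of_mem_spectrum {A : Matrix n n ℂ} (hA : A.PosDef) {x : ℝ}
    (hx : x ∈ spectrum ℝ A) : 0 < x := by
  rw [hA.1.spectrum_real_eq_range_eigenvalues] at hx
  obtain ⟨i, rfl⟩ := hx
  exact hA.eigenvalues_pos i

lemma isHermitian_mpow (A : Matrix n n ℂ) (r : ℝ) : (mpow A r).IsHermitian :=
  cfc_predicate _ _

lemma posSemidef_mpow {A : Matrix n n ℂ} (hA : A.PosSemidef) (r : ℝ) :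
    (mpow A r).PosSemidef := by
  rw [mpow, hA.1.cfc_eq, Matrix.IsHermitian.cfc, Unitary.conjStarAlgAut_apply, star_eq_conjTranspose]
  refine PosSemidef.mul_mul_conjTranspose_same (PosSemidef.diagonal fun i => ?_) _
  simpa using rpow_nonneg (hA.eigenvalues_nonneg i) r

lemma posDef_mpow {A : Matrix n n ℂ} (hA : A.PosDef) (r : ℝ) : (mpow A r).PosDef := by
  refine Matrix.PosSemidef.posDef_iff_isUnit (posSemidef_mpow hA.posSemidef r) |>.2 ?_
  exact (isUnit_cfc_iff _ A (contOn_spectrum A _) hA.1.isSelfAdjoint).2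
    fun x hx => (rpow_pos_of_pos (pos_of_mem_spectrum hA hx) r).ne'

/-- The whitening matrix normalises the Gram matrix. -/
lemma whiten {G : Matrix n n ℂ} (hG : G.PosDef) :
    mpow G (-(1 / 2)) * G * mpow G (-(1 / 2)) = 1 := by
  have hid : G = cfc (fun x : ℝ => x) G := (cfc_id' ℝ G hG.1.isSelfAdjoint).symm
  conv_lhs => arg 1; arg 2; rw [hid]
  rw [mpow, ← cfc_mul _ _ _ (contOn_spectrum G _) (contOn_spectrum G _),
    ← cfc_mul _ _ _ (contOn_spectrum G _) (contOn_spectrum G _), ← cfc_one ℝ G hG.1.isSelfAdjoint]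
  refine cfc_congr fun x hx => ?_
  have hx0 := pos_of_mem_spectrum hG hx
  simp only [Pi.one_apply]
  conv_lhs => arg 1; arg 2; rw [← rpow_one x]
  rw [← rpow_add hx0, ← rpow_add hx0]
  norm_num

lemma cfc_smul_rpow_trace (A : Matrix n n ℂ) (c r : ℝ) :
    rtr (cfc (fun x : ℝ => c * x ^ r) A) = c * rtr (mpow A r) := by
  rw [cfc_const_mul c _ A (contOn_spectrum A _), rtr, rtr, mpow]
  simp [trace_smul]

lemma mpow_mul_self {A : Matrix n n ℂ} (hA : A.PosSemidef) {r : ℝ} (hr : 0 < r) :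
    A * mpow A (r - 1) = mpow A r := by
  have hid : A = cfc (fun x : ℝ => x) A := (cfc_id' ℝ A hA.1.isSelfAdjoint).symm
  conv_lhs => arg 1; rw [hid]
  rw [mpow, mpow, ← cfc_mul _ _ _ (contOn_spectrum A _) (contOn_spectrum A _)]
  refine cfc_congr fun x hx => ?_
  rcases (nonneg_of_mem_spectrum hA hx).eq_or_lt with h | h
  · subst h; simp [zero_rpow hr.ne']
  · rw [← rpow_one_add' h.le (by linarith), add_sub_cancel]

/-- Trace Young inequality. -/
lemma rtr_mul_mpow_le {X Y : Matrix n n ℂ} (hX : X.PosSemidef) (hY : Y.PosSemidef) {r : ℝ}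
    (hr : 1 ≤ r) : r * rtr (X * mpow Y (r - 1)) ≤ rtr (mpow X r) + (r - 1) * rtr (mpow Y r) := by
  have hr0 : 0 < r := by linarith
  have hsplit : ∀ x y : ℝ, 0 ≤ x → 0 ≤ y →
      x * y ^ (r - 1) ≤ 1 / r * x ^ r + (r - 1) / r * y ^ r := by
    intro x y hx hy
    have := Real.geom_mean_le_arith_mean2_weighted (w₁ := 1 / r) (w₂ := (r - 1) / r)
      (p₁ := x ^ r) (p₂ := y ^ r) (by positivity) (div_nonneg (by linarith) hr0.le)
      (rpow_nonneg hx _) (rpow_nonneg hy _) (by field_simp; ring)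
    rwa [← rpow_mul hx, ← rpow_mul hy, mul_one_div_cancel hr0.ne', rpow_one,
      mul_div_cancel₀ _ hr0.ne'] at this
  have h := cfc_trace_le hX.1 hY.1 (fun x => x) (fun y => y ^ (r - 1))
    (fun x => 1 / r * x ^ r) (fun y => (r - 1) / r * y ^ r) fun x hx y hy =>
      hsplit x y (nonneg_of_mem_spectrum hX hx) (nonneg_of_mem_spectrum hY hy)
  rw [cfc_id' ℝ X hX.1.isSelfAdjoint, cfc_smul_rpow_trace, cfc_smul_rpow_trace] at h
  refine (mul_le_mul_of_nonneg_left h hr0.le).trans (le_of_eq ?_)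
  field_simp

/-- The trace of a positive power is monotone. -/
lemma rtr_mpow_mono {X Y : Matrix n n ℂ} (hX : X.PosDef) (hY : Y.PosDef)
    (hXY : (Y - X).PosSemidef) {r : ℝ} (hr : 0 < r) : rtr (mpow X r) ≤ rtr (mpow Y r) := by
  rcases le_or_gt 1 r with h1 | h1
  · have h := rtr_mul_mpow_le hY.posSemidef hX.posSemidef h1
    have hle := rtr_mul_nonneg hXY (posSemidef_mpow hX.posSemidef (r - 1))
    rw [Matrix.sub_mul, rtr, trace_sub, Complex.sub_re, mpow_mul_self hX.posSemidef hr] at hle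
    simp only [rtr] at hle h ⊢
    nlinarith
  · have hsplit : ∀ x y : ℝ, 0 < x → 0 < y →
        -r * x * y ^ (r - 1) ≤ -(1 : ℝ) * x ^ r + (1 - r) * y ^ r := by
      intro x y hx hy
      have := Real.geom_mean_le_arith_mean2_weighted (w₁ := r) (w₂ := 1 - r)
        (p₁ := x * y ^ (r - 1)) (p₂ := y ^ r) hr.le (by linarith)
        (mul_nonneg hx.le (rpow_nonneg hy.le _)) (rpow_nonneg hy.le _) (by ring)
      rw [mul_rpow hx.le (rpow_nonneg hy.le _), ← rpow_mul hy.le, ← rpow_mul hy.le, mul_assoc,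
        ← rpow_add hy, show (r - 1) * r + r * (1 - r) = 0 by ring, rpow_zero, mul_one] at this
      nlinarith
    have h := cfc_trace_le hX.1 hY.1 (fun x => -r * x) (fun y => y ^ (r - 1))
      (fun x => -(1 : ℝ) * x ^ r) (fun y => (1 - r) * y ^ r) fun x hx y hy =>
        hsplit x y (pos_of_mem_spectrum hX hx) (pos_of_mem_spectrum hY hy)
    rw [cfc_const_mul (-r) (fun x => x) X (contOn_spectrum X _),
      cfc_id' ℝ X hX.1.isSelfAdjoint, cfc_smul_rpow_trace, cfc_smul_rpow_trace] at h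
    have hle := rtr_mul_nonneg hXY (posSemidef_mpow hY.posSemidef (r - 1))
    rw [Matrix.sub_mul, rtr, trace_sub, Complex.sub_re, mpow_mul_self hY.posSemidef hr] at hle
    simp only [rtr, Matrix.smul_mul, trace_smul, Complex.smul_re, smul_eq_mul, mpow] at hle h ⊢
    nlinarith

/-- The normalised moment of a pair Gram matrix, energy matrix. -/
noncomputable def pairVal (r : ℝ) (G A : Matrix n n ℂ) : ℝ :=
  rtr (mpow (mpow G (-(1 / 2)) * A * mpow G (-(1 / 2))) r)

lemma posDef_whitened {G A : Matrix n n ℂ} (hG : G.PosDef) (hA : A.PosDef) :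
    (mpow G (-(1 / 2)) * A * mpow G (-(1 / 2))).PosDef := by
  have hS := posDef_mpow hG (-(1 / 2))
  have h := (Matrix.IsUnit.posDef_star_left_conjugate_iff (x := A) hS.isUnit).2 hA
  rwa [star_eq_conjTranspose, hS.1.eq] at h

/-- The bound `B` holds at the pair `(G, A)`. -/
def GoodPair (r B : ℝ) (G A : Matrix n n ℂ) : Prop :=
  G.PosDef → A.PosDef → pairVal r G A ≤ B

lemma GoodPair.anti {r B : ℝ} {G A A' : Matrix n n ℂ} (hr : 0 < r) (h : GoodPair r B G A')
    (hAA : (A' - A).PosSemidef) : GoodPair r B G A := by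
  intro hG hA
  have hA' : A'.PosDef := by
    simpa using hA.add_posSemidef hAA
  refine le_trans ?_ (h hG hA')
  refine rtr_mpow_mono (posDef_whitened hG hA) (posDef_whitened hG hA') ?_ hr
  rw [← Matrix.sub_mul, ← Matrix.mul_sub]
  have h2 := hAA.mul_mul_conjTranspose_same (mpow G (-(1 / 2)))
  rwa [(isHermitian_mpow G (-(1 / 2))).eq] at h2

lemma eventually_posDef {ι : Type*} {l : Filter ι} {H : ι → Matrix n n ℂ} {H₀ : Matrix n n ℂ}
    (hH : ∀ k, (H k).IsHermitian) (h : Tendsto H l (𝓝 H₀)) (h₀ : H₀.PosDef) :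
    ∀ᶠ k in l, (H k).PosDef := by
  set q : Matrix n n ℂ × (n → ℂ) → ℝ := fun p => (star p.2 ⬝ᵥ (p.1 *ᵥ p.2)).re with hq
  have hqc : Continuous q := by
    simp only [hq, dotProduct, mulVec]
    fun_prop
  have hev : ∀ᶠ M in 𝓝 H₀, ∀ v ∈ Metric.sphere (0 : n → ℂ) 1, 0 < q (M, v) := by
    refine (isCompact_sphere _ _).eventually_forall_of_forall_eventually fun v hv => ?_
    refine hqc.continuousAt.eventually_const_lt ?_
    exact h₀.re_dotProduct_pos (ne_zero_of_mem_unit_sphere ⟨v, hv⟩)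
  filter_upwards [h.eventually hev] with k hk
  refine .of_dotProduct_mulVec_pos (hH k) fun v hv => ?_
  have hn : 0 < ‖v‖ := norm_pos_iff.2 hv
  have := hk (((‖v‖⁻¹ : ℝ) : ℂ) • v) (by simp [norm_smul, hn.ne'])
  simp only [hq, star_smul, mulVec_smul, smul_dotProduct, dotProduct_smul, Complex.star_def,
    Complex.conj_ofReal, smul_eq_mul, Complex.re_ofReal_mul] at this
  rw [Complex.pos_iff]
  refine ⟨pos_of_mul_pos_right (pos_of_mul_pos_right this (by positivity)) (by positivity), ?_⟩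
  exact ((hH k).im_star_dotProduct_mulVec_self v).symm

/-- The bound passes to limits. -/
lemma GoodPair.limit {r B : ℝ} {G A : ℕ → Matrix n n ℂ} {G₀ A₀ : Matrix n n ℂ}
    (hG : ∀ k, (G k).IsHermitian) (hA : ∀ k, (A k).IsHermitian)
    (hGl : Tendsto G atTop (𝓝 G₀)) (hAl : Tendsto A atTop (𝓝 A₀))
    (h : ∀ k, GoodPair r B (G k) (A k)) : GoodPair r B G₀ A₀ := by
  intro hG₀ hA₀
  have hev := (eventually_posDef hG hGl hG₀).and (eventually_posDef hA hAl hA₀)
  have hS : Tendsto (fun k => mpow (G k) (-(1 / 2))) atTop (𝓝 (mpow G₀ (-(1 / 2)))) :=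
    (continuousOn_mpow_posDef _ G₀ hG₀).tendsto.comp
      (tendsto_nhdsWithin_iff.2 ⟨hGl, hev.mono fun k hk => hk.1⟩)
  have hM := (hS.mul hAl).mul hS
  have hP := (continuousOn_mpow_posDef r _ (posDef_whitened hG₀ hA₀)).tendsto.comp
    (tendsto_nhdsWithin_iff.2 ⟨hM, hev.mono fun k hk => posDef_whitened hk.1 hk.2⟩)
  have hc : Continuous fun M : Matrix n n ℂ => rtr M :=
    Complex.continuous_re.comp (continuous_id.matrix_trace)
  exact le_of_tendsto ((hc.tendsto _).comp hP) (hev.mono fun k hk => h k hk.1 hk.2)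

end Vale.Agent.P371.Gen
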